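import Mathlib

/-! # Row 91, module C0: `C₀(ι, F)` for a discrete space `ι`; separability of `ℓ²` and of `c₀`-sums -/

set_option autoImplicit false
set_option linter.unusedSectionVars false

namespace Crest.Agent.R091

open TopologicalSpace Filter
open scoped ZeroAtInfty Topology

section
variable {ι F : Type} [TopologicalSpace ι] [DiscreteTopology ι] [NormedAddCommGroup F]

/-- build an element of `C₀(ι, F)` from a null family -/
def mkC0 (f : ι → F) (h : Tendsto f cofinite (𝓝 0)) : C₀(ι, F) :=
  ⟨⟨f, continuous_of_discreteTopology⟩, by rw [cocompact_eq_cofinite]; exact h⟩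

@[simp] theorem mkC0_apply (f : ι → F) (h : Tendsto f cofinite (𝓝 0)) (i : ι) : mkC0 f h i = f i := rfl

theorem tendsto_cofinite_c0 (f : C₀(ι, F)) : Tendsto f cofinite (𝓝 0) := by
  have h := f.zero_at_infty'
  rw [cocompact_eq_cofinite] at h
  exact h

theorem norm_apply_le_c0 (f : C₀(ι, F)) (i : ι) : ‖f i‖ ≤ ‖f‖ := by
  have := f.toBCF.norm_coe_le_norm i
  rw [ZeroAtInftyContinuousMap.norm_toBCF_eq_norm] at this
  exact this

theorem norm_le_iff_c0 (f : C₀(ι, F)) {r : ℝ} (hr : 0 ≤ r) : ‖f‖ ≤ r ↔ ∀ i, ‖f i‖ ≤ r := by
  rw [← ZeroAtInftyContinuousMap.norm_toBCF_eq_norm]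
  exact BoundedContinuousFunction.norm_le hr


/-- finitely many coordinates -/
theorem sum_apply_c0 {κ : Type} (s : Finset κ) (g : κ → C₀(ι, F)) (m : ι) :
    (∑ n ∈ s, g n) m = ∑ n ∈ s, g n m := by
  classical
  induction s using Finset.induction_on with
  | empty => simp
  | insert a s ha ih => rw [Finset.sum_insert ha, Finset.sum_insert ha]; simp [ih]

/-- the vector `x` in position `i` -/
noncomputable def single_c0 (i : ι) (x : F) : C₀(ι, F) :=
  mkC0 (fun j => Set.indicator {i} (fun _ => x) j) (by
    refine tendsto_nhds_of_eventually_eq ?_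
    have : {i}ᶜ ∈ (cofinite : Filter ι) := by simp
    filter_upwards [this] with j hj
    exact Set.indicator_of_notMem hj _)


theorem single_c0_same (i : ι) (x : F) : single_c0 i x i = x := by
  exact Set.indicator_of_mem (f := fun _ : ι => x) (s := {i}) rfl

theorem single_c0_ne {i j : ι} (h : j ≠ i) (x : F) : single_c0 i x j = 0 := by
  exact Set.indicator_of_notMem (f := fun _ : ι => x) (s := {i}) h

theorem single_c0_sub (i : ι) (x y : F) : single_c0 i x - single_c0 i y = single_c0 i (x - y) := by
  ext j
  by_cases h : j = i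
  · subst h
    simp [single_c0_same]
  · simp [single_c0_ne h]

theorem norm_single_c0 (i : ι) (x : F) : ‖single_c0 i x‖ = ‖x‖ := by
  apply le_antisymm
  · rw [norm_le_iff_c0 _ (norm_nonneg _)]
    intro j
    by_cases h : j = i
    · subst h; rw [single_c0_same]
    · rw [single_c0_ne h, norm_zero]; exact norm_nonneg _
  · have := norm_apply_le_c0 (single_c0 i x) i
    rwa [single_c0_same] at this

theorem separable_c0 [Countable ι] [SeparableSpace F] [NormedSpace ℝ F] : SeparableSpace C₀(ι, F) := by
  classical
  have hcont : ∀ n : ι, Continuous (fun h : F => single_c0 n h) := by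
    intro n
    refine (LipschitzWith.of_dist_le_mul (K := 1) fun a b => ?_).continuous
    rw [dist_eq_norm, dist_eq_norm, single_c0_sub, norm_single_c0]; simp
  let T : (S : Finset ι) → (ι → F) → C₀(ι, F) := fun S h => ∑ i ∈ S, single_c0 i (h i)
  have hT : ∀ S, IsSeparable (Set.range (T S)) := by
    intro S
    refine isSeparable_range ?_
    exact continuous_finsetSum _ fun i _ => (hcont i).comp (continuous_apply i)
  have hU : IsSeparable (⋃ S, Set.range (T S)) := IsSeparable.iUnion hT
  have hd : closure (⋃ S, Set.range (T S)) = Set.univ := by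
    refine Set.eq_univ_of_forall fun f => ?_
    rw [Metric.mem_closure_iff]
    intro ε hε
    have h1 := tendsto_cofinite_c0 f
    rw [Metric.tendsto_nhds] at h1
    have h2 := h1 (ε / 2) (by positivity)
    rw [eventually_cofinite] at h2
    refine ⟨T h2.toFinset (fun i => f i), Set.mem_iUnion.2 ⟨_, Set.mem_range_self _⟩, ?_⟩
    rw [dist_eq_norm]
    have hle : ‖f - T h2.toFinset (fun i => f i)‖ ≤ ε / 2 := by
      rw [norm_le_iff_c0 _ (by positivity)]
      intro m
      have hTm : (T h2.toFinset fun i => f i) m = if m ∈ h2.toFinset then f m else 0 := by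
        show (∑ i ∈ h2.toFinset, single_c0 i (f i) : C₀(ι, F)) m = _
        rw [sum_apply_c0]
        split_ifs with hm
        · rw [Finset.sum_eq_single_of_mem m hm, single_c0_same]
          intro b _ hb
          exact single_c0_ne hb.symm _
        · refine Finset.sum_eq_zero fun b hb => single_c0_ne ?_ _
          rintro rfl
          exact hm hb
      rw [ZeroAtInftyContinuousMap.coe_sub, Pi.sub_apply, hTm]
      split_ifs with hm
      · simp; positivity
      · rw [sub_zero]
        rw [Set.Finite.mem_toFinset, Set.mem_ofPred_eq, not_not, dist_zero_right] at hm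
        exact hm.le
    linarith
  rw [← isSeparable_univ_iff, ← hd]
  exact hU.closure

end

/-- `ℓ²(ι; F)` is separable -/
theorem separable_lp2 {ι F : Type} [Countable ι] [NormedAddCommGroup F] [NormedSpace ℝ F] [SeparableSpace F] :
    SeparableSpace (lp (fun _ : ι => F) 2) := by
  classical
  have : Fact ((1 : ENNReal) ≤ 2) := ⟨by norm_num⟩
  have hcont : ∀ n : ι, Continuous (fun h : F => (lp.single 2 n h : lp (fun _ : ι => F) 2)) :=
    fun n => (lp.isometry_single (E := fun _ : ι => F) (p := 2) n).continuous
  let T : (S : Finset ι) → (ι → F) → lp (fun _ : ι => F) 2 := fun S h => ∑ i ∈ S, lp.single 2 i (h i)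
  have hT : ∀ N, IsSeparable (Set.range (T N)) := by
    intro N
    refine isSeparable_range ?_
    exact continuous_finsetSum _ fun i _ => (hcont i).comp (continuous_apply i)
  have hU : IsSeparable (⋃ N, Set.range (T N)) := IsSeparable.iUnion hT
  have hd : closure (⋃ N, Set.range (T N)) = Set.univ := by
    refine Set.eq_univ_of_forall fun f => ?_
    have h1 : HasSum (fun i : ι => (lp.single 2 i (f i) : lp (fun _ : ι => F) 2)) f :=
      lp.hasSum_single (by norm_num) f
    have h2 : Tendsto (fun S : Finset ι => T S (fun n => f n)) atTop (𝓝 f) := h1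
    refine mem_closure_of_tendsto h2 (Eventually.of_forall fun S => ?_)
    exact Set.mem_iUnion.2 ⟨S, Set.mem_range_self _⟩
  rw [← isSeparable_univ_iff, ← hd]
  exact hU.closure

end Crest.Agent.R091
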