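import Mathlib

/-!
# Row 91: definitions (helper441)

See the blueprint in the notes of rid 91.  `H` is a separable real Hilbert space (later `ℝ` or `ℓ²`).
Everything is parametrised by a context `X : Ctx H` (the absorbing isometry `J`, dense sequences and an
enumeration of the formal rational functionals).
-/

set_option autoImplicit false

namespace Crest.Agent.R091

open scoped ZeroAtInfty

/-- `ℓ²`. -/
abbrev Y : Type := lp (fun _ : ℕ => ℝ) 2

/-- A node: a scale `k` and a cell `c` of `ℤ^n`. -/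
abbrev Node : Type := ℤ × (Σ n : ℕ, Fin n → ℤ)

/-- The Hilbert space of every level. -/
abbrev V : Type := lp (fun _ : Node => Y) 2

/-- Index of the scalar coordinates: level `n`, `(g, a, c, k, d)`. -/
abbrev Sg : Type := Σ n : ℕ, (ℕ × ℤ × (Fin n → ℤ) × ℤ × ℕ)

/-- Index of the (countably many) functionals used on the levels `V_n`: `n`, `(k, c, s)`. -/
abbrev Mu : Type := Σ n : ℕ, (ℤ × (Fin n → ℤ) × ℕ)

/-- Blocks. -/
abbrev Bk : Type := Mu ⊕ Sg

/-- Formal rational functionals. -/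
abbrev GG : Type := Bk →₀ ℚ

/-- The level of a block. -/
def lev : Bk → ℕ
  | Sum.inl μ => μ.1
  | Sum.inr σ => σ.1

/-! ### Numerical parameters -/

noncomputable def Lam : ℝ := Real.exp 1000
/-- `sc k = Lam ^ k` -/
noncomputable def sc (k : ℤ) : ℝ := Real.exp (1000 * k)
/-- weights of the observables -/
noncomputable def om (i : ℕ) : ℝ := (1 / 2) ^ (i + 10)
noncomputable def rr (d : ℕ) : ℝ := 2 * Lam * 4 ^ d
noncomputable def rho (d : ℕ) : ℝ := 3 + 2 * d
noncomputable def hh (d : ℕ) : ℝ := 1 / (4 * rr d)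
/-- coefficient of the scalar coordinates of depth `d` -/
noncomputable def ep (d : ℕ) : ℝ := (1 / 100) * (1 / 2) ^ d

/-- the bump `cos (π x / 2)` on `[-1, 1]`, `0` outside -/
noncomputable def bump (x : ℝ) : ℝ := Real.cos (Real.pi / 2 * min |x| 1)

/-! ### The unit vectors `theta` -/

/-- `theta n y t` : the node vector with observable values `y i` (`i < n`) and size `t`. -/
noncomputable def thetaFun (n : ℕ) (y : ℕ → ℝ) (t : ℝ) : Node → ℝ := fun κ =>
  if κ.2.1 = n then
    bump (Real.log t / 1000 - κ.1) * ∏ i : Fin κ.2.1, bump (om i * y i / sc (κ.1 + 1) - κ.2.2 i)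
  else 0

/-! ### Contexts -/

section
variable (H : Type) [NormedAddCommGroup H] [InnerProductSpace ℝ H]

/-- `H ⊕₂ V`. -/
abbrev HV : Type := WithLp 2 (H × V)

/-- The domain of the Lipschitz functions: the `c₀`-sum of `H ⊕₂ V`. -/
abbrev P : Type := C₀(ℕ, HV H)

structure Ctx where
  /-- absorbing isometry -/
  J : WithLp 2 (H × Y) ≃ₗᵢ[ℝ] Y
  /-- dense sequence of the unit ball of `H ⊕₂ V` -/
  e : ℕ → HV H
  he1 : ∀ s, ‖e s‖ ≤ 1
  hed : ∀ x : HV H, ‖x‖ ≤ 1 → ∀ ε : ℝ, 0 < ε → ∃ s, ‖x - e s‖ < ε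
  /-- dense sequence of `V` -/
  dv : ℕ → V
  hdv : DenseRange dv
  /-- enumeration of the formal functionals -/
  en : ℕ → GG
  hen : Function.Surjective en

end

/-- `E`-part coming from the levels `V_n` -/
abbrev Vs : Type := C₀(ℕ, V)

/-- the weak space `E` -/
abbrev E : Type := Vs × C₀(Sg, ℝ)

section
variable {H : Type} [NormedAddCommGroup H] [InnerProductSpace ℝ H]

/-- observables: `obs i` depends only on `v m` with `m = (unpair i).1 ≤ i`. -/
noncomputable def obs (X : Ctx H) (i : ℕ) (v : ℕ → HV H) : ℝ :=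
  if (Nat.unpair i).2 = 0 then ‖v (Nat.unpair i).1‖
  else inner ℝ (X.e ((Nat.unpair i).2 - 1)) (v (Nat.unpair i).1)

end

/-! ### Tensor with a node vector, the rotation -/

theorem memℓp_smul_const (θ : lp (fun _ : Node => ℝ) 2) (y : Y) :
    Memℓp (fun κ => θ κ • y) 2 := by
  have hθ := lp.memℓp θ
  refine memℓp_gen ?_
  have h := hθ.summable (by norm_num)
  have : (fun κ : Node => ‖θ κ • y‖ ^ (ENNReal.toReal 2)) =
      fun κ => ‖θ κ‖ ^ (ENNReal.toReal 2) * ‖y‖ ^ (ENNReal.toReal 2) := by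
    funext κ
    rw [norm_smul, Real.mul_rpow (norm_nonneg _) (norm_nonneg _)]
  rw [this]
  exact h.mul_right _

/-- `θ ⊗ y`, as an element of `V` -/
noncomputable def tensV (θ : lp (fun _ : Node => ℝ) 2) (y : Y) : V :=
  ⟨fun κ => θ κ • y, memℓp_smul_const θ y⟩

@[simp] theorem tensV_apply (θ : lp (fun _ : Node => ℝ) 2) (y : Y) (κ : Node) :
    (tensV θ y) κ = θ κ • y := rfl

theorem norm_tensV (θ : lp (fun _ : Node => ℝ) 2) (y : Y) : ‖tensV θ y‖ = ‖θ‖ * ‖y‖ := by
  have h2 : (2 : ENNReal).toReal = 2 := by norm_num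
  have h0 : (0:ℝ) < (2 : ENNReal).toReal := by norm_num
  have e1 := lp.norm_rpow_eq_tsum h0 (tensV θ y)
  have e2 := lp.norm_rpow_eq_tsum h0 θ
  have : (fun κ : Node => ‖(tensV θ y) κ‖ ^ (ENNReal.toReal 2)) =
      fun κ => ‖θ κ‖ ^ (ENNReal.toReal 2) * ‖y‖ ^ (ENNReal.toReal 2) := by
    funext κ
    rw [tensV_apply, norm_smul, Real.mul_rpow (norm_nonneg _) (norm_nonneg _)]
  rw [this, tsum_mul_right, ← e2, ← Real.mul_rpow (norm_nonneg _) (norm_nonneg _)] at e1
  exact (Real.rpow_left_inj (norm_nonneg _) (by positivity) h0.ne').1 e1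

/-- `tens θ y = θ ⊗ y`, i.e. `(θ ⊗ y) κ = θ κ • y`.  See `Tens.lean` for its properties. -/
noncomputable def tens (θ : lp (fun _ : Node => ℝ) 2) : Y →L[ℝ] V :=
  LinearMap.mkContinuous
    { toFun := fun y => tensV θ y
      map_add' := fun a b => Subtype.ext (funext fun κ => smul_add (θ κ) a b)
      map_smul' := fun r a => Subtype.ext (funext fun κ => smul_comm (θ κ) r a) }
    ‖θ‖ (fun y => (norm_tensV θ y).le)

section
variable {H : Type} [NormedAddCommGroup H] [InnerProductSpace ℝ H]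

/-- `uu J T (x, w) = J (x, T* w) - T* w` -/
noncomputable def uu (J : WithLp 2 (H × Y) ≃ₗᵢ[ℝ] Y) (T : Y →L[ℝ] V) (v : HV H) : Y :=
  J (WithLp.toLp 2 (v.fst, ContinuousLinearMap.adjoint T v.snd)) - ContinuousLinearMap.adjoint T v.snd

/-- `rot J T (x, w) = w + T (J (x, T* w) - T* w)` -/
noncomputable def rot (J : WithLp 2 (H × Y) ≃ₗᵢ[ℝ] Y) (T : Y →L[ℝ] V) (v : HV H) : V :=
  v.snd + T (uu J T v)

end

/-! ### Windows, block functions, the recursion for the scalar coordinates -/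

/-- restriction of `w : V` to a set of nodes -/
noncomputable def restr (S : Set Node) (w : V) : V :=
  ⟨fun κ => S.indicator (fun κ => w κ) κ, by
    have hw := lp.memℓp w
    refine memℓp_gen ?_
    refine Summable.of_nonneg_of_le (fun κ => by positivity) (fun κ => ?_)
      (hw.summable (by norm_num))
    have h2 : (2 : ENNReal).toReal = 2 := by norm_num
    rw [h2]
    refine Real.rpow_le_rpow (norm_nonneg _) ?_ (by norm_num)
    by_cases h : κ ∈ S
    · simp [Set.indicator_of_mem h]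
    · simp [Set.indicator_of_notMem h]⟩

/-- window of nodes around the cell `c` at scale `k`, level `n` -/
def win (n : ℕ) (k : ℤ) (c : Fin n → ℤ) : Set Node :=
  {κ | ∃ c' : Fin n → ℤ, κ = (k, ⟨n, c'⟩) ∧ ∀ i, |c' i - c i| ≤ 1}

/-- `θ_n(v)` for general observables: see `Theta.lean` (`thetaFun` is always in `ℓ²`, with norm one). -/
noncomputable def theta (n : ℕ) (y : ℕ → ℝ) (t : ℝ) : lp (fun _ : Node => ℝ) 2 :=
  open Classical in
  if h : Memℓp (thetaFun n y t) 2 then ⟨thetaFun n y t, h⟩ else 0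

/-- tent: `x` for `|x| ≤ h`, back to `0` for `|x| ≥ 2h` -/
noncomputable def tent (h x : ℝ) : ℝ := max (min x (2 * h - x)) 0 - max (min (-x) (2 * h + x)) 0

/-- soft thresholding `x - clip(x; ±b)` -/
noncomputable def soft (b x : ℝ) : ℝ := max (x - b) 0 - max (-x - b) 0

section
variable {H : Type} [NormedAddCommGroup H] [InnerProductSpace ℝ H]

noncomputable def th (X : Ctx H) (n : ℕ) (v : ℕ → HV H) : lp (fun _ : Node => ℝ) 2 :=
  theta n (fun i => obs X i v) ‖v n‖

/-- `β_n(v)`, the `V_n`-component of `β` -/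
noncomputable def beta (X : Ctx H) (n : ℕ) (v : ℕ → HV H) : V :=
  tens (th X n v) (uu X.J (tens (th X n v)) (v n))

/-- the functional with index `μ = ⟨n, k, c, s⟩` on `V_n` (a vector of norm `≤ 1`) -/
noncomputable def fV (X : Ctx H) (μ : Mu) : V :=
  open Classical in
  if ‖restr (win μ.1 μ.2.1 μ.2.2.1) (X.dv μ.2.2.2)‖ ≤ 1 then
    restr (win μ.1 μ.2.1 μ.2.2.1) (X.dv μ.2.2.2) else 0

/-- signed cell function: `≤ 0` exactly on the cell of depth `d` -/
noncomputable def sfun (X : Ctx H) (n : ℕ) (k : ℤ) (c : Fin n → ℤ) (d : ℕ) (v : ℕ → HV H) : ℝ :=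
  (1 / 2) * sc k * Finset.univ.sup' Finset.univ_nonempty (fun j : Option (Fin n) =>
    match j with
    | none => max (1 / rr d - ‖v n‖ / sc k) (‖v n‖ / sc k - rr d)
    | some i => |om i * obs X i v / sc (k + 1) - c i| - rho d)

/-- block functions with respect to a table `T` of scalar coordinates -/
noncomputable def DBT (X : Ctx H) (T : Sg → (ℕ → HV H) → ℝ) (b : Bk) (v : ℕ → HV H) : ℝ :=
  match b with
  | Sum.inl μ => inner ℝ (fV X μ) (beta X μ.1 v)
  | Sum.inr σ => T σ v

/-- `D_G` restricted to blocks of level `< n`, with respect to a table -/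
noncomputable def DT (X : Ctx H) (T : Sg → (ℕ → HV H) → ℝ) (n : ℕ) (G : GG) (v : ℕ → HV H) : ℝ :=
  G.sum fun b q => if lev b < n then (q : ℝ) * DBT X T b v else 0

/-- the value of the coordinate `σ`, given the function `F` playing the role of `D_G` -/
noncomputable def gval (X : Ctx H) (F : (ℕ → HV H) → ℝ) (n : ℕ) (a : ℤ) (c : Fin n → ℤ) (k : ℤ) (d : ℕ)
    (v : ℕ → HV H) : ℝ :=
  ep d * soft (max 0 (sfun X n k c d v)) (tent (hh d * sc k) (F v - a * (hh d * sc k)))

/-- the tables: `Tab n` is correct for the coordinates of level `< n`, and `0` for the others -/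
noncomputable def Tab (X : Ctx H) : ℕ → Sg → (ℕ → HV H) → ℝ
  | 0 => fun _ _ => 0
  | n + 1 => fun σ v =>
    open Classical in
    if σ.1 = n then
      if σ.2.1 < σ.1 ∧ ∀ p p' : P H, |DT X (Tab X n) n (X.en σ.2.1) p - DT X (Tab X n) n (X.en σ.2.1) p'| ≤ ‖p - p'‖
      then gval X (DT X (Tab X n) n (X.en σ.2.1)) σ.1 σ.2.2.1 σ.2.2.2.1 σ.2.2.2.2.1 σ.2.2.2.2.2 v
      else 0
    else Tab X n σ v

/-- the scalar coordinates of `β` -/
noncomputable def Phi (X : Ctx H) (σ : Sg) (v : ℕ → HV H) : ℝ := Tab X (σ.1 + 1) σ v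

/-- block functions `D_b = b ∘ β` -/
noncomputable def DB (X : Ctx H) (b : Bk) (v : ℕ → HV H) : ℝ := DBT X (Phi X) b v

/-- `D_G = G ∘ β` -/
noncomputable def DG (X : Ctx H) (G : GG) (v : ℕ → HV H) : ℝ :=
  G.sum fun b q => (q : ℝ) * DB X b v

end

end Crest.Agent.R091
private theorem rz_63be7b30d2 : type_of% @_root_.Crest.Agent.R091.Tab.eq_def := @_root_.Crest.Agent.R091.Tab.eq_def -- L234
private theorem rz_6deeaee755 : type_of% @_root_.Crest.Agent.R091.Tab.eq_1 := @_root_.Crest.Agent.R091.Tab.eq_1 -- L234
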