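import Mathlib
import Crest.Agent.R091.Defs
import Crest.Agent.R091.C0

-- ▼ part R091/Frame
section

/-!
Row 91 (S0120, S0121): the abstract framework.

`β : P → E` is a Lipschitz map with `β p₀ = 0`; `Adm β C R G` says that `G ∈ E*` has norm `≤ R` and
`G ∘ β` is `C`-Lipschitz; `qs β C R z = sup {|G z| : Adm β C R G}`.
`D.Z0` is the Banach space of all `z ∈ E` with `∑ 2^(-l-1) q_l(z) < ∞` and `D.Z` the closed linear
span of the range of `β` in it.
-/

set_option autoImplicit false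
set_option linter.all false

noncomputable section

namespace Crest.Agent.R091.Fr

open Finset Topology

section Adm

variable {P E : Type} [MetricSpace P] [NormedAddCommGroup E] [NormedSpace ℝ E]

/-- admissible functionals -/
structure Adm (β : P → E) (C R : ℝ) (G : E →L[ℝ] ℝ) : Prop where
  lip : ∀ p p', |G (β p) - G (β p')| ≤ C * dist p p'
  bd : ‖G‖ ≤ R

lemma Adm.mono {β : P → E} {C R R' : ℝ} {G : E →L[ℝ] ℝ} (h : Adm β C R G) (hR : R ≤ R') :
    Adm β C R' G := ⟨h.lip, h.bd.trans hR⟩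

lemma Adm.abs_le {β : P → E} {C R : ℝ} {G : E →L[ℝ] ℝ} (h : Adm β C R G) (z : E) :
    |G z| ≤ R * ‖z‖ := by
  have h1 := G.le_opNorm z
  rw [Real.norm_eq_abs] at h1
  exact h1.trans (mul_le_mul_of_nonneg_right h.bd (norm_nonneg z))

lemma Adm.zero {β : P → E} {C R : ℝ} (hC : 0 ≤ C) (hR : 0 ≤ R) : Adm β C R (0 : E →L[ℝ] ℝ) :=
  ⟨fun p p' => by simpa using mul_nonneg hC dist_nonneg, by simpa using hR⟩

/-- the seminorm defined by the admissible functionals of norm `≤ R` -/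
def qs (β : P → E) (C R : ℝ) (z : E) : ℝ := ⨆ G : {G : E →L[ℝ] ℝ // Adm β C R G}, |G.1 z|

variable {β : P → E} {C R : ℝ}

lemma qs_bdd (z : E) :
    BddAbove (Set.range fun G : {G : E →L[ℝ] ℝ // Adm β C R G} => |G.1 z|) := by
  refine ⟨R * ‖z‖, ?_⟩
  rintro _ ⟨G, rfl⟩
  exact G.2.abs_le z

lemma le_qs {G : E →L[ℝ] ℝ} (h : Adm β C R G) (z : E) : |G z| ≤ qs β C R z :=
  le_ciSup (f := fun G : {G : E →L[ℝ] ℝ // Adm β C R G} => |G.1 z|) (qs_bdd z) ⟨G, h⟩

lemma qs_le (hC : 0 ≤ C) (hR : 0 ≤ R) {z : E} {b : ℝ}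
    (h : ∀ G : E →L[ℝ] ℝ, Adm β C R G → |G z| ≤ b) : qs β C R z ≤ b := by
  have : Nonempty {G : E →L[ℝ] ℝ // Adm β C R G} := ⟨⟨0, Adm.zero hC hR⟩⟩
  exact ciSup_le fun G => h G.1 G.2

lemma qs_nonneg (hC : 0 ≤ C) (hR : 0 ≤ R) (z : E) : 0 ≤ qs β C R z := by
  have := le_qs (β := β) (C := C) (R := R) (Adm.zero hC hR) z
  simpa using this


lemma qs_le_norm (hC : 0 ≤ C) (hR : 0 ≤ R) (z : E) : qs β C R z ≤ R * ‖z‖ :=
  qs_le hC hR fun G hG => hG.abs_le z

lemma qs_add (hC : 0 ≤ C) (hR : 0 ≤ R) (z w : E) :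
    qs β C R (z + w) ≤ qs β C R z + qs β C R w :=
  qs_le hC hR fun G hG => by
    rw [map_add]
    exact (abs_add_le _ _).trans (add_le_add (le_qs hG z) (le_qs hG w))

lemma qs_smul_le (hC : 0 ≤ C) (hR : 0 ≤ R) (a : ℝ) (z : E) :
    qs β C R (a • z) ≤ |a| * qs β C R z :=
  qs_le hC hR fun G hG => by
    rw [map_smul, smul_eq_mul, abs_mul]
    exact mul_le_mul_of_nonneg_left (le_qs hG z) (abs_nonneg a)

lemma qs_zero (hC : 0 ≤ C) (hR : 0 ≤ R) : qs β C R (0 : E) = 0 := by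
  refine le_antisymm ?_ (qs_nonneg hC hR 0)
  simpa using qs_le_norm (β := β) hC hR (0 : E)

lemma qs_smul (hC : 0 ≤ C) (hR : 0 ≤ R) (a : ℝ) (z : E) :
    qs β C R (a • z) = |a| * qs β C R z := by
  refine le_antisymm (qs_smul_le hC hR a z) ?_
  by_cases ha : a = 0
  · rw [ha, abs_zero, zero_mul]
    exact qs_nonneg hC hR _
  · have h := qs_smul_le (β := β) hC hR a⁻¹ (a • z)
    rw [smul_smul, inv_mul_cancel₀ ha, one_smul, abs_inv] at h
    have h2 : 0 < |a| := abs_pos.2 ha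
    calc |a| * qs β C R z ≤ |a| * (|a|⁻¹ * qs β C R (a • z)) :=
          mul_le_mul_of_nonneg_left h (abs_nonneg a)
      _ = qs β C R (a • z) := by rw [← mul_assoc, mul_inv_cancel₀ h2.ne', one_mul]

lemma qs_neg (hC : 0 ≤ C) (hR : 0 ≤ R) (z : E) : qs β C R (-z) = qs β C R z := by
  have := qs_smul (β := β) hC hR (-1) z
  simpa using this

lemma qs_sub (hC : 0 ≤ C) (hR : 0 ≤ R) (z w : E) :
    qs β C R (z - w) ≤ qs β C R z + qs β C R w := by
  rw [sub_eq_add_neg]
  exact (qs_add hC hR _ _).trans (by rw [qs_neg hC hR])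

lemma qs_inc (hC : 0 ≤ C) (hR : 0 ≤ R) (p p' : P) : qs β C R (β p - β p') ≤ C * dist p p' :=
  qs_le hC hR fun G hG => by
    rw [map_sub]
    exact hG.lip p p'

lemma norm_le_qs (hR : 1 ≤ R) (hn : ∀ z : E, ∀ e > 0, ∃ G : E →L[ℝ] ℝ, Adm β C 1 G ∧ ‖z‖ - e ≤ |G z|)
    (z : E) : ‖z‖ ≤ qs β C R z := by
  refine le_of_forall_pos_le_add fun e he => ?_
  obtain ⟨G, hG, hGz⟩ := hn z e he
  have h := le_qs (hG.mono hR) z
  linarith

/-- If `β` is `C`-Lipschitz for the norm of `E`, the admissible functionals are norming. -/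
lemma norming_of_lip (hβ : ∀ p p', ‖β p - β p'‖ ≤ C * dist p p') (z : E) (e : ℝ) (he : 0 < e) :
    ∃ G : E →L[ℝ] ℝ, Adm β C 1 G ∧ ‖z‖ - e ≤ |G z| := by
  obtain ⟨g, hg, hgz⟩ := exists_dual_vector'' ℝ z
  have hadm : Adm β C 1 g := by
    refine ⟨fun p p' => ?_, hg⟩
    rw [← map_sub]
    have h1 := g.le_opNorm (β p - β p')
    rw [Real.norm_eq_abs] at h1
    refine h1.trans ?_
    calc ‖g‖ * ‖β p - β p'‖ ≤ 1 * ‖β p - β p'‖ :=
          mul_le_mul_of_nonneg_right hg (norm_nonneg _)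
      _ ≤ C * dist p p' := by rw [one_mul]; exact hβ p p'
  refine ⟨g, hadm, ?_⟩
  rw [hgz]
  simp
  exact he.le

end Adm

/-- The data of the construction. -/
structure Par (P E : Type) [MetricSpace P] [NormedAddCommGroup E] [NormedSpace ℝ E] where
  β : P → E
  C : ℝ
  R : ℕ → ℝ
  p₀ : P
  hC : 0 ≤ C
  hR : ∀ l, 1 ≤ R l
  β_p₀ : β p₀ = 0
  norming : ∀ z : E, ∀ e > 0, ∃ G : E →L[ℝ] ℝ, Adm β C 1 G ∧ ‖z‖ - e ≤ |G z|

namespace Par

variable {P E : Type} [MetricSpace P] [NormedAddCommGroup E] [NormedSpace ℝ E] (D : Par P E)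

lemma hR0 (l : ℕ) : 0 ≤ D.R l := zero_le_one.trans (D.hR l)

/-- the seminorms -/
def q (l : ℕ) (z : E) : ℝ := qs D.β D.C (D.R l) z

lemma q_nonneg (l : ℕ) (z : E) : 0 ≤ D.q l z := qs_nonneg D.hC (D.hR0 l) z
lemma q_zero (l : ℕ) : D.q l 0 = 0 := qs_zero D.hC (D.hR0 l)
lemma q_add (l : ℕ) (z w : E) : D.q l (z + w) ≤ D.q l z + D.q l w := qs_add D.hC (D.hR0 l) z w
lemma q_sub (l : ℕ) (z w : E) : D.q l (z - w) ≤ D.q l z + D.q l w := qs_sub D.hC (D.hR0 l) z w
lemma q_smul (l : ℕ) (a : ℝ) (z : E) : D.q l (a • z) = |a| * D.q l z :=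
  qs_smul D.hC (D.hR0 l) a z
lemma q_inc (l : ℕ) (p p' : P) : D.q l (D.β p - D.β p') ≤ D.C * dist p p' :=
  qs_inc D.hC (D.hR0 l) p p'
lemma q_le_norm (l : ℕ) (z : E) : D.q l z ≤ D.R l * ‖z‖ := qs_le_norm D.hC (D.hR0 l) z
lemma norm_le_q (l : ℕ) (z : E) : ‖z‖ ≤ D.q l z := norm_le_qs (D.hR l) D.norming z

/-- the weights -/
def wt (l : ℕ) : ℝ := 1 / 2 / 2 ^ l

lemma wt_pos (l : ℕ) : 0 < wt l := by unfold wt; positivity

lemma hasSum_wt : HasSum wt 1 := hasSum_geometric_two' 1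

lemma summable_wt : Summable wt := hasSum_wt.summable

/-- the domain of the norm -/
def Z0sub : Submodule ℝ E where
  carrier := {z | Summable fun l => wt l * D.q l z}
  add_mem' := by
    intro z w hz hw
    refine Summable.of_nonneg_of_le (fun l => mul_nonneg (wt_pos l).le (D.q_nonneg l _))
      (fun l => ?_) (hz.add hw)
    rw [← mul_add]
    exact mul_le_mul_of_nonneg_left (D.q_add l z w) (wt_pos l).le
  zero_mem' := by
    have : (fun l => wt l * D.q l (0 : E)) = fun _ => 0 := by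
      funext l
      rw [D.q_zero, mul_zero]
    change Summable _
    rw [this]
    exact summable_zero
  smul_mem' := by
    intro a z hz
    have : (fun l => wt l * D.q l (a • z)) = fun l => |a| * (wt l * D.q l z) := by
      funext l
      rw [D.q_smul]
      ring
    change Summable _
    rw [this]
    exact Summable.mul_left _ hz

lemma mem_Z0sub {z : E} : z ∈ D.Z0sub ↔ Summable fun l => wt l * D.q l z := Iff.rfl

/-- the large space -/
def Z0 : Type := D.Z0sub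

instance : AddCommGroup D.Z0 := inferInstanceAs (AddCommGroup D.Z0sub)
instance : Module ℝ D.Z0 := inferInstanceAs (Module ℝ D.Z0sub)

/-- the underlying vector -/
def val : D.Z0 →ₗ[ℝ] E := D.Z0sub.subtype

variable {D}

lemma val_injective : Function.Injective D.val := Subtype.val_injective

lemma summable_val (z : D.Z0) : Summable fun l => wt l * D.q l (D.val z) := z.2

variable (D)

/-- constructor -/
def mkZ0 (z : E) (hz : Summable fun l => wt l * D.q l z) : D.Z0 := ⟨z, hz⟩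

@[simp] lemma val_mkZ0 (z : E) (hz : Summable fun l => wt l * D.q l z) :
    D.val (D.mkZ0 z hz) = z := rfl

instance : Norm D.Z0 := ⟨fun z => ∑' l, wt l * D.q l (D.val z)⟩

variable {D}

lemma norm_Z0 (z : D.Z0) : ‖z‖ = ∑' l, wt l * D.q l (D.val z) := rfl

lemma term_nonneg (z : E) (l : ℕ) : 0 ≤ wt l * D.q l z :=
  mul_nonneg (wt_pos l).le (D.q_nonneg l z)

lemma norm_Z0_nonneg (z : D.Z0) : 0 ≤ ‖z‖ := tsum_nonneg (term_nonneg _)

lemma norm_val_le' (z : D.Z0) : ‖D.val z‖ ≤ ‖z‖ := by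
  have h1 : HasSum (fun l => wt l * ‖D.val z‖) (1 * ‖D.val z‖) := hasSum_wt.mul_right _
  rw [norm_Z0, ← one_mul ‖D.val z‖, ← h1.tsum_eq]
  exact h1.summable.tsum_le_tsum
    (fun l => mul_le_mul_of_nonneg_left (D.norm_le_q l _) (wt_pos l).le) (summable_val z)

lemma core : NormedSpace.Core ℝ D.Z0 where
  norm_nonneg := norm_Z0_nonneg
  norm_smul c z := by
    rw [norm_Z0, norm_Z0, Real.norm_eq_abs, ← tsum_mul_left]
    congr 1
    funext l
    rw [map_smul, D.q_smul]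
    ring
  norm_triangle z w := by
    rw [norm_Z0, norm_Z0, norm_Z0, ← (summable_val z).tsum_add (summable_val w)]
    refine (summable_val (z + w)).tsum_le_tsum (fun l => ?_)
      ((summable_val z).add (summable_val w))
    rw [← mul_add, map_add]
    exact mul_le_mul_of_nonneg_left (D.q_add l _ _) (wt_pos l).le
  norm_eq_zero_iff z := by
    constructor
    · intro h
      have h1 := norm_val_le' z
      rw [h] at h1
      apply val_injective
      rw [map_zero]
      exact norm_le_zero_iff.1 h1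
    · rintro rfl
      rw [norm_Z0]
      simp [D.q_zero]

instance : NormedAddCommGroup D.Z0 := NormedAddCommGroup.ofCore core
instance : NormedSpace ℝ D.Z0 := NormedSpace.ofCore core

lemma norm_Z0_eq (z : D.Z0) : ‖z‖ = ∑' l, wt l * D.q l (D.val z) := rfl

lemma norm_val_le (z : D.Z0) : ‖D.val z‖ ≤ ‖z‖ := norm_val_le' z

lemma wt_mul_q_le (z : D.Z0) (l : ℕ) : wt l * D.q l (D.val z) ≤ ‖z‖ :=
  (summable_val z).le_tsum l (fun j _ => term_nonneg _ j)


/-- the underlying vector as a continuous map -/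
def valL (D : Par P E) : D.Z0 →L[ℝ] E := D.val.mkContinuous 1 (fun z => by
  rw [one_mul]; exact norm_val_le z)

@[simp] lemma valL_apply (z : D.Z0) : D.valL z = D.val z := rfl

lemma norm_le_of_partial {z : D.Z0} {b : ℝ}
    (h : ∀ n, ∑ l ∈ range n, wt l * D.q l (D.val z) ≤ b) : ‖z‖ ≤ b :=
  Real.tsum_le_of_sum_range_le (term_nonneg _) h

instance [CompleteSpace E] : CompleteSpace D.Z0 := by
  refine Metric.complete_of_cauchySeq_tendsto fun u hu => ?_
  have hv : CauchySeq fun n => D.val (u n) := by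
    refine Metric.cauchySeq_iff.2 fun ε hε => ?_
    obtain ⟨N, hN⟩ := Metric.cauchySeq_iff.1 hu ε hε
    refine ⟨N, fun m hm n hn => ?_⟩
    rw [dist_eq_norm, ← map_sub]
    exact (norm_val_le _).trans_lt (by rw [← dist_eq_norm]; exact hN m hm n hn)
  obtain ⟨z, hz⟩ := cauchySeq_tendsto_of_complete hv
  -- partial sums
  have key : ∀ ε > 0, ∃ N, ∀ n ≥ N, ∀ k, ∑ l ∈ range k, wt l * D.q l (D.val (u n) - z) ≤ ε := by
    intro ε hε
    obtain ⟨N, hN⟩ := Metric.cauchySeq_iff.1 hu ε hε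
    refine ⟨N, fun n hn k => ?_⟩
    have h1 : ∀ m ≥ N, ∑ l ∈ range k, wt l * D.q l (D.val (u n) - D.val (u m)) ≤ ε := by
      intro m hm
      have h2 := hN n hn m hm
      rw [dist_eq_norm, norm_Z0_eq] at h2
      refine le_trans ?_ h2.le
      have h3 := (summable_val (u n - u m)).sum_le_tsum (range k) (fun l _ => term_nonneg _ l)
      rwa [map_sub] at h3 ⊢
    have h4 : Filter.Tendsto (fun m => ∑ l ∈ range k, wt l * D.q l (D.val (u n) - D.val (u m)))
        Filter.atTop (𝓝 (∑ l ∈ range k, wt l * D.q l (D.val (u n) - z))) := by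
      refine tendsto_finset_sum _ fun l _ => Filter.Tendsto.const_mul _ ?_
      -- `q l` is Lipschitz
      refine tendsto_iff_dist_tendsto_zero.2 ?_
      have h5 : Filter.Tendsto (fun m => D.R l * ‖D.val (u m) - z‖) Filter.atTop (𝓝 0) := by
        have := (tendsto_iff_norm_sub_tendsto_zero.1 hz).const_mul (D.R l)
        simpa using this
      refine squeeze_zero (fun _ => dist_nonneg) (fun m => ?_) h5
      rw [Real.dist_eq, abs_sub_le_iff]
      constructor
      · have h6 := D.q_add l (D.val (u n) - z) (z - D.val (u m))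
        rw [show D.val (u n) - z + (z - D.val (u m)) = D.val (u n) - D.val (u m) by abel] at h6
        have h7 := D.q_le_norm l (z - D.val (u m))
        rw [norm_sub_rev] at h7
        linarith
      · have h6 := D.q_add l (D.val (u n) - D.val (u m)) (D.val (u m) - z)
        rw [show D.val (u n) - D.val (u m) + (D.val (u m) - z) = D.val (u n) - z by abel] at h6
        have h7 := D.q_le_norm l (D.val (u m) - z)
        linarith
    exact le_of_tendsto h4 (Filter.eventually_atTop.2 ⟨N, h1⟩)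
  -- the limit belongs to the space
  have hsum : ∀ n, (∀ k, ∑ l ∈ range k, wt l * D.q l (D.val (u n) - z) ≤ 1) → z ∈ D.Z0sub := by
    intro n hn
    have h1 : D.val (u n) - z ∈ D.Z0sub := by
      rw [mem_Z0sub]
      exact summable_of_sum_range_le (term_nonneg _) hn
    have h2 := D.Z0sub.sub_mem (u n).2 h1
    have h3 : ((u n).1 : E) - (D.val (u n) - z) = z := by
      change D.val (u n) - (D.val (u n) - z) = z
      abel
    rwa [h3] at h2
  obtain ⟨N, hN⟩ := key 1 one_pos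
  have hzm := (D.mem_Z0sub).1 (hsum N (hN N le_rfl))
  refine ⟨D.mkZ0 z hzm, Metric.tendsto_atTop.2 fun ε hε => ?_⟩
  obtain ⟨N', hN'⟩ := key (ε / 2) (by positivity)
  refine ⟨N', fun n hn => ?_⟩
  rw [dist_eq_norm]
  refine lt_of_le_of_lt (norm_le_of_partial (b := ε / 2) fun k => ?_) (by linarith)
  rw [map_sub, val_mkZ0]
  exact hN' n hn k

open Classical in
/-- `Z0` is separable if `E` is. -/
instance separable_Z0 [TopologicalSpace.SeparableSpace E] :
    TopologicalSpace.SeparableSpace D.Z0 := by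
  obtain ⟨d, hd⟩ := TopologicalSpace.exists_dense_seq E
  let tl : ℕ → D.Z0 → ℝ := fun L z => ∑' l, wt (l + L) * D.q (l + L) (D.val z)
  let Q : ℕ × ℕ × ℕ × ℕ → D.Z0 → Prop := fun t z =>
    ‖D.val z - d t.2.2.1‖ ≤ 1 / ((t.2.2.2 : ℝ) + 1) ∧ tl t.1 z ≤ 1 / ((t.2.1 : ℝ) + 1)
  let f : ℕ × ℕ × ℕ × ℕ → D.Z0 := fun t => if h : ∃ z, Q t z then h.choose else 0
  refine DenseRange.separableSpace (f := f) ?_ continuous_of_discreteTopology
  refine Metric.denseRange_iff.2 fun z ε hε => ?_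
  obtain ⟨k, hk⟩ := exists_nat_one_div_lt (show (0 : ℝ) < ε / 4 by positivity)
  have htail : Filter.Tendsto (fun L => tl L z) Filter.atTop (𝓝 0) :=
    tendsto_sum_nat_add fun l => wt l * D.q l (D.val z)
  obtain ⟨L, hL⟩ := (htail.eventually (gt_mem_nhds
    (show (0 : ℝ) < 1 / ((k : ℝ) + 1) by positivity))).exists
  set S : ℝ := ∑ l ∈ range L, wt l * D.R l with hS
  have hS0 : 0 ≤ S := Finset.sum_nonneg fun l _ => mul_nonneg (wt_pos l).le (D.hR0 l)
  obtain ⟨m, hm⟩ := exists_nat_one_div_lt (show (0 : ℝ) < ε / (4 * (S + 1)) by positivity)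
  obtain ⟨i, hi⟩ := Metric.denseRange_iff.1 hd (D.val z) (1 / ((m : ℝ) + 1)) (by positivity)
  have hex : ∃ z', Q (L, k, i, m) z' := ⟨z, by
    rw [dist_eq_norm] at hi
    exact hi.le, hL.le⟩
  refine ⟨(L, k, i, m), ?_⟩
  have hf : f (L, k, i, m) = hex.choose := dif_pos hex
  obtain ⟨h1, h2⟩ := hex.choose_spec
  rw [hf]
  set z' := hex.choose with hz'
  rw [dist_eq_norm, norm_Z0_eq]
  have e := (summable_val (z - z')).sum_add_tsum_nat_add L
  have hd1 : ‖D.val z - D.val z'‖ ≤ 2 * (1 / ((m : ℝ) + 1)) := by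
    rw [dist_eq_norm] at hi
    have h3 : ‖D.val z - D.val z'‖ ≤ ‖D.val z - d i‖ + ‖D.val z' - d i‖ := by
      rw [show D.val z - D.val z' = (D.val z - d i) - (D.val z' - d i) by abel]
      exact norm_sub_le _ _
    have h4 : ‖D.val z' - d i‖ ≤ 1 / ((m : ℝ) + 1) := h1
    linarith
  have a1 : ∑ l ∈ range L, wt l * D.q l (D.val (z - z')) ≤ S * (2 * (1 / ((m : ℝ) + 1))) := by
    rw [hS, Finset.sum_mul]
    refine Finset.sum_le_sum fun l _ => ?_
    rw [mul_assoc]
    refine mul_le_mul_of_nonneg_left ?_ (wt_pos l).le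
    refine (D.q_le_norm l _).trans (mul_le_mul_of_nonneg_left ?_ (D.hR0 l))
    rw [map_sub]
    exact hd1
  have a2 : ∑' l, wt (l + L) * D.q (l + L) (D.val (z - z')) ≤ tl L z + tl L z' := by
    have s1 := (summable_nat_add_iff L).2 (summable_val z)
    have s2 := (summable_nat_add_iff L).2 (summable_val z')
    have s3 := (summable_nat_add_iff L).2 (summable_val (z - z'))
    change _ ≤ ∑' l, wt (l + L) * D.q (l + L) (D.val z) +
      ∑' l, wt (l + L) * D.q (l + L) (D.val z')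
    rw [← s1.tsum_add s2]
    refine s3.tsum_le_tsum (fun l => ?_) (s1.add s2)
    rw [← mul_add, map_sub]
    exact mul_le_mul_of_nonneg_left (D.q_sub _ _ _) (wt_pos _).le
  have a3 : S * (2 * (1 / ((m : ℝ) + 1))) ≤ ε / 2 := by
    have h5 : (1 / ((m : ℝ) + 1)) * (4 * (S + 1)) < ε := by
      rwa [lt_div_iff₀ (by positivity)] at hm
    have h6 : (0 : ℝ) < 1 / ((m : ℝ) + 1) := by positivity
    nlinarith
  have h7 : tl L z' ≤ 1 / ((k : ℝ) + 1) := h2
  rw [← e]
  linarith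

variable (D)

lemma β_mem (p : P) : Summable fun l => wt l * D.q l (D.β p) := by
  refine Summable.of_nonneg_of_le (term_nonneg _) (fun l => ?_)
    (summable_wt.mul_right (D.C * dist p D.p₀))
  have h := D.q_inc l p D.p₀
  rw [D.β_p₀, sub_zero] at h
  exact mul_le_mul_of_nonneg_left h (wt_pos l).le

/-- `β` with values in `Z0` -/
def β0 (p : P) : D.Z0 := D.mkZ0 (D.β p) (D.β_mem p)

@[simp] lemma val_β0 (p : P) : D.val (D.β0 p) = D.β p := rfl

lemma β0_lip (p p' : P) : ‖D.β0 p - D.β0 p'‖ ≤ D.C * dist p p' := by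
  have h1 : HasSum (fun l => wt l * (D.C * dist p p')) (1 * (D.C * dist p p')) :=
    hasSum_wt.mul_right _
  rw [norm_Z0_eq, ← one_mul (D.C * dist p p'), ← h1.tsum_eq]
  refine (summable_val _).tsum_le_tsum (fun l => ?_) h1.summable
  rw [map_sub]
  exact mul_le_mul_of_nonneg_left (D.q_inc l p p') (wt_pos l).le



/-- the space `Z` -/
def Zs : Submodule ℝ D.Z0 := (Submodule.span ℝ (Set.range D.β0)).topologicalClosure

/-- the space `Z` -/
abbrev Z : Type := D.Zs

lemma isClosed_Zs : IsClosed (D.Zs : Set D.Z0) := Submodule.isClosed_topologicalClosure _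

instance [CompleteSpace E] : CompleteSpace D.Z :=
  D.isClosed_Zs.completeSpace_coe

instance separable_Z [TopologicalSpace.SeparableSpace E] :
    TopologicalSpace.SeparableSpace D.Z := by
  have := UniformSpace.secondCountable_of_separable D.Z0
  infer_instance


/-- `β` with values in `Z` -/
def βZ (p : P) : D.Z := ⟨D.β0 p, Submodule.le_topologicalClosure _
  (Submodule.subset_span ⟨p, rfl⟩)⟩

lemma βZ_lip (p p' : P) : ‖D.βZ p - D.βZ p'‖ ≤ D.C * dist p p' := D.β0_lip p p'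

/-- the map to `E` -/
def valZ : D.Z →L[ℝ] E := D.valL.comp D.Zs.subtypeL

@[simp] lemma valZ_βZ (p : P) : D.valZ (D.βZ p) = D.β p := rfl


lemma norm_valZ_le (z : D.Z) : ‖D.valZ z‖ ≤ ‖z‖ := norm_val_le z.1


lemma wt_mul_qZ_le' (z : D.Z) (l : ℕ) : wt l * D.q l (D.valZ z) ≤ ‖z‖ := wt_mul_q_le z.1 l


end Par

/-! ## The homeomorphism -/

section Psi

variable {A V P E : Type} [NormedAddCommGroup A] [NormedAddCommGroup V] [NormedSpace ℝ V]
  [MetricSpace P] [NormedAddCommGroup E] [NormedSpace ℝ E] (D : Par P E) (π : E →L[ℝ] V)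
  (ι : A × V → P)

/-- `Ψ(a,z) = z + β(ι(a, π z))` -/
def Psi (s : A × D.Z) : D.Z := s.2 + D.βZ (ι (s.1, π (D.valZ s.2)))

variable {D π ι}

lemma pi_Psi (s : A × D.Z) : π (D.valZ (Psi D π ι s)) =
    π (D.valZ s.2) + π (D.β (ι (s.1, π (D.valZ s.2)))) := by
  rw [Psi, map_add, map_add, Par.valZ_βZ]

lemma dist_pt_le (hπ : ∀ z, ‖π z‖ ≤ ‖z‖) {κ : ℝ} (hκ : 0 ≤ κ)
    (hι : ∀ p p', dist (ι p) (ι p') ≤ κ * dist p p') (s t : A × D.Z) :
    dist (ι (s.1, π (D.valZ s.2))) (ι (t.1, π (D.valZ t.2))) ≤ κ * ‖s - t‖ := by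
  refine (hι _ _).trans (mul_le_mul_of_nonneg_left ?_ hκ)
  rw [dist_eq_norm, Prod.norm_def, Prod.norm_def]
  refine max_le_max le_rfl ?_
  change ‖π (D.valZ s.2) - π (D.valZ t.2)‖ ≤ ‖s.2 - t.2‖
  rw [← map_sub, ← map_sub]
  exact (hπ _).trans (D.norm_valZ_le _)

/-- upper Lipschitz bound -/
theorem Psi_upper (hπ : ∀ z, ‖π z‖ ≤ ‖z‖) {κ : ℝ} (hκ : 0 ≤ κ)
    (hι : ∀ p p', dist (ι p) (ι p') ≤ κ * dist p p') (s t : A × D.Z) :
    ‖Psi D π ι s - Psi D π ι t‖ ≤ (1 + D.C * κ) * ‖s - t‖ := by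
  have h1 : Psi D π ι s - Psi D π ι t = (s.2 - t.2) +
      (D.βZ (ι (s.1, π (D.valZ s.2))) - D.βZ (ι (t.1, π (D.valZ t.2)))) := by
    rw [Psi, Psi]; abel
  rw [h1]
  have h2 := D.βZ_lip (ι (s.1, π (D.valZ s.2))) (ι (t.1, π (D.valZ t.2)))
  have h3 := mul_le_mul_of_nonneg_left (dist_pt_le hπ hκ hι s t) D.hC
  have h4 : ‖s.2 - t.2‖ ≤ ‖s - t‖ := norm_snd_le (s - t)
  calc _ ≤ ‖s.2 - t.2‖ +
        ‖D.βZ (ι (s.1, π (D.valZ s.2))) - D.βZ (ι (t.1, π (D.valZ t.2)))‖ := norm_add_le _ _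
    _ ≤ (1 + D.C * κ) * ‖s - t‖ := by linarith

/-- lower Lipschitz bound -/
theorem Psi_lower (hπ : ∀ z, ‖π z‖ ≤ ‖z‖) {C' : ℝ} (hC' : 0 ≤ C')
    (hι : ∀ p p', dist p p' ≤ dist (ι p) (ι p'))
    (hinv : ∀ p p' : A × V, dist (ι p) (ι p') ≤
      C' * ‖(p.2 + π (D.β (ι p))) - (p'.2 + π (D.β (ι p')))‖) (s t : A × D.Z) :
    ‖s - t‖ ≤ max C' (1 + D.C * C') * ‖Psi D π ι s - Psi D π ι t‖ := by
  have hp : dist (ι (s.1, π (D.valZ s.2))) (ι (t.1, π (D.valZ t.2))) ≤
      C' * ‖Psi D π ι s - Psi D π ι t‖ := by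
    refine (hinv _ _).trans (mul_le_mul_of_nonneg_left ?_ hC')
    rw [← pi_Psi, ← pi_Psi, ← map_sub, ← map_sub]
    exact (hπ _).trans (D.norm_valZ_le _)
  have h0 : 0 ≤ ‖Psi D π ι s - Psi D π ι t‖ := norm_nonneg _
  rw [Prod.norm_def]
  refine max_le ?_ ?_
  · calc ‖(s - t).1‖ ≤ dist (s.1, π (D.valZ s.2)) (t.1, π (D.valZ t.2)) := by
          rw [Prod.dist_eq, dist_eq_norm]
          exact le_max_left _ _
      _ ≤ dist (ι (s.1, π (D.valZ s.2))) (ι (t.1, π (D.valZ t.2))) := hι _ _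
      _ ≤ C' * ‖Psi D π ι s - Psi D π ι t‖ := hp
      _ ≤ _ := mul_le_mul_of_nonneg_right (le_max_left _ _) h0
  · have h1 : (s - t).2 = (Psi D π ι s - Psi D π ι t) -
        (D.βZ (ι (s.1, π (D.valZ s.2))) - D.βZ (ι (t.1, π (D.valZ t.2)))) := by
      rw [Psi, Psi, Prod.snd_sub]; abel
    have h2 := D.βZ_lip (ι (s.1, π (D.valZ s.2))) (ι (t.1, π (D.valZ t.2)))
    have h3 := mul_le_mul_of_nonneg_left hp D.hC
    calc ‖(s - t).2‖ ≤ ‖Psi D π ι s - Psi D π ι t‖ +
          ‖D.βZ (ι (s.1, π (D.valZ s.2))) - D.βZ (ι (t.1, π (D.valZ t.2)))‖ := by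
          rw [h1]; exact norm_sub_le _ _
      _ ≤ (1 + D.C * C') * ‖Psi D π ι s - Psi D π ι t‖ := by linarith
      _ ≤ _ := mul_le_mul_of_nonneg_right (le_max_right _ _) h0

/-- `Ψ` is onto -/
theorem Psi_surjective (hsurj : Function.Surjective fun p : A × V => p.2 + π (D.β (ι p))) :
    Function.Surjective (Psi D π ι) := by
  intro y
  obtain ⟨p, hp⟩ := hsurj (π (D.valZ y))
  have h1 : π (D.valZ (y - D.βZ (ι p))) = p.2 := by
    rw [map_sub, map_sub, Par.valZ_βZ, ← hp]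
    exact add_sub_cancel_right _ _
  refine ⟨(p.1, y - D.βZ (ι p)), ?_⟩
  rw [Psi]
  simp only
  rw [h1]
  abel

/-- `Ψ` is injective -/
theorem Psi_injective (hπ : ∀ z, ‖π z‖ ≤ ‖z‖) {C' : ℝ} (hC' : 0 ≤ C')
    (hι : ∀ p p', dist p p' ≤ dist (ι p) (ι p'))
    (hinv : ∀ p p' : A × V, dist (ι p) (ι p') ≤
      C' * ‖(p.2 + π (D.β (ι p))) - (p'.2 + π (D.β (ι p')))‖) :
    Function.Injective (Psi D π ι) := by
  intro s t h
  have h1 := Psi_lower hπ hC' hι hinv s t
  rw [h, sub_self, norm_zero, mul_zero] at h1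
  exact sub_eq_zero.1 (norm_le_zero_iff.1 h1)

/-- all the properties of `Ψ` -/
theorem Psi_main (hπ : ∀ z, ‖π z‖ ≤ ‖z‖) {κ C' : ℝ} (hκ : 0 ≤ κ) (hC' : 0 ≤ C')
    (hι : ∀ p p', dist (ι p) (ι p') ≤ κ * dist p p')
    (hι' : ∀ p p', dist p p' ≤ dist (ι p) (ι p'))
    (hinv : ∀ p p' : A × V, dist (ι p) (ι p') ≤
      C' * ‖(p.2 + π (D.β (ι p))) - (p'.2 + π (D.β (ι p')))‖)
    (hsurj : Function.Surjective fun p : A × V => p.2 + π (D.β (ι p))) :
    Function.Bijective (Psi D π ι) ∧ ∀ s t : A × D.Z,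
      ‖Psi D π ι s - Psi D π ι t‖ ≤ (1 + D.C * κ) * ‖s - t‖ ∧
      ‖s - t‖ ≤ max C' (1 + D.C * C') * ‖Psi D π ι s - Psi D π ι t‖ :=
  ⟨⟨Psi_injective hπ hC' hι' hinv, Psi_surjective hsurj⟩,
    fun s t => ⟨Psi_upper hπ hκ hι s t, Psi_lower hπ hC' hι' hinv s t⟩⟩

end Psi

/-! ## No `c₀` -/

/-- The weighted seminorms are unbounded on the signed sums of every sequence of `E` with bounded
signed sums whose norms are bounded below (this is what the chain argument gives). -/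
def Large {P E : Type} [MetricSpace P] [NormedAddCommGroup E] [NormedSpace ℝ E]
    (D : Par P E) : Prop :=
  ∀ (z : ℕ → E) (K c : ℝ), 0 < c →
    (∀ (s : Finset ℕ) (ε : ℕ → ℝ), (∀ i, |ε i| ≤ 1) → ‖∑ i ∈ s, ε i • z i‖ ≤ K) →
    (∀ i, c ≤ ‖z i‖) →
    ∀ N : ℝ, ∃ (l : ℕ) (s : Finset ℕ) (ε : ℕ → ℝ), (∀ i, |ε i| ≤ 1) ∧
      N ≤ Par.wt l * D.q l (∑ i ∈ s, ε i • z i)

lemma Adm.neg {P E : Type} [MetricSpace P] [NormedAddCommGroup E] [NormedSpace ℝ E]
    {β : P → E} {C R : ℝ} {G : E →L[ℝ] ℝ} (h : Adm β C R G) : Adm β C R (-G) := by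
  refine ⟨fun p p' => ?_, by rw [norm_neg]; exact h.bd⟩
  have := h.lip p' p
  rw [dist_comm] at this
  simpa [abs_sub_comm, add_comm, sub_eq_add_neg] using this

section NoC0

variable {P E : Type} [MetricSpace P] [NormedAddCommGroup E] [NormedSpace ℝ E] {D : Par P E}

/-- asymptotic `ℓ₁` behaviour of the norm -/
lemma exists_norm_add (z : ℕ → D.Z) {c : ℝ} (hc : 0 < c) (hz : ∀ i, c ≤ ‖z i‖)
    (h0 : ∀ l, Filter.Tendsto (fun i => D.q l (D.valZ (z i))) Filter.atTop (𝓝 0))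
    (y : D.Z) (N : ℕ) : ∃ i ≥ N, ‖y‖ + c / 2 ≤ ‖y + z i‖ := by
  have hy := Par.summable_val y.1
  -- tail of `y`
  have h1 : Filter.Tendsto (fun n => ∑ l ∈ range n, Par.wt l * D.q l (D.valZ y)) Filter.atTop
      (𝓝 ‖y‖) := hy.hasSum.tendsto_sum_nat
  obtain ⟨L, hL⟩ := ((h1.eventually (lt_mem_nhds (show ‖y‖ - c / 8 < ‖y‖ by linarith))).exists)
  have h2 : Filter.Tendsto (fun i => ∑ l ∈ range L, Par.wt l * D.q l (D.valZ (z i))) Filter.atTop
      (𝓝 0) := by
    have := tendsto_finset_sum (range L) fun l _ => (h0 l).const_mul (Par.wt l)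
    simpa using this
  obtain ⟨i, hiN, hi⟩ := ((Filter.eventually_ge_atTop N).and
    (h2.eventually (gt_mem_nhds (show (0 : ℝ) < c / 8 by positivity)))).exists
  refine ⟨i, hiN, ?_⟩
  have hzi := Par.summable_val (z i).1
  have hyz := Par.summable_val (y + z i).1
  -- split the sums
  have e1 := hy.sum_add_tsum_nat_add L
  have e2 := hzi.sum_add_tsum_nat_add L
  have e3 := hyz.sum_add_tsum_nat_add L
  have n1 : ‖y‖ = ∑' l, Par.wt l * D.q l (D.val y.1) := rfl
  have n2 : ‖z i‖ = ∑' l, Par.wt l * D.q l (D.val (z i).1) := rfl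
  have n3 : ‖y + z i‖ = ∑' l, Par.wt l * D.q l (D.val (y + z i).1) := rfl
  have a1 : ∑ l ∈ range L, Par.wt l * D.q l (D.val y.1) -
      ∑ l ∈ range L, Par.wt l * D.q l (D.val (z i).1) ≤
      ∑ l ∈ range L, Par.wt l * D.q l (D.val (y + z i).1) := by
    rw [← Finset.sum_sub_distrib]
    refine Finset.sum_le_sum fun l _ => ?_
    rw [← mul_sub]
    refine mul_le_mul_of_nonneg_left ?_ (Par.wt_pos l).le
    have := D.q_sub l (D.val (y + z i).1) (D.val (z i).1)
    rw [← map_sub, show (y + z i).1 - (z i).1 = y.1 from add_sub_cancel_right _ _] at this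
    linarith
  have a2 : ∑' l, Par.wt (l + L) * D.q (l + L) (D.val (z i).1) -
      ∑' l, Par.wt (l + L) * D.q (l + L) (D.val y.1) ≤
      ∑' l, Par.wt (l + L) * D.q (l + L) (D.val (y + z i).1) := by
    have s1 := (summable_nat_add_iff L).2 hzi
    have s2 := (summable_nat_add_iff L).2 hy
    have s3 := (summable_nat_add_iff L).2 hyz
    rw [← s1.tsum_sub s2]
    refine (s1.sub s2).tsum_le_tsum (fun l => ?_) s3
    rw [← mul_sub]
    refine mul_le_mul_of_nonneg_left ?_ (Par.wt_pos _).le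
    have := D.q_sub (l + L) (D.val (y + z i).1) (D.val y.1)
    rw [← map_sub, show (y + z i).1 - y.1 = (z i).1 from add_sub_cancel_left _ _] at this
    linarith
  have hci := hz i
  have hL' : ‖y‖ - c / 8 < ∑ l ∈ range L, Par.wt l * D.q l (D.val y.1) := hL
  have hi' : ∑ l ∈ range L, Par.wt l * D.q l (D.val (z i).1) < c / 8 := hi
  linarith

/-- If all the seminorms tend to zero along a semi-normalised sequence, the sums are unbounded. -/
lemma exists_large_sum (z : ℕ → D.Z) {c : ℝ} (hc : 0 < c) (hz : ∀ i, c ≤ ‖z i‖)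
    (h0 : ∀ l, Filter.Tendsto (fun i => D.q l (D.valZ (z i))) Filter.atTop (𝓝 0)) (M : ℕ) :
    ∃ s : Finset ℕ, M * (c / 2) ≤ ‖∑ i ∈ s, z i‖ := by
  induction M with
  | zero => exact ⟨∅, by simp⟩
  | succ M ih =>
    obtain ⟨s, hs⟩ := ih
    obtain ⟨i, hi, hi2⟩ := exists_norm_add z hc hz h0 (∑ i ∈ s, z i) (s.sup id + 1)
    have his : i ∉ s := by
      intro h
      have := Finset.le_sup (f := id) h
      simp only [id] at this
      omega
    refine ⟨insert i s, ?_⟩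
    rw [Finset.sum_insert his, add_comm (z i)]
    push_cast
    linarith

/-- The main reduction: `Large D` implies that `Z` contains no semi-normalised sequence with bounded
signed sums. -/
theorem noC0_Z (hL : Large D) (z : ℕ → D.Z) (K c : ℝ) (hc : 0 < c)
    (hK : ∀ (s : Finset ℕ) (ε : ℕ → ℝ), (∀ n, |ε n| ≤ 1) → ‖∑ n ∈ s, ε n • z n‖ ≤ K) :
    ∃ n, ‖z n‖ < c := by
  by_contra hcon
  push Not at hcon
  -- some seminorm does not tend to zero
  by_cases h0 : ∀ l, Filter.Tendsto (fun i => D.q l (D.valZ (z i))) Filter.atTop (𝓝 0)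
  · obtain ⟨M, hM⟩ := exists_nat_gt (K / (c / 2))
    obtain ⟨s, hs⟩ := exists_large_sum z hc hcon h0 M
    have h1 := hK s (fun _ => 1) (fun _ => by simp)
    simp only [one_smul] at h1
    rw [div_lt_iff₀ (by positivity)] at hM
    linarith
  push Not at h0
  obtain ⟨l₀, hl₀⟩ := h0
  obtain ⟨c', hc', hfr⟩ : ∃ c' : ℝ, 0 < c' ∧
      ∃ᶠ i in Filter.atTop, c' ≤ D.q l₀ (D.valZ (z i)) := by
    by_contra hno
    push Not at hno
    apply hl₀
    rw [Metric.tendsto_atTop]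
    intro e he
    obtain ⟨N, hN⟩ := Filter.eventually_atTop.1 (hno e he)
    refine ⟨N, fun n hn => ?_⟩
    rw [Real.dist_eq, sub_zero, abs_of_nonneg (D.q_nonneg _ _)]
    exact hN n hn
  obtain ⟨φ, hφ, hφ2⟩ := Filter.extraction_of_frequently_atTop hfr
  have hR : 0 < D.R l₀ := one_pos.trans_le (D.hR l₀)
  have hlow : ∀ i, c' / D.R l₀ ≤ ‖D.valZ (z (φ i))‖ := by
    intro i
    rw [div_le_iff₀ hR, mul_comm]
    exact (hφ2 i).trans (D.q_le_norm l₀ _)
  -- sums along the subsequence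
  have hK' : ∀ (s : Finset ℕ) (ε : ℕ → ℝ), (∀ n, |ε n| ≤ 1) →
      ‖∑ n ∈ s, ε n • z (φ n)‖ ≤ K := by
    intro s ε hε
    have h1 := hK (s.map ⟨φ, hφ.injective⟩) (fun n => ε (Function.invFun φ n)) (fun n => hε _)
    rw [Finset.sum_map] at h1
    simpa only [Function.Embedding.coeFn_mk, Function.leftInverse_invFun hφ.injective _] using h1
  have hKE : ∀ (s : Finset ℕ) (ε : ℕ → ℝ), (∀ n, |ε n| ≤ 1) →
      ‖∑ n ∈ s, ε n • D.valZ (z (φ n))‖ ≤ K := by
    intro s ε hε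
    have h1 := D.norm_valZ_le (∑ n ∈ s, ε n • z (φ n))
    rw [map_sum] at h1
    simp only [map_smul] at h1
    exact h1.trans (hK' s ε hε)
  obtain ⟨l, s, ε, hε, hN⟩ := hL (fun i => D.valZ (z (φ i))) K (c' / D.R l₀) (by positivity)
    hKE hlow (K + 1)
  have h2 := D.wt_mul_qZ_le' (∑ i ∈ s, ε i • z (φ i)) l
  rw [map_sum] at h2
  simp only [map_smul] at h2
  have h3 := hK' s ε hε
  linarith

end NoC0

end Crest.Agent.R091.Fr
end
end

-- ▼ part R091/Final
section

set_option autoImplicit false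
set_option linter.unusedSectionVars false

open Filter Topology Set
open scoped ZeroAtInfty

namespace Crest.Agent.R091

/-- `Z` contains no "c₀-sequence": a sequence with bounded signed (convex) finite sums is not
bounded below in norm. -/
def NoC0 (Z : Type) [NormedAddCommGroup Z] [NormedSpace ℝ Z] : Prop :=
  ∀ (z : ℕ → Z) (K c : ℝ), 0 < c →
    (∀ (F : Finset ℕ) (ε : ℕ → ℝ), (∀ n, |ε n| ≤ 1) → ‖∑ n ∈ F, ε n • z n‖ ≤ K) →
    ∃ n, ‖z n‖ < c

/-- The main theorem for the Hilbert space `H`. -/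
def MainFor (H : Type) [NormedAddCommGroup H] [NormedSpace ℝ H] : Prop :=
  ∃ (Z : Type) (_ : NormedAddCommGroup Z) (_ : NormedSpace ℝ Z),
    CompleteSpace Z ∧ TopologicalSpace.SeparableSpace Z ∧ NoC0 Z ∧
    ∃ Ψ : C₀(ℕ, H) × Z → Z, Function.Bijective Ψ ∧
      ∀ s t : C₀(ℕ, H) × Z,
        (4 / 21 : ℝ) * ‖s - t‖ ≤ ‖Ψ s - Ψ t‖ ∧ ‖Ψ s - Ψ t‖ ≤ (76 / 25 : ℝ) * ‖s - t‖

section C0

variable {H : Type} [NormedAddCommGroup H] [NormedSpace ℝ H]

/-- An element of `C₀(ℕ,H)` from a null sequence. -/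
def ofNull (f : ℕ → H) (hf : Tendsto f atTop (𝓝 0)) : C₀(ℕ, H) where
  toFun := f
  continuous_toFun := continuous_of_discreteTopology
  zero_at_infty' := by
    rw [cocompact_eq_cofinite, Nat.cofinite_eq_atTop]; exact hf

@[simp] lemma ofNull_apply (f : ℕ → H) (hf : Tendsto f atTop (𝓝 0)) (n : ℕ) :
    ofNull f hf n = f n := rfl

lemma C0_tendsto (f : C₀(ℕ, H)) : Tendsto (fun n => f n) atTop (𝓝 0) := by
  have h := f.zero_at_infty'
  rw [cocompact_eq_cofinite, Nat.cofinite_eq_atTop] at h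
  exact h

lemma C0_apply_le (f : C₀(ℕ, H)) (n : ℕ) : ‖f n‖ ≤ ‖f‖ := by
  have := f.toBCF.norm_coe_le_norm n
  rw [ZeroAtInftyContinuousMap.norm_toBCF_eq_norm] at this
  exact this

lemma C0_norm_le {f : C₀(ℕ, H)} {C : ℝ} (hC : 0 ≤ C) (h : ∀ n, ‖f n‖ ≤ C) : ‖f‖ ≤ C := by
  rw [← ZeroAtInftyContinuousMap.norm_toBCF_eq_norm]
  exact (BoundedContinuousFunction.norm_le hC).2 h

/-- The vector `h` in position `n`. -/
noncomputable def sgl (n : ℕ) : H →ₗ[ℝ] C₀(ℕ, H) where
  toFun h := ofNull (Pi.single n h) (by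
    refine tendsto_const_nhds.congr' ?_
    filter_upwards [eventually_gt_atTop n] with m hm
    simp [hm.ne'])
  map_add' a b := by
    ext m
    simp only [ofNull_apply, ZeroAtInftyContinuousMap.coe_add, Pi.add_apply]
    rw [Pi.single_add]; rfl
  map_smul' r a := by
    ext m
    simp only [ofNull_apply, ZeroAtInftyContinuousMap.coe_smul, Pi.smul_apply, RingHom.id_apply]
    by_cases h : m = n
    · subst h; simp
    · simp [h]

lemma sgl_apply (n m : ℕ) (h : H) : (sgl n h : C₀(ℕ, H)) m = if m = n then h else 0 := by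
  show (Pi.single n h : ℕ → H) m = _
  simp [Pi.single_apply]

lemma norm_sgl (n : ℕ) (h : H) : ‖(sgl n h : C₀(ℕ, H))‖ = ‖h‖ := by
  apply le_antisymm
  · refine C0_norm_le (norm_nonneg _) fun m => ?_
    rw [sgl_apply]; split_ifs
    · exact le_rfl
    · simp
  · have := C0_apply_le (sgl n h : C₀(ℕ, H)) n
    rwa [sgl_apply, if_pos rfl] at this

lemma C0_sum_apply (F : Finset ℕ) (g : ℕ → C₀(ℕ, H)) (m : ℕ) :
    (∑ n ∈ F, g n) m = ∑ n ∈ F, g n m := by
  classical
  induction F using Finset.induction_on with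
  | empty => simp
  | insert a s ha ih => rw [Finset.sum_insert ha, Finset.sum_insert ha]; simp [ih]

lemma norm_sum_sgl_le (h : H) (F : Finset ℕ) (ε : ℕ → ℝ) (hε : ∀ n, |ε n| ≤ 1) :
    ‖∑ n ∈ F, ε n • (sgl n h : C₀(ℕ, H))‖ ≤ ‖h‖ := by
  refine C0_norm_le (norm_nonneg _) fun m => ?_
  rw [C0_sum_apply]
  have : ∀ n ∈ F, (ε n • (sgl n h : C₀(ℕ, H))) m = if m = n then ε n • h else 0 := by
    intro n _
    rw [ZeroAtInftyContinuousMap.coe_smul, Pi.smul_apply, sgl_apply]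
    split_ifs <;> simp
  rw [Finset.sum_congr rfl this, Finset.sum_ite_eq]
  split_ifs
  · rw [norm_smul, Real.norm_eq_abs]
    calc |ε m| * ‖h‖ ≤ 1 * ‖h‖ := by gcongr; exact hε m
      _ = ‖h‖ := one_mul _
  · simp

/-- `C₀(ℕ,H)` is separable for separable `H`. -/
theorem separable_C0 [TopologicalSpace.SeparableSpace H] :
    TopologicalSpace.SeparableSpace C₀(ℕ, H) := by
  have hcont : ∀ n : ℕ, Continuous (fun h : H => (sgl n h : C₀(ℕ, H))) := by
    intro n
    refine (LipschitzWith.of_dist_le_mul (K := 1) fun a b => ?_).continuous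
    rw [dist_eq_norm, dist_eq_norm, ← map_sub, norm_sgl]; simp
  let T : (N : ℕ) → (Fin N → H) → C₀(ℕ, H) := fun N h => ∑ i : Fin N, sgl (i : ℕ) (h i)
  have hT : ∀ N, TopologicalSpace.IsSeparable (range (T N)) := by
    intro N
    refine TopologicalSpace.isSeparable_range ?_
    exact continuous_finsetSum _ fun i _ => (hcont i).comp (continuous_apply i)
  have hU : TopologicalSpace.IsSeparable (⋃ N, range (T N)) :=
    TopologicalSpace.IsSeparable.iUnion hT
  have hd : closure (⋃ N, range (T N)) = univ := by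
    refine eq_univ_of_forall fun f => ?_
    rw [Metric.mem_closure_iff]
    intro ε hε
    have h1 := C0_tendsto f
    rw [Metric.tendsto_atTop] at h1
    obtain ⟨N, hN⟩ := h1 (ε / 2) (by positivity)
    refine ⟨T N (fun i => f i), mem_iUnion.2 ⟨N, mem_range_self _⟩, ?_⟩
    rw [dist_eq_norm]
    refine lt_of_le_of_lt (C0_norm_le (C := ε / 2) (by positivity) fun m => ?_) (by linarith)
    have hTm : (T N fun i => f i) m = if m < N then f m else 0 := by
      show (∑ i : Fin N, sgl (i : ℕ) (f i) : C₀(ℕ, H)) m = _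
      rw [Finset.sum_fin_eq_sum_range, C0_sum_apply]
      have : ∀ n ∈ Finset.range N,
          ((if h : n < N then sgl (((⟨n, h⟩ : Fin N) : ℕ)) (f ((⟨n, h⟩ : Fin N) : ℕ)) else 0 :
            C₀(ℕ, H)) m) = if m = n then f n else 0 := by
        intro n hn
        rw [dif_pos (Finset.mem_range.1 hn), sgl_apply]
      rw [Finset.sum_congr rfl this, Finset.sum_ite_eq]
      simp only [Finset.mem_range]
    rw [ZeroAtInftyContinuousMap.coe_sub, Pi.sub_apply, hTm]
    split_ifs with hm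
    · simp; positivity
    · have := hN m (not_lt.1 hm)
      rw [dist_zero_right] at this
      rw [sub_zero]; exact this.le
  rw [← TopologicalSpace.isSeparable_univ_iff, ← hd]
  exact hU.closure

end C0

lemma nontrivial_l2 : Nontrivial (lp (fun _ : ℕ => ℝ) 2) := by
  refine ⟨⟨lp.single 2 0 1, 0, fun h => ?_⟩⟩
  have h1 := (lp.isometry_single (E := fun _ : ℕ => ℝ) (p := 2) 0).dist_eq 1 0
  rw [lp.single_zero, h, dist_self] at h1
  simp at h1

theorem separable_l2 : TopologicalSpace.SeparableSpace (lp (fun _ : ℕ => ℝ) 2) := by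
  have hcont : ∀ n : ℕ, Continuous (fun h : ℝ => (lp.single 2 n h : lp (fun _ : ℕ => ℝ) 2)) :=
    fun n => (lp.isometry_single (E := fun _ : ℕ => ℝ) (p := 2) n).continuous
  let T : (F : Finset ℕ) → (ℕ → ℝ) → lp (fun _ : ℕ => ℝ) 2 := fun F h => ∑ i ∈ F, lp.single 2 i (h i)
  have hT : ∀ N, TopologicalSpace.IsSeparable (range (T N)) := by
    intro N
    refine TopologicalSpace.isSeparable_range ?_
    exact continuous_finsetSum _ fun i _ => (hcont i).comp (continuous_apply i)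
  have hU : TopologicalSpace.IsSeparable (⋃ N, range (T N)) :=
    TopologicalSpace.IsSeparable.iUnion hT
  have hd : closure (⋃ N, range (T N)) = univ := by
    refine eq_univ_of_forall fun f => ?_
    have h1 : HasSum (fun i : ℕ => (lp.single 2 i (f i) : lp (fun _ : ℕ => ℝ) 2)) f :=
      lp.hasSum_single (by norm_num) f
    have h2 : Tendsto (fun F : Finset ℕ => T F (fun n => f n)) atTop (𝓝 f) := h1
    refine mem_closure_of_tendsto h2 (Eventually.of_forall fun F => ?_)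
    exact mem_iUnion.2 ⟨F, mem_range_self _⟩
  rw [← TopologicalSpace.isSeparable_univ_iff, ← hd]
  exact hU.closure

/-- A closed subspace isomorphic to `C₀(ℕ,H)` contradicts `NoC0`. -/
theorem NoC0.no_embedding {Z : Type} [NormedAddCommGroup Z] [NormedSpace ℝ Z] (hZ : NoC0 Z)
    {H : Type} [NormedAddCommGroup H] [NormedSpace ℝ H] [Nontrivial H]
    (T : C₀(ℕ, H) →L[ℝ] Z) (c : ℝ) (hc : 0 < c) (hT : ∀ f, c * ‖f‖ ≤ ‖T f‖) : False := by
  obtain ⟨h, hh⟩ := exists_ne (0 : H)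
  have hh' : 0 < ‖h‖ := norm_pos_iff.2 hh
  obtain ⟨n, hn⟩ := hZ (fun n => T (sgl n h)) (‖T‖ * ‖h‖) (c * ‖h‖) (by positivity) (by
    intro F ε hε
    have : ∑ n ∈ F, ε n • T (sgl n h) = T (∑ n ∈ F, ε n • sgl n h) := by
      rw [map_sum]; simp
    rw [this]
    calc ‖T (∑ n ∈ F, ε n • sgl n h)‖ ≤ ‖T‖ * ‖∑ n ∈ F, ε n • (sgl n h : C₀(ℕ, H))‖ :=
          T.le_opNorm _
      _ ≤ ‖T‖ * ‖h‖ := by gcongr; exact norm_sum_sgl_le h F ε hε)
  have h1 := hT (sgl n h)
  rw [norm_sgl] at h1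
  linarith

theorem NoC0.isEmpty_closed {Z : Type} [NormedAddCommGroup Z] [NormedSpace ℝ Z] (hZ : NoC0 Z)
    (H : Type) [NormedAddCommGroup H] [NormedSpace ℝ H] [Nontrivial H]
    (S : Submodule ℝ Z) : IsEmpty (S ≃L[ℝ] C₀(ℕ, H)) := by
  constructor
  intro e
  obtain ⟨K, hK, hK'⟩ := e.toContinuousLinearMap.bound
  refine hZ.no_embedding (S.subtypeL.comp e.symm.toContinuousLinearMap) K⁻¹ (by positivity) ?_
  intro f
  have := hK' (e.symm f)
  simp only [ContinuousLinearEquiv.coe_coe, ContinuousLinearEquiv.apply_symm_apply] at this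
  have h2 : ‖(S.subtypeL.comp e.symm.toContinuousLinearMap) f‖ = ‖e.symm f‖ := rfl
  rw [h2, inv_mul_le_iff₀ hK]
  exact this

theorem S0121_of_main (h : MainFor ℝ) :
    ∃ (Z : Type) (_ : NormedAddCommGroup Z) (_ : NormedSpace ℝ Z),
      CompleteSpace Z ∧ TopologicalSpace.SeparableSpace Z ∧
      (∀ S : Submodule ℝ Z, IsClosed (S : Set Z) →
        IsEmpty (S ≃L[ℝ] ZeroAtInftyContinuousMap ℕ ℝ)) ∧
      ∃ F : Z × ZeroAtInftyContinuousMap ℕ ℝ → Z, Function.Surjective F ∧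
        ∃ c C : ℝ, 0 < c ∧
          ∀ u v : Z × ZeroAtInftyContinuousMap ℕ ℝ,
            c * ‖u - v‖ ≤ ‖F u - F v‖ ∧ ‖F u - F v‖ ≤ C * ‖u - v‖ := by
  obtain ⟨Z, i1, i2, hc, hs, hno, Ψ, hb, hΨ⟩ := h
  refine ⟨Z, i1, i2, hc, hs, fun S _ => hno.isEmpty_closed ℝ S, fun p => Ψ p.swap, ?_,
    4 / 21, 76 / 25, by norm_num, ?_⟩
  · intro z
    obtain ⟨p, hp⟩ := hb.2 z
    exact ⟨p.swap, by simpa using hp⟩
  · intro u v
    have h1 := hΨ u.swap v.swap
    have h2 : ‖u.swap - v.swap‖ = ‖u - v‖ := by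
      rw [← Prod.swap_sub, Prod.norm_def, Prod.norm_def, Prod.fst_swap, Prod.snd_swap, max_comm]
    rw [h2] at h1
    exact h1

theorem S0120_of_main (h : MainFor (lp (fun _ : ℕ => ℝ) 2)) :
    ∃ (X : Type) (_ : NormedAddCommGroup X) (_ : NormedSpace ℝ X)
      (Y : Type) (_ : NormedAddCommGroup Y) (_ : NormedSpace ℝ Y),
      CompleteSpace X ∧ TopologicalSpace.SeparableSpace X ∧
      CompleteSpace Y ∧ TopologicalSpace.SeparableSpace Y ∧
      (∃ Ψ : X → Y, Function.Bijective Ψ ∧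
        ∀ s t : X, (4 / 21 : ℝ) * ‖s - t‖ ≤ ‖Ψ s - Ψ t‖ ∧ ‖Ψ s - Ψ t‖ ≤ (76 / 25 : ℝ) * ‖s - t‖) ∧
      Nonempty (ZeroAtInftyContinuousMap ℕ (lp (fun _ : ℕ => ℝ) 2) →ₗᵢ[ℝ] X) ∧
      (∀ S : Submodule ℝ Y, IsClosed (S : Set Y) →
        IsEmpty (S ≃L[ℝ] ZeroAtInftyContinuousMap ℕ (lp (fun _ : ℕ => ℝ) 2))) ∧
      IsEmpty (X ≃L[ℝ] Y) := by
  obtain ⟨Z, i1, i2, hc, hs, hno, Ψ, hb, hΨ⟩ := h
  have : TopologicalSpace.SeparableSpace (lp (fun _ : ℕ => ℝ) 2) := separable_l2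
  have : TopologicalSpace.SeparableSpace C₀(ℕ, lp (fun _ : ℕ => ℝ) 2) := separable_C0
  have : Nontrivial (lp (fun _ : ℕ => ℝ) 2) := nontrivial_l2
  let J : C₀(ℕ, lp (fun _ : ℕ => ℝ) 2) →ₗᵢ[ℝ] (C₀(ℕ, lp (fun _ : ℕ => ℝ) 2) × Z) :=
    { LinearMap.inl ℝ (C₀(ℕ, lp (fun _ : ℕ => ℝ) 2)) Z with
      norm_map' := fun f => by
        show ‖(f, (0 : Z))‖ = ‖f‖
        rw [Prod.norm_def]; simp }
  refine ⟨C₀(ℕ, lp (fun _ : ℕ => ℝ) 2) × Z, inferInstance, inferInstance, Z, i1, i2,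
    inferInstance, inferInstance, hc, hs, ⟨Ψ, hb, hΨ⟩, ⟨J⟩,
    fun S _ => hno.isEmpty_closed _ S, ⟨fun e => ?_⟩⟩
  obtain ⟨K, hK, hK'⟩ := e.symm.toContinuousLinearMap.bound
  refine hno.no_embedding (e.toContinuousLinearMap.comp J.toContinuousLinearMap) K⁻¹
    (by positivity) ?_
  intro f
  have := hK' (e (J f))
  simp only [ContinuousLinearEquiv.coe_coe, ContinuousLinearEquiv.symm_apply_apply,
    LinearIsometry.norm_map] at this
  have h2 : ‖(e.toContinuousLinearMap.comp J.toContinuousLinearMap) f‖ = ‖e (J f)‖ := rfl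
  rw [h2, inv_mul_le_iff₀ hK]
  exact this

end Crest.Agent.R091
end

-- ▼ part R091/CtxExists

/-! # Row 91: existence of absorbing isometries and of contexts -/

set_option autoImplicit false

namespace Crest.Agent.R091

open Filter TopologicalSpace
open scoped Topology

/-- every separable infinite dimensional real Hilbert space is isometric to `ℓ²` -/
theorem exists_iso_l2 (K : Type) [NormedAddCommGroup K] [InnerProductSpace ℝ K] [CompleteSpace K]
    [SeparableSpace K] (hK : ¬ FiniteDimensional ℝ K) : Nonempty (K ≃ₗᵢ[ℝ] Y) := by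
  obtain ⟨w, b, hb⟩ := exists_hilbertBasis ℝ K
  have horth : Orthonormal ℝ (b : w → K) := b.orthonormal
  have hcount : Countable w := by
    have hdist : ∀ i j : w, i ≠ j → 1 ≤ dist (b i) (b j) := by
      intro i j hij
      have h0 : inner ℝ (b i) (b j) = 0 := horth.2 hij
      have h1 : ‖b i - b j‖ ^ 2 = 2 := by
        rw [@norm_sub_sq ℝ]
        rw [h0, horth.1 i, horth.1 j]
        norm_num
      rw [dist_eq_norm]
      nlinarith [norm_nonneg (b i - b j)]
    have hd : Pairwise (Function.onFun Disjoint fun i : w => Metric.ball (b i) (1 / 2)) := by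
      intro i j hij
      exact Metric.ball_disjoint_ball (by have := hdist i j hij; linarith)
    have := hd.countable_of_isOpen_disjoint (fun i => Metric.isOpen_ball)
      (fun i => ⟨b i, Metric.mem_ball_self (by norm_num)⟩)
    exact this
  have hinf : Infinite w := by
    by_contra hfin
    rw [not_infinite_iff_finite] at hfin
    have := Fintype.ofFinite w
    exact hK (b.toOrthonormalBasis.toBasis.finiteDimensional_of_finite)
  obtain ⟨hden⟩ := nonempty_denumerable w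
  let f : ℕ ≃ w := (Denumerable.eqv w).symm
  have ho : Orthonormal ℝ (fun n => b (f n)) := horth.comp f f.injective
  have hsp : ⊤ ≤ (Submodule.span ℝ (Set.range fun n => b (f n))).topologicalClosure := by
    have : Set.range (fun n => b (f n)) = Set.range b := f.surjective.range_comp b
    rw [this, b.dense_span]
  exact ⟨(HilbertBasis.mk ho hsp).repr⟩

theorem separable_Y : SeparableSpace Y := separable_lp2

theorem not_finite_Y : ¬ FiniteDimensional ℝ Y := by
  intro h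
  have hli : LinearIndependent ℝ (fun n : ℕ => (lp.single 2 n (1 : ℝ) : Y)) := by
    have : Orthonormal ℝ (fun n : ℕ => (lp.single 2 n (1 : ℝ) : Y)) := by
      rw [orthonormal_iff_ite]
      intro i j
      rw [lp.inner_single_left]
      simp [lp.single_apply, Pi.single_apply]
    exact this.linearIndependent
  have := hli.finite
  exact not_finite ℕ

theorem not_finite_prod (H : Type) [NormedAddCommGroup H] [InnerProductSpace ℝ H] :
    ¬ FiniteDimensional ℝ (WithLp 2 (H × Y)) := by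
  intro h
  let f : Y →ₗ[ℝ] WithLp 2 (H × Y) :=
    (WithLp.linearEquiv 2 ℝ (H × Y)).symm.toLinearMap.comp (LinearMap.inr ℝ H Y)
  have hf : Function.Injective f :=
    (WithLp.linearEquiv 2 ℝ (H × Y)).symm.injective.comp LinearMap.inr_injective
  exact not_finite_Y (FiniteDimensional.of_injective f hf)

theorem exists_J_real : Nonempty (WithLp 2 (ℝ × Y) ≃ₗᵢ[ℝ] Y) := by
  have : SeparableSpace Y := separable_Y
  have : SecondCountableTopology Y := UniformSpace.secondCountable_of_separable Y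
  exact exists_iso_l2 _ (not_finite_prod ℝ)

theorem exists_J_l2 : Nonempty (WithLp 2 (Y × Y) ≃ₗᵢ[ℝ] Y) := by
  have : SeparableSpace Y := separable_Y
  have : SecondCountableTopology Y := UniformSpace.secondCountable_of_separable Y
  exact exists_iso_l2 _ (not_finite_prod Y)

/-- contexts exist for separable `H` as soon as there is an absorbing isometry -/
theorem exists_ctx {H : Type} [NormedAddCommGroup H] [InnerProductSpace ℝ H] [CompleteSpace H]
    [SeparableSpace H] (J : WithLp 2 (H × Y) ≃ₗᵢ[ℝ] Y) :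
    Nonempty (Ctx H) := by
  have : SeparableSpace Y := separable_Y
  have : SeparableSpace V := separable_lp2
  have : SecondCountableTopology V := UniformSpace.secondCountable_of_separable V
  have : SecondCountableTopology H := UniformSpace.secondCountable_of_separable H
  have : SecondCountableTopology (HV H) := inferInstance
  obtain ⟨en, hen⟩ := exists_surjective_nat GG
  have : Nonempty (Metric.closedBall (0 : HV H) 1) := ⟨⟨0, by simp⟩⟩
  refine ⟨{ J := J
            e := fun s => (denseSeq (Metric.closedBall (0 : HV H) 1) s : HV H)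
            he1 := fun s => by
              have := (denseSeq (Metric.closedBall (0 : HV H) 1) s).2
              rwa [mem_closedBall_zero_iff] at this
            hed := ?_
            dv := denseSeq V
            hdv := denseRange_denseSeq V
            en := en
            hen := hen }⟩
  intro x hx ε hε
  have hd := denseRange_denseSeq (Metric.closedBall (0 : HV H) 1)
  obtain ⟨s, hs⟩ := Metric.denseRange_iff.1 hd ⟨x, by simpa using hx⟩ ε hε
  refine ⟨s, ?_⟩
  rw [Subtype.dist_eq, dist_eq_norm] at hs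
  exact hs

end Crest.Agent.R091
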