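import Crest.Agent.R091.Rot

/-! # Row 91, module Hotel: the slowly varying triangular map is a bi-Lipschitz bijection -/

set_option autoImplicit false

namespace Crest.Agent.R091

variable {H : Type} [NormedAddCommGroup H] [InnerProductSpace ℝ H]

/-- a slowly varying field of isometries `T n v t : Y → V`, depending on `v m`, `m < n`, and `t = ‖v n‖` -/
structure Field (H : Type) [NormedAddCommGroup H] [InnerProductSpace ℝ H] where
  T : ℕ → (ℕ → HV H) → ℝ → (Y →L[ℝ] V)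
  iso : ∀ n v t y, ‖T n v t y‖ = ‖y‖
  loc : ∀ n v v' t, (∀ m < n, v m = v' m) → T n v t = T n v' t
  lip : ∀ n v v' t t' δ, 0 ≤ t → 0 ≤ t' → 0 ≤ δ → (∀ m < n, ‖v m - v' m‖ ≤ δ) →
    ‖T n v t - T n v' t'‖ * min t t' ≤ (1 / 250) * (δ + |t - t'|)

/-- the hotel map -/
noncomputable def Field.R (F : Field H) (J : WithLp 2 (H × Y) ≃ₗᵢ[ℝ] Y) (v : ℕ → HV H) (n : ℕ) : V :=
  rot J (F.T n v ‖v n‖) (v n)

theorem Field.norm_R (F : Field H) (J : WithLp 2 (H × Y) ≃ₗᵢ[ℝ] Y) (v : ℕ → HV H) (n : ℕ) :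
    ‖F.R J v n‖ = ‖v n‖ := norm_rot J _ (F.iso n v _) _

/-- comparison of the two rotations at the same level, `‖v n‖ ≤ ‖v' n‖` -/
private theorem Field.aux (F : Field H) (J : WithLp 2 (H × Y) ≃ₗᵢ[ℝ] Y) (v v' : ℕ → HV H) (n : ℕ)
    (δ δ' : ℝ) (hδ : 0 ≤ δ) (h : ∀ m < n, ‖v m - v' m‖ ≤ δ) (h' : |‖v n‖ - ‖v' n‖| ≤ δ')
    (hle : ‖v n‖ ≤ ‖v' n‖) :
    ‖rot J (F.T n v ‖v n‖) (v n) - rot J (F.T n v' ‖v' n‖) (v n)‖ ≤ (4 / 250) * (δ + δ') := by
  have h1 := norm_rot_sub_rot_le J (F.T n v ‖v n‖) (F.T n v' ‖v' n‖) (F.iso n v _) (F.iso n v' _) (v n)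
  have h2 := F.lip n v v' ‖v n‖ ‖v' n‖ δ (norm_nonneg _) (norm_nonneg _) hδ h
  rw [min_eq_left hle] at h2
  linarith


theorem Field.R_inv_lip (F : Field H) (J : WithLp 2 (H × Y) ≃ₗᵢ[ℝ] Y) (v v' : ℕ → HV H) (δ : ℝ) (hδ : 0 ≤ δ)
    (h : ∀ m, ‖F.R J v m - F.R J v' m‖ ≤ δ) (n : ℕ) :
    ‖v n - v' n‖ ≤ (254 / 246) * δ := by
  induction n using Nat.strong_induction_on with
  | _ n ih =>
    have key : ∀ v v' : ℕ → HV H, ‖F.R J v n - F.R J v' n‖ ≤ δ →
        (∀ m < n, ‖v m - v' m‖ ≤ (254 / 246) * δ) → ‖v n‖ ≤ ‖v' n‖ →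
        ‖v n - v' n‖ ≤ (254 / 246) * δ := by
      intro v v' h ih hle
      have h0 : |‖v n‖ - ‖v' n‖| ≤ δ := by
        rw [← F.norm_R J v n, ← F.norm_R J v' n]
        exact (abs_norm_sub_norm_le _ _).trans h
      have h1 := F.aux J v v' n (254 / 246 * δ) δ (by positivity) ih h0 hle
      have e : rot J (F.T n v' ‖v' n‖) (v n - v' n) =
          (F.R J v n - F.R J v' n) -
          (rot J (F.T n v ‖v n‖) (v n) - rot J (F.T n v' ‖v' n‖) (v n)) := by
        rw [rot_sub]; unfold Field.R; abel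
      rw [← norm_rot J (F.T n v' ‖v' n‖) (F.iso n v' _) (v n - v' n), e]
      refine (norm_sub_le _ _).trans ?_
      linarith
    rcases le_total ‖v n‖ ‖v' n‖ with hle | hle
    · exact key v v' (h n) ih hle
    · rw [norm_sub_rev]
      exact key v' v (by rw [norm_sub_rev]; exact h n)
        (fun m hm => by rw [norm_sub_rev]; exact ih m hm) hle

theorem Field.R_surjective (F : Field H) (J : WithLp 2 (H × Y) ≃ₗᵢ[ℝ] Y) (z : ℕ → V) :
    ∃ v : ℕ → HV H, ∀ n, F.R J v n = z n := by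
  classical
  choose g hg using fun (n : ℕ) (w : ℕ → HV H) =>
    rot_surjective J (F.T n w ‖z n‖) (F.iso n w _) (z n)
  let pre : ℕ → ℕ → HV H := fun n => Nat.rec (fun _ => 0)
    (fun n w m => if m = n then g n w else w m) n
  have hpre : ∀ n m, pre (n + 1) m = if m = n then g n (pre n) else pre n m := fun n m => rfl
  let v : ℕ → HV H := fun n => g n (pre n)
  have hv : ∀ n, ∀ m < n, pre n m = v m := by
    intro n
    induction n with
    | zero => intro m hm; exact absurd hm (Nat.not_lt_zero _)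
    | succ n ih =>
      intro m hm
      rw [hpre]
      by_cases h : m = n
      · subst h; rw [if_pos rfl]
      · rw [if_neg h]; exact ih m (by omega)
  have hn : ∀ n, ‖v n‖ = ‖z n‖ := fun n => by
    rw [← hg n (pre n)]
    exact (norm_rot J _ (F.iso n (pre n) _) _).symm
  refine ⟨v, fun n => ?_⟩
  unfold Field.R
  rw [hn n, F.loc n v (pre n) _ (fun m hm => (hv n m hm).symm)]
  exact hg n (pre n)

end Crest.Agent.R091
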