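import Crest.Agent.R091.Defs

-- ▼ part R091/Tens
section

/-! # Row 91, module Tens: `θ ⊗ y` -/

set_option autoImplicit false

namespace Crest.Agent.R091

theorem tens_apply (θ : lp (fun _ : Node => ℝ) 2) (y : Y) (κ : Node) : (tens θ y) κ = θ κ • y := rfl

theorem norm_tens_apply (θ : lp (fun _ : Node => ℝ) 2) (y : Y) : ‖tens θ y‖ = ‖θ‖ * ‖y‖ :=
  norm_tensV θ y

theorem tens_sub (θ θ' : lp (fun _ : Node => ℝ) 2) : tens (θ - θ') = tens θ - tens θ' := by
  ext1 y
  refine Subtype.ext (funext fun κ => ?_)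
  exact sub_smul (θ κ) (θ' κ) y

theorem norm_tens_le (θ : lp (fun _ : Node => ℝ) 2) : ‖tens θ‖ ≤ ‖θ‖ :=
  LinearMap.mkContinuous_norm_le _ (norm_nonneg _) _

theorem norm_tens_sub_le (θ θ' : lp (fun _ : Node => ℝ) 2) : ‖tens θ - tens θ'‖ ≤ ‖θ - θ'‖ := by
  rw [← tens_sub]
  exact norm_tens_le _



/-! ### restriction to sets of nodes -/

theorem restr_apply (S : Set Node) (w : V) (κ : Node) : (restr S w) κ = S.indicator (fun κ => w κ) κ := rfl

theorem hasSum_norm_sq (w : V) : HasSum (fun κ => ‖w κ‖ ^ 2) (‖w‖ ^ 2) := by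
  have h := lp.hasSum_norm (p := 2) (by norm_num) w
  simpa using h

theorem norm_restr_mono {S S' : Set Node} (h : S ⊆ S') (w : V) : ‖restr S w‖ ≤ ‖restr S' w‖ := by
  refine (sq_le_sq₀ (norm_nonneg _) (norm_nonneg _)).1 ?_
  refine hasSum_le (fun κ => ?_) (hasSum_norm_sq (restr S w)) (hasSum_norm_sq (restr S' w))
  rw [restr_apply, restr_apply]
  by_cases hκ : κ ∈ S
  · rw [Set.indicator_of_mem hκ, Set.indicator_of_mem (h hκ)]
  · rw [Set.indicator_of_notMem hκ, norm_zero, zero_pow (by norm_num)]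
    exact sq_nonneg _

theorem restr_univ (w : V) : restr Set.univ w = w := by
  refine Subtype.ext (funext fun κ => ?_)
  exact Set.indicator_of_mem (Set.mem_univ κ) _

theorem norm_restr_le (S : Set Node) (w : V) : ‖restr S w‖ ≤ ‖w‖ := by
  have h := norm_restr_mono (Set.subset_univ S) w
  rwa [restr_univ] at h

theorem norm_restr_union_le (S S' : Set Node) (w : V) : ‖restr (S ∪ S') w‖ ≤ ‖restr S w‖ + ‖restr S' w‖ := by
  have h1 : restr (S ∪ S') w = restr S w + restr (S' \ S) w := by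
    refine Subtype.ext (funext fun κ => ?_)
    change (S ∪ S').indicator (fun κ => w κ) κ
      = S.indicator (fun κ => w κ) κ + (S' \ S).indicator (fun κ => w κ) κ
    by_cases hκ : κ ∈ S
    · rw [Set.indicator_of_mem (Set.mem_union_left S' hκ), Set.indicator_of_mem hκ,
        Set.indicator_of_notMem (fun h => h.2 hκ), add_zero]
    · by_cases hκ' : κ ∈ S'
      · rw [Set.indicator_of_mem (Set.mem_union_right S hκ'), Set.indicator_of_notMem hκ,
          Set.indicator_of_mem (show κ ∈ S' \ S from ⟨hκ', hκ⟩), zero_add]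
      · rw [Set.indicator_of_notMem (fun h => h.elim hκ hκ'), Set.indicator_of_notMem hκ,
          Set.indicator_of_notMem (fun h => hκ' h.1), add_zero]
  rw [h1]
  refine (norm_add_le _ _).trans ?_
  have h2 := norm_restr_mono (Set.sdiff_subset (s := S') (t := S)) w
  linarith

theorem restr_sub (S : Set Node) (w w' : V) : restr S (w - w') = restr S w - restr S w' := by
  refine Subtype.ext (funext fun κ => ?_)
  change S.indicator (fun κ => (w - w') κ) κ
      = S.indicator (fun κ => w κ) κ - S.indicator (fun κ => w' κ) κ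
  by_cases hκ : κ ∈ S
  · rw [Set.indicator_of_mem hκ, Set.indicator_of_mem hκ, Set.indicator_of_mem hκ]
    rfl
  · rw [Set.indicator_of_notMem hκ, Set.indicator_of_notMem hκ, Set.indicator_of_notMem hκ,
      sub_zero]

/-- if `w` lives on `S` then only the restriction of `F` to `S` matters -/
theorem inner_eq_inner_restr (S : Set Node) (F w : V) (hw : ∀ κ, κ ∉ S → w κ = 0) :
    inner ℝ F w = inner ℝ (restr S F) w := by
  rw [lp.inner_eq_tsum, lp.inner_eq_tsum]
  refine tsum_congr fun κ => ?_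
  by_cases hκ : κ ∈ S
  · rw [restr_apply, Set.indicator_of_mem hκ]
  · rw [hw κ hκ, inner_zero_right, inner_zero_right]


end Crest.Agent.R091
end

-- ▼ part R091/Theta

/-! # Row 91, module Theta: the node vectors -/

set_option autoImplicit false

namespace Crest.Agent.R091

open Finset

/-! ### bump -/

theorem bump_nonneg (x : ℝ) : 0 ≤ bump x := by
  unfold bump
  apply Real.cos_nonneg_of_mem_Icc
  have h1 : 0 ≤ min |x| 1 := le_min (abs_nonneg _) zero_le_one
  have h2 : min |x| 1 ≤ 1 := min_le_right _ _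
  have hpi := Real.pi_pos
  constructor
  · have : 0 ≤ Real.pi / 2 * min |x| 1 := by positivity
    linarith
  · nlinarith


lemma bump_eq_zero {x : ℝ} (h : 1 ≤ |x|) : bump x = 0 := by
  unfold bump
  rw [min_eq_right h, mul_one, Real.cos_pi_div_two]

theorem bump_ne_zero {x : ℝ} (h : bump x ≠ 0) : |x| < 1 := by
  by_contra hx
  exact h (bump_eq_zero (not_lt.mp hx))

lemma abs_cos_sub_cos_le (x y : ℝ) : |Real.cos x - Real.cos y| ≤ |x - y| := by
  rw [Real.cos_sub_cos]
  have h1 : |Real.sin ((x + y) / 2)| ≤ 1 := Real.abs_sin_le_one _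
  have h2 : |Real.sin ((x - y) / 2)| ≤ |(x - y) / 2| := Real.abs_sin_le_abs
  rw [abs_mul, abs_mul, abs_neg, abs_two]
  have h3 : |(x - y) / 2| = |x - y| / 2 := by rw [abs_div, abs_two]
  rw [h3] at h2
  calc 2 * |Real.sin ((x + y) / 2)| * |Real.sin ((x - y) / 2)|
      ≤ 2 * 1 * (|x - y| / 2) := by gcongr
    _ = |x - y| := by ring

theorem abs_bump_sub_le (x y : ℝ) : |bump x - bump y| ≤ Real.pi / 2 * |x - y| := by
  unfold bump
  refine (abs_cos_sub_cos_le _ _).trans ?_
  rw [← mul_sub, abs_mul, abs_of_pos (by positivity : (0:ℝ) < Real.pi / 2)]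
  refine mul_le_mul_of_nonneg_left ?_ (by positivity)
  have h1 : |min |x| 1 - min |y| 1| ≤ max |(|x| - |y|)| |(1:ℝ) - 1| := abs_min_sub_min_le_max _ _ _ _
  have h2 : |(|x| - |y|)| ≤ |x - y| := abs_abs_sub_abs_le _ _
  refine h1.trans (max_le h2 (by simp))


/-- the two relevant integers -/
noncomputable def cand (x : ℝ) : Finset ℤ := {⌊x⌋, ⌊x⌋ + 1}

lemma card_cand_le (x : ℝ) : (cand x).card ≤ 2 := Finset.card_le_two

lemma bump_sub_eq_zero_of_notMem {x : ℝ} {m : ℤ} (h : m ∉ cand x) : bump (x - m) = 0 := by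
  apply bump_eq_zero
  simp only [cand, mem_insert, mem_singleton, not_or] at h
  by_contra hlt
  rw [not_le, abs_lt] at hlt
  have h1 : (⌊x⌋ : ℝ) ≤ x := Int.floor_le x
  have h2 : x < ⌊x⌋ + 1 := Int.lt_floor_add_one x
  have h3 : (m : ℝ) < ⌊x⌋ + 2 := by linarith
  have h4 : (⌊x⌋ : ℝ) - 1 < m := by linarith
  have h3' : m < ⌊x⌋ + 2 := by exact_mod_cast h3
  have h4' : ⌊x⌋ - 1 < m := by exact_mod_cast h4
  omega

lemma sum_bump_sq (x : ℝ) {s : Finset ℤ} (hs : cand x ⊆ s) :
    ∑ m ∈ s, bump (x - m) ^ 2 = 1 := by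
  rw [← Finset.sum_subset hs (fun m _ hm => by rw [bump_sub_eq_zero_of_notMem hm]; ring)]
  rw [cand, Finset.sum_pair (by omega)]
  have h1 : (⌊x⌋ : ℝ) ≤ x := Int.floor_le x
  have h2 : x < ⌊x⌋ + 1 := Int.lt_floor_add_one x
  unfold bump
  push_cast
  rw [abs_of_nonneg (by linarith : (0:ℝ) ≤ x - ⌊x⌋),
    abs_of_nonpos (by linarith : x - (⌊x⌋ + 1) ≤ (0:ℝ)),
    min_eq_left (by linarith), min_eq_left (by linarith)]
  have : Real.pi / 2 * -(x - (⌊x⌋ + 1)) = Real.pi / 2 - Real.pi / 2 * (x - ⌊x⌋) := by ring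
  rw [this, Real.cos_pi_div_two_sub]
  exact Real.cos_sq_add_sin_sq _

lemma sum_bump_sub_sq_le (x y : ℝ) (s : Finset ℤ) :
    ∑ m ∈ s, (bump (x - m) - bump (y - m)) ^ 2 ≤ 10 * (x - y) ^ 2 := by
  classical
  have hsub : ∑ m ∈ s, (bump (x - m) - bump (y - m)) ^ 2
      ≤ ∑ m ∈ cand x ∪ cand y, (bump (x - m) - bump (y - m)) ^ 2 := by
    rw [← Finset.sum_inter_add_sum_sdiff s (cand x ∪ cand y)]
    have h0 : ∑ m ∈ s \ (cand x ∪ cand y), (bump (x - m) - bump (y - m)) ^ 2 = 0 := by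
      apply Finset.sum_eq_zero
      intro m hm
      simp only [mem_sdiff, mem_union, not_or] at hm
      rw [bump_sub_eq_zero_of_notMem hm.2.1, bump_sub_eq_zero_of_notMem hm.2.2]
      ring
    rw [h0, add_zero]
    exact Finset.sum_le_sum_of_subset_of_nonneg Finset.inter_subset_right
      (fun _ _ _ => sq_nonneg _)
  refine hsub.trans ?_
  have hcard : ((cand x ∪ cand y).card : ℝ) ≤ 4 := by
    have := Finset.card_union_le (cand x) (cand y)
    have h1 := card_cand_le x
    have h2 := card_cand_le y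
    have h3 : (cand x ∪ cand y).card ≤ 4 := by omega
    exact_mod_cast h3
  have hterm : ∀ m ∈ cand x ∪ cand y,
      (bump (x - m) - bump (y - m)) ^ 2 ≤ (Real.pi / 2) ^ 2 * (x - y) ^ 2 := by
    intro m _
    have h := abs_bump_sub_le (x - m) (y - m)
    have e : x - (m:ℝ) - (y - m) = x - y := by ring
    rw [e] at h
    have := pow_le_pow_left₀ (abs_nonneg _) h 2
    rw [sq_abs, mul_pow, sq_abs] at this
    exact this
  calc ∑ m ∈ cand x ∪ cand y, (bump (x - m) - bump (y - m)) ^ 2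
      ≤ (cand x ∪ cand y).card • ((Real.pi / 2) ^ 2 * (x - y) ^ 2) :=
        Finset.sum_le_card_nsmul _ _ _ hterm
    _ = ((cand x ∪ cand y).card : ℝ) * ((Real.pi / 2) ^ 2 * (x - y) ^ 2) := by
        rw [nsmul_eq_mul]
    _ ≤ 4 * ((Real.pi / 2) ^ 2 * (x - y) ^ 2) := by gcongr
    _ = Real.pi ^ 2 * (x - y) ^ 2 := by ring
    _ ≤ 10 * (x - y) ^ 2 := by
        have hpi : Real.pi ^ 2 ≤ 10 := by
          have := Real.pi_lt_d2
          nlinarith [Real.pi_pos]
        gcongr

/-- the overlap `κ(x,y) = Σ_m b(x-m) b(y-m)` -/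
noncomputable def overlap (x y : ℝ) : ℝ := ∑ m ∈ cand x ∪ cand y, bump (x - m) * bump (y - m)


lemma overlap_nonneg (x y : ℝ) : 0 ≤ overlap x y :=
  Finset.sum_nonneg fun _ _ => mul_nonneg (bump_nonneg _) (bump_nonneg _)

lemma one_sub_overlap (x y : ℝ) :
    1 - overlap x y = 1 / 2 * ∑ m ∈ cand x ∪ cand y, (bump (x - m) - bump (y - m)) ^ 2 := by
  have h1 := sum_bump_sq x (s := cand x ∪ cand y) Finset.subset_union_left
  have h2 := sum_bump_sq y (s := cand x ∪ cand y) Finset.subset_union_right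
  have : ∑ m ∈ cand x ∪ cand y, (bump (x - m) - bump (y - m)) ^ 2
      = ∑ m ∈ cand x ∪ cand y, bump (x - m) ^ 2 + ∑ m ∈ cand x ∪ cand y, bump (y - m) ^ 2
        - 2 * overlap x y := by
    unfold overlap
    rw [Finset.mul_sum, ← Finset.sum_add_distrib, ← Finset.sum_sub_distrib]
    refine Finset.sum_congr rfl fun m _ => by ring
  rw [this, h1, h2]
  ring

lemma overlap_le_one (x y : ℝ) : overlap x y ≤ 1 := by
  have h := one_sub_overlap x y
  have : 0 ≤ ∑ m ∈ cand x ∪ cand y, (bump (x - m) - bump (y - m)) ^ 2 :=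
    Finset.sum_nonneg fun _ _ => sq_nonneg _
  linarith

lemma one_sub_overlap_le (x y : ℝ) : 1 - overlap x y ≤ 5 * (x - y) ^ 2 := by
  rw [one_sub_overlap]
  have := sum_bump_sub_sq_le x y (cand x ∪ cand y)
  linarith

lemma one_sub_prod_le {ι : Type*} (s : Finset ι) (f : ι → ℝ) (h0 : ∀ i ∈ s, 0 ≤ f i)
    (h1 : ∀ i ∈ s, f i ≤ 1) : 1 - ∏ i ∈ s, f i ≤ ∑ i ∈ s, (1 - f i) := by
  classical
  induction s using Finset.induction_on with
  | empty => simp
  | insert a s ha ih =>
    rw [Finset.prod_insert ha, Finset.sum_insert ha]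
    have hfa0 := h0 a (Finset.mem_insert_self _ _)
    have hfa1 := h1 a (Finset.mem_insert_self _ _)
    have ih' := ih (fun i hi => h0 i (Finset.mem_insert_of_mem hi))
      (fun i hi => h1 i (Finset.mem_insert_of_mem hi))
    have hp0 : 0 ≤ ∏ i ∈ s, f i :=
      Finset.prod_nonneg fun i hi => h0 i (Finset.mem_insert_of_mem hi)
    have hp1 : ∏ i ∈ s, f i ≤ 1 :=
      Finset.prod_le_one (fun i hi => h0 i (Finset.mem_insert_of_mem hi))
        (fun i hi => h1 i (Finset.mem_insert_of_mem hi))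
    have : 1 - f a * ∏ i ∈ s, f i ≤ (1 - f a) + (1 - ∏ i ∈ s, f i) := by nlinarith
    linarith

variable {n : ℕ}

/-- product bump -/
noncomputable def pb (x : Fin n → ℝ) (c : Fin n → ℤ) : ℝ := ∏ i, bump (x i - c i)



/-- finite box containing the supports of `pb x` and `pb y` -/
noncomputable def box (x y : Fin n → ℝ) : Finset (Fin n → ℤ) :=
  Fintype.piFinset fun i => cand (x i) ∪ cand (y i)

lemma pb_eq_zero_left {x y : Fin n → ℝ} {c : Fin n → ℤ} (h : c ∉ box x y) : pb x c = 0 := by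
  unfold box at h
  rw [Fintype.mem_piFinset] at h
  push Not at h
  obtain ⟨i, hi⟩ := h
  simp only [mem_union, not_or] at hi
  exact Finset.prod_eq_zero (Finset.mem_univ i) (bump_sub_eq_zero_of_notMem hi.1)

lemma pb_eq_zero_right {x y : Fin n → ℝ} {c : Fin n → ℤ} (h : c ∉ box x y) : pb y c = 0 := by
  unfold box at h
  rw [Fintype.mem_piFinset] at h
  push Not at h
  obtain ⟨i, hi⟩ := h
  simp only [mem_union, not_or] at hi
  exact Finset.prod_eq_zero (Finset.mem_univ i) (bump_sub_eq_zero_of_notMem hi.2)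

lemma sum_pb_mul (x y : Fin n → ℝ) :
    ∑ c ∈ box x y, pb x c * pb y c = ∏ i, overlap (x i) (y i) := by
  unfold box pb overlap
  rw [Finset.prod_univ_sum]
  refine Finset.sum_congr rfl fun c _ => ?_
  rw [Finset.prod_mul_distrib]

lemma sum_pb_sq_left (x y : Fin n → ℝ) : ∑ c ∈ box x y, pb x c ^ 2 = 1 := by
  have h : ∑ c ∈ box x y, pb x c ^ 2 = ∏ i, ∑ m ∈ cand (x i) ∪ cand (y i), bump (x i - m) ^ 2 := by
    unfold box pb
    rw [Finset.prod_univ_sum]
    refine Finset.sum_congr rfl fun c _ => ?_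
    rw [Finset.prod_pow]
  rw [h]
  exact Finset.prod_eq_one fun i _ => sum_bump_sq (x i) Finset.subset_union_left

lemma sum_pb_sq_right (x y : Fin n → ℝ) : ∑ c ∈ box x y, pb y c ^ 2 = 1 := by
  have h : ∑ c ∈ box x y, pb y c ^ 2 = ∏ i, ∑ m ∈ cand (x i) ∪ cand (y i), bump (y i - m) ^ 2 := by
    unfold box pb
    rw [Finset.prod_univ_sum]
    refine Finset.sum_congr rfl fun c _ => ?_
    rw [Finset.prod_pow]
  rw [h]
  exact Finset.prod_eq_one fun i _ => sum_bump_sq (y i) Finset.subset_union_right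

lemma sum_pb_sub_sq_le (x y : Fin n → ℝ) :
    ∑ c ∈ box x y, (pb x c - pb y c) ^ 2 ≤ 10 * ∑ i, (x i - y i) ^ 2 := by
  have e : ∑ c ∈ box x y, (pb x c - pb y c) ^ 2
      = ∑ c ∈ box x y, pb x c ^ 2 + ∑ c ∈ box x y, pb y c ^ 2
        - 2 * ∑ c ∈ box x y, pb x c * pb y c := by
    rw [Finset.mul_sum, ← Finset.sum_add_distrib, ← Finset.sum_sub_distrib]
    refine Finset.sum_congr rfl fun m _ => by ring
  rw [e, sum_pb_sq_left, sum_pb_sq_right, sum_pb_mul]
  have h := one_sub_prod_le Finset.univ (fun i => overlap (x i) (y i))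
    (fun i _ => overlap_nonneg _ _) (fun i _ => overlap_le_one _ _)
  have h2 : ∑ i, (1 - overlap (x i) (y i)) ≤ ∑ i, 5 * (x i - y i) ^ 2 :=
    Finset.sum_le_sum fun i _ => one_sub_overlap_le _ _
  rw [← Finset.mul_sum] at h2
  linarith

lemma le_of_sq_le_sq_of_nonneg' {a b : ℝ} (h : a ^ 2 ≤ b ^ 2) (hb : 0 ≤ b) : a ≤ b :=
  le_of_sq_le_sq h hb


/-! ### the node vectors -/

/-- cell coordinates of the observable values at scale `k` -/
noncomputable def xc (n : ℕ) (y : ℕ → ℝ) (k : ℤ) : Fin n → ℝ := fun i => om i * y i / sc (k + 1)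

/-- node embedding -/
def nd (n : ℕ) (k : ℤ) (c : Fin n → ℤ) : Node := (k, ⟨n, c⟩)

lemma thetaFun_nd (n : ℕ) (y : ℕ → ℝ) (t : ℝ) (k : ℤ) (c : Fin n → ℤ) :
    thetaFun n y t (nd n k c) = bump (Real.log t / 1000 - k) * pb (xc n y k) c := by
  unfold thetaFun nd pb xc
  simp

lemma thetaFun_of_ne {n : ℕ} {y : ℕ → ℝ} {t : ℝ} {κ : Node} (h : κ.2.1 ≠ n) :
    thetaFun n y t κ = 0 := by
  unfold thetaFun
  rw [if_neg h]

lemma exists_nd {n : ℕ} {κ : Node} (h : κ.2.1 = n) : ∃ k c, κ = nd n k c := by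
  obtain ⟨k, m, c⟩ := κ
  simp only at h
  subst h
  exact ⟨k, c, rfl⟩

/-- a finite set of nodes containing the supports of `theta n y t` and `theta n y' t'` -/
noncomputable def supp (n : ℕ) (y y' : ℕ → ℝ) (t t' : ℝ) : Finset Node := by
  classical
  exact ((cand (Real.log t / 1000) ∪ cand (Real.log t' / 1000)).sigma
    (fun k => box (xc n y k) (xc n y' k))).map
    ⟨fun p => nd n p.1 p.2, by
      rintro ⟨k, c⟩ ⟨k', c'⟩ h
      simp only [nd, Prod.mk.injEq, Sigma.mk.injEq, heq_eq_eq, true_and] at h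
      obtain ⟨rfl, rfl⟩ := h
      rfl⟩

lemma sum_supp (n : ℕ) (y y' : ℕ → ℝ) (t t' : ℝ) (f : Node → ℝ) :
    ∑ κ ∈ supp n y y' t t', f κ = ∑ k ∈ cand (Real.log t / 1000) ∪ cand (Real.log t' / 1000),
      ∑ c ∈ box (xc n y k) (xc n y' k), f (nd n k c) := by
  classical
  unfold supp
  rw [Finset.sum_map, Finset.sum_sigma]
  rfl

lemma mem_supp {n : ℕ} {y y' : ℕ → ℝ} {t t' : ℝ} {k : ℤ} {c : Fin n → ℤ}
    (h1 : k ∈ cand (Real.log t / 1000) ∪ cand (Real.log t' / 1000))
    (h2 : c ∈ box (xc n y k) (xc n y' k)) : nd n k c ∈ supp n y y' t t' := by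
  classical
  unfold supp
  rw [Finset.mem_map]
  exact ⟨⟨k, c⟩, Finset.mem_sigma.2 ⟨h1, h2⟩, rfl⟩

lemma thetaFun_eq_zero_left {n : ℕ} {y y' : ℕ → ℝ} {t t' : ℝ} {κ : Node}
    (h : κ ∉ supp n y y' t t') : thetaFun n y t κ = 0 := by
  by_cases hn : κ.2.1 = n
  · obtain ⟨k, c, rfl⟩ := exists_nd hn
    rw [thetaFun_nd]
    by_cases h1 : k ∈ cand (Real.log t / 1000) ∪ cand (Real.log t' / 1000)
    · by_cases h2 : c ∈ box (xc n y k) (xc n y' k)
      · exact absurd (mem_supp h1 h2) h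
      · rw [pb_eq_zero_left h2, mul_zero]
    · simp only [mem_union, not_or] at h1
      rw [bump_sub_eq_zero_of_notMem h1.1, zero_mul]
  · exact thetaFun_of_ne hn

lemma thetaFun_eq_zero_right {n : ℕ} {y y' : ℕ → ℝ} {t t' : ℝ} {κ : Node}
    (h : κ ∉ supp n y y' t t') : thetaFun n y' t' κ = 0 := by
  by_cases hn : κ.2.1 = n
  · obtain ⟨k, c, rfl⟩ := exists_nd hn
    rw [thetaFun_nd]
    by_cases h1 : k ∈ cand (Real.log t / 1000) ∪ cand (Real.log t' / 1000)
    · by_cases h2 : c ∈ box (xc n y k) (xc n y' k)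
      · exact absurd (mem_supp h1 h2) h
      · rw [pb_eq_zero_right h2, mul_zero]
    · simp only [mem_union, not_or] at h1
      rw [bump_sub_eq_zero_of_notMem h1.2, zero_mul]
  · exact thetaFun_of_ne hn

theorem thetaFun_finite_support (n : ℕ) (y : ℕ → ℝ) (t : ℝ) :
    (Function.support (thetaFun n y t)).Finite := by
  refine (supp n y y t t).finite_toSet.subset fun κ hκ => ?_
  by_contra h
  exact hκ (thetaFun_eq_zero_left h)

theorem memℓp_thetaFun (n : ℕ) (y : ℕ → ℝ) (t : ℝ) : Memℓp (thetaFun n y t) 2 := by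
  refine memℓp_gen ?_
  refine summable_of_hasFiniteSupport ((thetaFun_finite_support n y t).subset fun κ hκ => ?_)
  intro h
  apply hκ
  have h0 : thetaFun n y t κ = 0 := h
  simp only [h0, norm_zero]
  norm_num

theorem theta_apply (n : ℕ) (y : ℕ → ℝ) (t : ℝ) (κ : Node) : (theta n y t) κ = thetaFun n y t κ := by
  unfold theta
  rw [dif_pos (memℓp_thetaFun n y t)]

lemma norm_sq_eq_sum (f : lp (fun _ : Node => ℝ) 2) (s : Finset Node) (hs : ∀ κ, κ ∉ s → f κ = 0) :
    ‖f‖ ^ 2 = ∑ κ ∈ s, (f κ) ^ 2 := by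
  have h0 : (0:ℝ) < (2 : ENNReal).toReal := by norm_num
  have e1 := lp.norm_rpow_eq_tsum h0 f
  have h2 : (2 : ENNReal).toReal = ((2:ℕ):ℝ) := by norm_num
  rw [h2, Real.rpow_natCast] at e1
  rw [e1, tsum_eq_sum (s := s)]
  · refine Finset.sum_congr rfl fun κ _ => ?_
    rw [Real.rpow_natCast, Real.norm_eq_abs, sq_abs]
  · intro κ hκ
    rw [hs κ hκ, norm_zero, Real.rpow_natCast]
    norm_num

theorem norm_theta (n : ℕ) (y : ℕ → ℝ) (t : ℝ) : ‖theta n y t‖ = 1 := by
  have h := norm_sq_eq_sum (theta n y t) (supp n y y t t) (fun κ hκ => by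
    rw [theta_apply]; exact thetaFun_eq_zero_left hκ)
  have h1 : ∑ κ ∈ supp n y y t t, (theta n y t κ) ^ 2 = 1 := by
    rw [sum_supp]
    have : ∀ k ∈ cand (Real.log t / 1000) ∪ cand (Real.log t / 1000),
        ∑ c ∈ box (xc n y k) (xc n y k), (theta n y t (nd n k c)) ^ 2
          = bump (Real.log t / 1000 - k) ^ 2 := by
      intro k _
      have e : ∀ c ∈ box (xc n y k) (xc n y k), (theta n y t (nd n k c)) ^ 2
          = bump (Real.log t / 1000 - k) ^ 2 * pb (xc n y k) c ^ 2 := by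
        intro c _
        rw [theta_apply, thetaFun_nd, mul_pow]
      rw [Finset.sum_congr rfl e, ← Finset.mul_sum, sum_pb_sq_left, mul_one]
    rw [Finset.sum_congr rfl this]
    exact sum_bump_sq _ Finset.subset_union_left
  rw [h1] at h
  have h3 : 0 ≤ ‖theta n y t‖ := norm_nonneg _
  nlinarith

/-- active nodes -/
theorem theta_ne_zero {n : ℕ} {y : ℕ → ℝ} {t : ℝ} {κ : Node} (h : (theta n y t) κ ≠ 0) :
    κ.2.1 = n ∧ |Real.log t / 1000 - κ.1| < 1 ∧
      ∀ i : Fin κ.2.1, |om i * y i / sc (κ.1 + 1) - κ.2.2 i| < 1 := by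
  rw [theta_apply] at h
  unfold thetaFun at h
  by_cases hn : κ.2.1 = n
  · rw [if_pos hn] at h
    refine ⟨hn, bump_ne_zero (left_ne_zero_of_mul h), fun i => ?_⟩
    have h2 := right_ne_zero_of_mul h
    rw [Finset.prod_ne_zero_iff] at h2
    exact bump_ne_zero (h2 i (Finset.mem_univ i))
  · rw [if_neg hn] at h
    exact absurd rfl h


lemma abs_floor_sub_le {x : ℝ} {m : ℤ} (h : |x - m| < 1) : |m - ⌊x⌋| ≤ 1 := by
  rw [abs_lt] at h
  have h1 : (⌊x⌋ : ℝ) ≤ x := Int.floor_le x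
  have h2 : x < ⌊x⌋ + 1 := Int.lt_floor_add_one x
  have h3 : (m : ℝ) < ⌊x⌋ + 2 := by linarith
  have h4 : (⌊x⌋ : ℝ) - 1 < m := by linarith
  have h3' : m < ⌊x⌋ + 2 := by exact_mod_cast h3
  have h4' : ⌊x⌋ - 1 < m := by exact_mod_cast h4
  rw [abs_le]
  omega

/-- the active nodes are contained in two windows -/
theorem theta_windows (n : ℕ) (y : ℕ → ℝ) (t : ℝ) :
    ∃ (k k' : ℤ) (c c' : Fin n → ℤ), ∀ κ, (theta n y t) κ ≠ 0 → κ ∈ win n k c ∪ win n k' c' := by
  refine ⟨⌊Real.log t / 1000⌋, ⌊Real.log t / 1000⌋ + 1,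
    fun i => ⌊xc n y ⌊Real.log t / 1000⌋ i⌋, fun i => ⌊xc n y (⌊Real.log t / 1000⌋ + 1) i⌋, ?_⟩
  intro κ hκ
  obtain ⟨hn, hk, hc⟩ := theta_ne_zero hκ
  obtain ⟨k, c, rfl⟩ := exists_nd hn
  have hk' : k ∈ cand (Real.log t / 1000) := by
    by_contra hcon
    apply hκ
    rw [theta_apply, thetaFun_nd, bump_sub_eq_zero_of_notMem hcon, zero_mul]
  simp only [cand, mem_insert, mem_singleton] at hk'
  rcases hk' with rfl | rfl
  · left
    exact ⟨c, rfl, fun i => abs_floor_sub_le (hc i)⟩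
  · right
    exact ⟨c, rfl, fun i => abs_floor_sub_le (hc i)⟩

/-- `theta n y t` depends only on `y i`, `i < n` -/
theorem theta_congr {n : ℕ} {y y' : ℕ → ℝ} (t : ℝ) (h : ∀ i < n, y i = y' i) :
    theta n y t = theta n y' t := by
  have : thetaFun n y t = thetaFun n y' t := by
    funext κ
    unfold thetaFun
    by_cases hn : κ.2.1 = n
    · rw [if_pos hn, if_pos hn]
      congr 1
      refine Finset.prod_congr rfl fun i _ => ?_
      rw [h i (lt_of_lt_of_eq i.2 hn)]
    · rw [if_neg hn, if_neg hn]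
  ext κ
  rw [theta_apply, theta_apply, this]

lemma le_sc_of_bump_ne_zero {t : ℝ} (ht : 0 ≤ t) {k : ℤ} (h : bump (Real.log t / 1000 - k) ≠ 0) :
    t ≤ sc (k + 1) := by
  rcases ht.eq_or_lt with rfl | ht
  · exact (Real.exp_pos _).le
  · have h1 := (abs_lt.1 (bump_ne_zero h)).2
    unfold sc
    rw [← Real.log_le_iff_le_exp ht]
    push_cast
    linarith

lemma sum_om_sq_le (n : ℕ) : ∑ i : Fin n, (om i) ^ 2 ≤ 1 / 780000 := by
  have h : ∀ m : ℕ, ∑ i ∈ Finset.range m, (om i) ^ 2 ≤ (1 / 780000) * (1 - (1 / 4) ^ m) := by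
    intro m
    induction m with
    | zero => simp
    | succ m ih =>
      rw [Finset.sum_range_succ]
      have e : (om m) ^ 2 = (1 / 1048576) * (1 / 4) ^ m := by
        unfold om
        rw [← pow_mul, mul_comm (m + 10) 2, pow_mul]
        norm_num [pow_add]
        ring
      rw [e, pow_succ]
      have : (0:ℝ) < (1 / 4) ^ m := by positivity
      linarith
  rw [Fin.sum_univ_eq_sum_range (fun i => (om i) ^ 2) n]
  refine (h n).trans ?_
  have : (0:ℝ) < (1 / 4) ^ n := by positivity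
  linarith

lemma theta_lip_left (n : ℕ) (y y' : ℕ → ℝ) (t δ : ℝ) (ht : 0 ≤ t) (hδ : 0 ≤ δ)
    (h : ∀ i < n, |y i - y' i| ≤ δ) :
    ‖theta n y t - theta n y' t‖ * t ≤ (1 / 250) * δ := by
  have hs := norm_sq_eq_sum (theta n y t - theta n y' t) (supp n y y' t t) (fun κ hκ => by
    rw [lp.coeFn_sub, Pi.sub_apply, theta_apply, theta_apply, thetaFun_eq_zero_left hκ,
      thetaFun_eq_zero_right hκ, sub_zero])
  have hb : (‖theta n y t - theta n y' t‖ * t) ^ 2 ≤ (1 / 250 * δ) ^ 2 := by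
    rw [mul_pow, hs, sum_supp, Finset.sum_mul]
    have hk : ∀ k ∈ cand (Real.log t / 1000) ∪ cand (Real.log t / 1000),
        (∑ c ∈ box (xc n y k) (xc n y' k), ((theta n y t - theta n y' t : lp (fun _ : Node => ℝ) 2)
            (nd n k c)) ^ 2) * t ^ 2
          ≤ bump (Real.log t / 1000 - k) ^ 2 * ((1 / 250 * δ) ^ 2) := by
      intro k _
      have e : ∀ c ∈ box (xc n y k) (xc n y' k),
          ((theta n y t - theta n y' t : lp (fun _ : Node => ℝ) 2) (nd n k c)) ^ 2
          = bump (Real.log t / 1000 - k) ^ 2 * (pb (xc n y k) c - pb (xc n y' k) c) ^ 2 := by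
        intro c _
        rw [lp.coeFn_sub, Pi.sub_apply, theta_apply, theta_apply, thetaFun_nd, thetaFun_nd]
        ring
      rw [Finset.sum_congr rfl e, ← Finset.mul_sum, mul_assoc]
      by_cases hb0 : bump (Real.log t / 1000 - k) = 0
      · rw [hb0]; simp
      · refine mul_le_mul_of_nonneg_left ?_ (sq_nonneg _)
        have hts := le_sc_of_bump_ne_zero ht hb0
        have hsc : 0 < sc (k + 1) := Real.exp_pos _
        have h1 := sum_pb_sub_sq_le (xc n y k) (xc n y' k)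
        have h2 : ∑ i, (xc n y k i - xc n y' k i) ^ 2 ≤ (1 / 780000) * (δ / sc (k + 1)) ^ 2 := by
          have h3 : ∀ i ∈ (Finset.univ : Finset (Fin n)), (xc n y k i - xc n y' k i) ^ 2
              ≤ (om i) ^ 2 * (δ / sc (k + 1)) ^ 2 := by
            intro i _
            unfold xc
            have e2 : om i * y i / sc (k + 1) - om i * y' i / sc (k + 1)
                = om i * ((y i - y' i) / sc (k + 1)) := by ring
            rw [e2, mul_pow]
            refine mul_le_mul_of_nonneg_left ?_ (sq_nonneg _)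
            rw [div_pow, div_pow]
            refine div_le_div_of_nonneg_right ?_ (sq_nonneg _)
            have := h i i.2
            rw [← sq_abs]
            exact pow_le_pow_left₀ (abs_nonneg _) this 2
          calc ∑ i, (xc n y k i - xc n y' k i) ^ 2 ≤ ∑ i : Fin n, (om i) ^ 2 * (δ / sc (k + 1)) ^ 2 :=
                Finset.sum_le_sum h3
            _ = (∑ i : Fin n, (om i) ^ 2) * (δ / sc (k + 1)) ^ 2 := by rw [Finset.sum_mul]
            _ ≤ _ := mul_le_mul_of_nonneg_right (sum_om_sq_le n) (sq_nonneg _)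
        have h4 : (δ / sc (k + 1)) ^ 2 * t ^ 2 ≤ δ ^ 2 := by
          rw [← mul_pow]
          refine pow_le_pow_left₀ (by positivity) ?_ 2
          rw [div_mul_eq_mul_div, div_le_iff₀ hsc]
          exact mul_le_mul_of_nonneg_left hts hδ
        have ht2 : 0 ≤ t ^ 2 := sq_nonneg t
        calc (∑ c ∈ box (xc n y k) (xc n y' k), (pb (xc n y k) c - pb (xc n y' k) c) ^ 2) * t ^ 2
            ≤ (10 * ∑ i, (xc n y k i - xc n y' k i) ^ 2) * t ^ 2 :=
              mul_le_mul_of_nonneg_right h1 ht2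
          _ ≤ (10 * ((1 / 780000) * (δ / sc (k + 1)) ^ 2)) * t ^ 2 := by gcongr
          _ = (10 / 780000) * ((δ / sc (k + 1)) ^ 2 * t ^ 2) := by ring
          _ ≤ (10 / 780000) * δ ^ 2 := by gcongr
          _ ≤ (1 / 250 * δ) ^ 2 := by nlinarith [sq_nonneg δ]
    refine (Finset.sum_le_sum hk).trans ?_
    rw [← Finset.sum_mul, sum_bump_sq _ Finset.subset_union_left, one_mul]
  exact le_of_sq_le_sq_of_nonneg' hb (by positivity)

lemma min_mul_log_le {t t' : ℝ} (ht : 0 < t) (ht' : 0 < t') :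
    |Real.log t - Real.log t'| * min t t' ≤ |t - t'| := by
  wlog hle : t ≤ t' generalizing t t' with H
  · have := H ht' ht (le_of_not_ge hle)
    rw [abs_sub_comm, min_comm, abs_sub_comm t t']
    exact this
  rw [min_eq_left hle, abs_sub_comm, abs_sub_comm t t', abs_of_nonneg (sub_nonneg.2 hle),
    abs_of_nonneg (sub_nonneg.2 (Real.log_le_log ht hle)), ← Real.log_div ht'.ne' ht.ne']
  have h := Real.log_le_sub_one_of_pos (div_pos ht' ht)
  calc Real.log (t' / t) * t ≤ (t' / t - 1) * t := mul_le_mul_of_nonneg_right h ht.le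
    _ = t' - t := by field_simp

lemma theta_lip_right (n : ℕ) (y : ℕ → ℝ) (t t' : ℝ) (ht : 0 < t) (ht' : 0 < t') :
    ‖theta n y t - theta n y t'‖ * min t t' ≤ (1 / 250) * |t - t'| := by
  have hs := norm_sq_eq_sum (theta n y t - theta n y t') (supp n y y t t') (fun κ hκ => by
    rw [lp.coeFn_sub, Pi.sub_apply, theta_apply, theta_apply, thetaFun_eq_zero_left hκ,
      thetaFun_eq_zero_right hκ, sub_zero])
  have hb : ‖theta n y t - theta n y t'‖ ^ 2 ≤ (1 / 250 * |Real.log t - Real.log t'|) ^ 2 := by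
    rw [hs, sum_supp]
    have hk : ∀ k ∈ cand (Real.log t / 1000) ∪ cand (Real.log t' / 1000),
        (∑ c ∈ box (xc n y k) (xc n y k), ((theta n y t - theta n y t' : lp (fun _ : Node => ℝ) 2)
            (nd n k c)) ^ 2)
          = (bump (Real.log t / 1000 - k) - bump (Real.log t' / 1000 - k)) ^ 2 := by
      intro k _
      have e : ∀ c ∈ box (xc n y k) (xc n y k),
          ((theta n y t - theta n y t' : lp (fun _ : Node => ℝ) 2) (nd n k c)) ^ 2
          = (bump (Real.log t / 1000 - k) - bump (Real.log t' / 1000 - k)) ^ 2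
            * (pb (xc n y k) c) ^ 2 := by
        intro c _
        rw [lp.coeFn_sub, Pi.sub_apply, theta_apply, theta_apply, thetaFun_nd, thetaFun_nd]
        ring
      rw [Finset.sum_congr rfl e, ← Finset.mul_sum, sum_pb_sq_left, mul_one]
    rw [Finset.sum_congr rfl hk]
    refine (sum_bump_sub_sq_le _ _ _).trans ?_
    have e : Real.log t / 1000 - Real.log t' / 1000 = (Real.log t - Real.log t') / 1000 := by ring
    rw [e, mul_pow, sq_abs, div_pow]
    nlinarith [sq_nonneg (Real.log t - Real.log t')]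
  have hb' : ‖theta n y t - theta n y t'‖ ≤ 1 / 250 * |Real.log t - Real.log t'| :=
    le_of_sq_le_sq_of_nonneg' hb (by positivity)
  have hm : 0 ≤ min t t' := le_min ht.le ht'.le
  calc ‖theta n y t - theta n y t'‖ * min t t'
      ≤ (1 / 250 * |Real.log t - Real.log t'|) * min t t' := mul_le_mul_of_nonneg_right hb' hm
    _ = 1 / 250 * (|Real.log t - Real.log t'| * min t t') := by ring
    _ ≤ 1 / 250 * |t - t'| := by
        refine mul_le_mul_of_nonneg_left (min_mul_log_le ht ht') (by norm_num)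

/-- slow variation -/
theorem theta_lip (n : ℕ) (y y' : ℕ → ℝ) (t t' δ : ℝ) (ht : 0 ≤ t) (ht' : 0 ≤ t') (hδ : 0 ≤ δ)
    (h : ∀ i < n, |y i - y' i| ≤ δ) :
    ‖theta n y t - theta n y' t'‖ * min t t' ≤ (1 / 250) * (δ + |t - t'|) := by
  rcases ht.eq_or_lt with rfl | ht0
  · rw [min_eq_left ht', mul_zero]; positivity
  rcases ht'.eq_or_lt with rfl | ht0'
  · rw [min_eq_right ht, mul_zero]; positivity
  have h1 := theta_lip_left n y y' t δ ht hδ h
  have h2 := theta_lip_right n y' t t' ht0 ht0'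
  have h3 : ‖theta n y t - theta n y' t'‖ ≤ ‖theta n y t - theta n y' t‖
      + ‖theta n y' t - theta n y' t'‖ := by
    have e : theta n y t - theta n y' t' = (theta n y t - theta n y' t)
      + (theta n y' t - theta n y' t') := by abel
    rw [e]; exact norm_add_le _ _
  have hm : 0 ≤ min t t' := le_min ht ht'
  calc ‖theta n y t - theta n y' t'‖ * min t t'
      ≤ (‖theta n y t - theta n y' t‖ + ‖theta n y' t - theta n y' t'‖) * min t t' :=
        mul_le_mul_of_nonneg_right h3 hm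
    _ = ‖theta n y t - theta n y' t‖ * min t t' + ‖theta n y' t - theta n y' t'‖ * min t t' := by
        ring
    _ ≤ ‖theta n y t - theta n y' t‖ * t + (1 / 250) * |t - t'| :=
        add_le_add (mul_le_mul_of_nonneg_left (min_le_left _ _) (norm_nonneg _)) h2
    _ ≤ (1 / 250) * (δ + |t - t'|) := by linarith

end Crest.Agent.R091
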