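import Crest.Agent.R091.Phi
import Crest.Agent.R091.Defs
import Crest.Agent.R091.Eval
import Mathlib
import Crest.Agent.R091.C0
import Crest.Agent.R091.Rot
import Crest.Agent.R091.Theta_Mg
import Crest.Agent.R091.CtxExists_Mg

-- ▼ part R091/Cont
section

/-! # Row 91, module Cont: o-continuity of the functions `DG X G` (helper89) -/

set_option autoImplicit false

namespace Crest.Agent.R091

open Filter
open scoped Topology ZeroAtInfty

variable {H : Type} [NormedAddCommGroup H] [InnerProductSpace ℝ H]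

/-- `F` converges along every filter along which all observables converge -/
def OCont (X : Ctx H) (F : (ℕ → HV H) → ℝ) : Prop :=
  ∀ 𝒱 : Filter (P H), 𝒱.NeBot → (∀ i, ∃ x : ℝ, Tendsto (fun p : P H => obs X i p) 𝒱 (𝓝 x)) →
    ∃ y : ℝ, Tendsto (fun p : P H => F p) 𝒱 (𝓝 y)

/-! ### auxiliary convergence lemmas -/

theorem exists_tendsto_of_approx {α : Type*} {𝒱 : Filter α} [𝒱.NeBot] (F : α → ℝ)
    (h : ∀ ε : ℝ, 0 < ε → ∃ F' : α → ℝ, (∃ y : ℝ, Tendsto F' 𝒱 (𝓝 y)) ∧
      ∀ᶠ p in 𝒱, |F p - F' p| ≤ ε) :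
    ∃ y : ℝ, Tendsto F 𝒱 (𝓝 y) := by
  rw [← cauchy_map_iff_exists_tendsto]
  rw [Metric.cauchy_iff]
  refine ⟨inferInstance, fun ε hε => ?_⟩
  obtain ⟨F', ⟨y, hy⟩, hF⟩ := h (ε / 4) (by positivity)
  have h1 : ∀ᶠ p in 𝒱, |F' p - y| < ε / 4 := by
    have := Metric.tendsto_nhds.1 hy (ε / 4) (by positivity)
    simpa [Real.dist_eq] using this
  refine ⟨F '' {p | |F p - F' p| ≤ ε / 4 ∧ |F' p - y| < ε / 4}, image_mem_map (hF.and h1), ?_⟩
  rintro _ ⟨p, ⟨hp1, hp2⟩, rfl⟩ _ ⟨q, ⟨hq1, hq2⟩, rfl⟩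
  rw [Real.dist_eq]
  rw [abs_le] at hp1 hq1
  rw [abs_lt] at hp2 hq2 ⊢
  constructor <;> linarith [hp1.1, hp1.2, hq1.1, hq1.2, hp2.1, hp2.2, hq2.1, hq2.2]

theorem obs_norm (X : Ctx H) (n : ℕ) (v : ℕ → HV H) : obs X (Nat.pair n 0) v = ‖v n‖ := by
  simp [obs, Nat.unpair_pair]

theorem obs_inner (X : Ctx H) (n s : ℕ) (v : ℕ → HV H) :
    obs X (Nat.pair n (s + 1)) v = inner ℝ (X.e s) (v n) := by
  simp [obs, Nat.unpair_pair]

theorem tendsto_norm_of_obs (X : Ctx H) {𝒱 : Filter (P H)}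
    (hobs : ∀ i, ∃ x : ℝ, Tendsto (fun p : P H => obs X i p) 𝒱 (𝓝 x)) (n : ℕ) :
    ∃ t : ℝ, Tendsto (fun p : P H => ‖p n‖) 𝒱 (𝓝 t) := by
  obtain ⟨t, ht⟩ := hobs (Nat.pair n 0)
  exact ⟨t, by simpa only [obs_norm] using ht⟩

theorem tendsto_inner_of_obs (X : Ctx H) {𝒱 : Filter (P H)} [𝒱.NeBot]
    (hobs : ∀ i, ∃ x : ℝ, Tendsto (fun p : P H => obs X i p) 𝒱 (𝓝 x)) (n : ℕ) (g : HV H) :
    ∃ y : ℝ, Tendsto (fun p : P H => inner ℝ g (p n)) 𝒱 (𝓝 y) := by
  obtain ⟨t, ht⟩ := tendsto_norm_of_obs X hobs n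
  have hM : 0 < ‖g‖ + 1 := by positivity
  have hev : ∀ᶠ p in 𝒱, ‖p n‖ ≤ |t| + 1 := by
    have h1 := Metric.tendsto_nhds.1 ht 1 one_pos
    filter_upwards [h1] with p hp
    rw [Real.dist_eq, abs_lt] at hp
    linarith [le_abs_self t, hp.2]
  apply exists_tendsto_of_approx
  intro ε hε
  have hT : 0 < |t| + 1 := by positivity
  have hg' : ‖(‖g‖ + 1)⁻¹ • g‖ ≤ 1 := by
    rw [norm_smul, norm_inv, Real.norm_of_nonneg hM.le, inv_mul_le_iff₀ hM]
    linarith
  obtain ⟨s, hs⟩ := X.hed _ hg' (ε / ((‖g‖ + 1) * (|t| + 1))) (by positivity)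
  refine ⟨fun p => (‖g‖ + 1) * inner ℝ (X.e s) (p n), ?_, ?_⟩
  · obtain ⟨x, hx⟩ := hobs (Nat.pair n (s + 1))
    refine ⟨(‖g‖ + 1) * x, Tendsto.const_mul _ ?_⟩
    simpa only [obs_inner] using hx
  · filter_upwards [hev] with p hp
    have e1 : inner ℝ g (p n) - (‖g‖ + 1) * inner ℝ (X.e s) (p n)
        = (‖g‖ + 1) * inner ℝ ((‖g‖ + 1)⁻¹ • g - X.e s) (p n) := by
      rw [inner_sub_left, mul_sub, real_inner_smul_left, ← mul_assoc, mul_inv_cancel₀ hM.ne', one_mul]
    rw [e1, abs_mul, abs_of_pos hM]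
    have h2 : |inner ℝ ((‖g‖ + 1)⁻¹ • g - X.e s) (p n)| ≤
        ε / ((‖g‖ + 1) * (|t| + 1)) * (|t| + 1) :=
      (abs_real_inner_le_norm _ _).trans (mul_le_mul hs.le hp (norm_nonneg _) (by positivity))
    calc (‖g‖ + 1) * |inner ℝ ((‖g‖ + 1)⁻¹ • g - X.e s) (p n)|
        ≤ (‖g‖ + 1) * (ε / ((‖g‖ + 1) * (|t| + 1)) * (|t| + 1)) := by gcongr
      _ = ε := by field_simp

/-- for fixed `T`, `v ↦ ⟨f, T (uu J T v)⟩` is given by an explicit vector of `H ⊕₂ V` -/
theorem exists_inner_rep (J : WithLp 2 (H × Y) ≃ₗᵢ[ℝ] Y) (T : Y →L[ℝ] V) (f : V) :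
    ∃ g : HV H, ∀ v : HV H, inner ℝ f (T (uu J T v)) = inner ℝ g v := by
  set z := J.symm (ContinuousLinearMap.adjoint T f) with hz
  refine ⟨WithLp.toLp 2 (z.fst, T z.snd - T (ContinuousLinearMap.adjoint T f)), fun v => ?_⟩
  rw [← ContinuousLinearMap.adjoint_inner_left]
  have hJ : J z = ContinuousLinearMap.adjoint T f := by rw [hz, LinearIsometryEquiv.apply_symm_apply]
  unfold uu
  rw [inner_sub_right]
  have h1 : inner ℝ (ContinuousLinearMap.adjoint T f)
      (J (WithLp.toLp 2 (v.fst, ContinuousLinearMap.adjoint T v.snd)))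
      = inner ℝ z (WithLp.toLp 2 (v.fst, ContinuousLinearMap.adjoint T v.snd)) := by
    conv_lhs => rw [← hJ]
    rw [LinearIsometryEquiv.inner_map_map]
  rw [h1, WithLp.prod_inner_apply, WithLp.prod_inner_apply]
  have h2 : inner ℝ z.snd (ContinuousLinearMap.adjoint T v.snd) = inner ℝ (T z.snd) v.snd :=
    ContinuousLinearMap.adjoint_inner_right _ _ _
  have h3 : inner ℝ (ContinuousLinearMap.adjoint T f) (ContinuousLinearMap.adjoint T v.snd)
      = inner ℝ (T (ContinuousLinearMap.adjoint T f)) v.snd :=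
    ContinuousLinearMap.adjoint_inner_right _ _ _
  have h4 : inner ℝ (T z.snd - T (ContinuousLinearMap.adjoint T f)) v.snd
      = inner ℝ (T z.snd) v.snd - inner ℝ (T (ContinuousLinearMap.adjoint T f)) v.snd :=
    inner_sub_left _ _ _
  change inner ℝ z.fst v.fst + inner ℝ z.snd (ContinuousLinearMap.adjoint T v.snd)
      - inner ℝ (ContinuousLinearMap.adjoint T f) (ContinuousLinearMap.adjoint T v.snd)
      = inner ℝ z.fst v.fst + inner ℝ (T z.snd - T (ContinuousLinearMap.adjoint T f)) v.snd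
  rw [h2, h3, h4]
  ring

/-- convergence of the node vectors -/
theorem theta_eventually (X : Ctx H) (n : ℕ) {𝒱 : Filter (P H)} (y : ℕ → ℝ) (t : ℝ) (ht : 0 < t)
    (hy : ∀ i, Tendsto (fun p : P H => obs X i p) 𝒱 (𝓝 (y i)))
    (hn : Tendsto (fun p : P H => ‖p n‖) 𝒱 (𝓝 t)) (ε : ℝ) (hε : 0 < ε) :
    ∀ᶠ p in 𝒱, ‖th X n (fun m => p m) - theta n y t‖ ≤ ε := by
  set e' := min (t / 2) (ε * t) with he'
  have he0 : 0 < e' := lt_min (by positivity) (by positivity)
  have h1 : ∀ᶠ p : P H in 𝒱, ∀ i ∈ Finset.range n, |obs X i p - y i| < e' := by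
    rw [Filter.eventually_all_finset]
    intro i _
    have := Metric.tendsto_nhds.1 (hy i) e' he0
    simpa [Real.dist_eq] using this
  have h2 : ∀ᶠ p in 𝒱, |‖p n‖ - t| < e' := by
    have := Metric.tendsto_nhds.1 hn e' he0
    simpa [Real.dist_eq] using this
  filter_upwards [h1, h2] with p hp1 hp2
  have h3 := theta_lip n (fun i => obs X i p) y ‖p n‖ t e' (norm_nonneg _) ht.le he0.le
    (fun i hi => (hp1 i (Finset.mem_range.2 hi)).le)
  have h4 : t / 2 ≤ min ‖p n‖ t := by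
    refine le_min ?_ (by linarith)
    have := (abs_lt.1 hp2).1
    have h5 : e' ≤ t / 2 := min_le_left _ _
    linarith
  have h5 : e' ≤ ε * t := min_le_right _ _
  change ‖theta n (fun i => obs X i p) ‖p n‖ - theta n y t‖ ≤ ε
  set A := ‖theta n (fun i => obs X i p) ‖p n‖ - theta n y t‖ with hA
  have hA0 : 0 ≤ A := norm_nonneg _
  have h6 : A * (t / 2) ≤ 1 / 250 * (e' + |‖p n‖ - t|) :=
    (mul_le_mul_of_nonneg_left h4 hA0).trans h3
  have h7 : A * (t / 2) ≤ 1 / 250 * (ε * t + ε * t) := by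
    refine h6.trans ?_
    gcongr
    exact hp2.le.trans h5
  have h8 : A * t ≤ ε * t := by
    have : 0 ≤ ε * t := by positivity
    linarith
  exact le_of_mul_le_mul_right h8 ht

theorem oCont_inner_beta (X : Ctx H) (n : ℕ) (f : V) : OCont X (fun v => inner ℝ f (beta X n v)) := by
  intro 𝒱 h𝒱 hobs
  choose y hy using hobs
  obtain ⟨t, ht⟩ := tendsto_norm_of_obs X (fun i => ⟨y i, hy i⟩) n
  have ht0 : 0 ≤ t := ge_of_tendsto ht (Eventually.of_forall fun p => norm_nonneg _)
  rcases ht0.eq_or_lt with h0 | htpos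
  · refine ⟨0, ?_⟩
    rw [← h0] at ht
    refine squeeze_zero_norm (a := fun p : P H => ‖f‖ * (2 * ‖p n‖)) (fun p => ?_) ?_
    · rw [Real.norm_eq_abs]
      exact (abs_real_inner_le_norm _ _).trans
        (mul_le_mul_of_nonneg_left (norm_beta_le X n _) (norm_nonneg _))
    · have := (ht.const_mul 2).const_mul ‖f‖
      simpa using this
  · set T' := tens (theta n y t) with hT'
    have hiso' : ∀ z, ‖T' z‖ = ‖z‖ := fun z => by
      rw [hT', norm_tens_apply, norm_theta, one_mul]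
    obtain ⟨g, hg⟩ := exists_inner_rep X.J T' f
    apply exists_tendsto_of_approx
    intro ε hε
    have hF : 0 < 4 * (‖f‖ + 1) * (t + 1) := by positivity
    refine ⟨fun p => inner ℝ g (p n), tendsto_inner_of_obs X (fun i => ⟨y i, hy i⟩) n g, ?_⟩
    have h1 := theta_eventually X n y t htpos hy ht (ε / (4 * (‖f‖ + 1) * (t + 1))) (by positivity)
    have h2 : ∀ᶠ p in 𝒱, ‖p n‖ ≤ t + 1 := by
      have h1 := Metric.tendsto_nhds.1 ht 1 one_pos
      filter_upwards [h1] with p hp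
      rw [Real.dist_eq, abs_lt] at hp
      linarith [hp.2]
    filter_upwards [h1, h2] with p hp1 hp2
    rw [← hg]
    have e1 : beta X n (fun m => p m) - T' (uu X.J T' (p n))
        = rot X.J (tens (th X n (fun m => p m))) (p n) - rot X.J T' (p n) := by
      unfold beta rot
      abel
    change |inner ℝ f (beta X n (fun m => p m)) - inner ℝ f (T' (uu X.J T' (p n)))| ≤ ε
    rw [← inner_sub_right, e1]
    refine (abs_real_inner_le_norm _ _).trans ?_
    have h3 := norm_rot_sub_rot_le X.J (tens (th X n (fun m => p m))) T'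
      (tens_th_iso X n _) hiso' (p n)
    have h4 : ‖tens (th X n (fun m => p m)) - T'‖ ≤ ε / (4 * (‖f‖ + 1) * (t + 1)) :=
      (norm_tens_sub_le _ _).trans hp1
    have hd : 0 ≤ ε / (4 * (‖f‖ + 1) * (t + 1)) := by positivity
    calc ‖f‖ * ‖rot X.J (tens (th X n (fun m => p m))) (p n) - rot X.J T' (p n)‖
        ≤ (‖f‖ + 1) * (4 * (ε / (4 * (‖f‖ + 1) * (t + 1))) * (t + 1)) := by
          refine mul_le_mul (by linarith) (h3.trans ?_) (norm_nonneg _) (by positivity)
          refine mul_le_mul ?_ hp2 (norm_nonneg _) (by positivity)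
          exact mul_le_mul_of_nonneg_left h4 (by norm_num)
      _ = ε := by field_simp

theorem oCont_beta (X : Ctx H) (μ : Mu) : OCont X (fun v => inner ℝ (fV X μ) (beta X μ.1 v)) :=
  oCont_inner_beta X μ.1 (fV X μ)

/-! ### closure properties -/

theorem OCont.const (X : Ctx H) (c : ℝ) : OCont X (fun _ => c) := fun _ _ _ => ⟨c, tendsto_const_nhds⟩

theorem OCont.comp {X : Ctx H} {F : (ℕ → HV H) → ℝ} (hF : OCont X F) {g : ℝ → ℝ} (hg : Continuous g) :
    OCont X (fun v => g (F v)) := fun 𝒱 h h' => by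
  obtain ⟨y, hy⟩ := hF 𝒱 h h'
  exact ⟨g y, (hg.tendsto y).comp hy⟩

theorem OCont.comp₂ {X : Ctx H} {F G : (ℕ → HV H) → ℝ} (hF : OCont X F) (hG : OCont X G)
    {g : ℝ → ℝ → ℝ} (hg : Continuous (fun z : ℝ × ℝ => g z.1 z.2)) :
    OCont X (fun v => g (F v) (G v)) := fun 𝒱 h h' => by
  obtain ⟨y, hy⟩ := hF 𝒱 h h'
  obtain ⟨z, hz⟩ := hG 𝒱 h h'
  exact ⟨g y z, (hg.tendsto (y, z)).comp (hy.prodMk_nhds hz)⟩

theorem OCont.sum {X : Ctx H} {ι : Type*} (s : Finset ι) {F : ι → (ℕ → HV H) → ℝ}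
    (hF : ∀ i ∈ s, OCont X (F i)) : OCont X (fun v => ∑ i ∈ s, F i v) := by
  classical
  induction s using Finset.induction_on with
  | empty => simpa using OCont.const X 0
  | insert a s ha ih =>
    have h1 := hF a (Finset.mem_insert_self a s)
    have h2 := ih (fun i hi => hF i (Finset.mem_insert_of_mem hi))
    have h3 := OCont.comp₂ h1 h2 (g := fun x y => x + y) (by fun_prop)
    refine fun 𝒱 h h' => ?_
    obtain ⟨y, hy⟩ := h3 𝒱 h h'
    exact ⟨y, by simpa only [Finset.sum_insert ha] using hy⟩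



theorem oCont_sfun (X : Ctx H) (n : ℕ) (k : ℤ) (c : Fin n → ℤ) (d : ℕ) : OCont X (sfun X n k c d) := by
  intro 𝒱 h𝒱 hobs
  obtain ⟨t, ht⟩ := tendsto_norm_of_obs X hobs n
  choose y hy using hobs
  have key : ∀ j ∈ (Finset.univ : Finset (Option (Fin n))), Tendsto
      (fun p : P H => (match j with
        | none => max (1 / rr d - ‖p n‖ / sc k) (‖p n‖ / sc k - rr d)
        | some i => |om i * obs X i p / sc (k + 1) - c i| - rho d : ℝ)) 𝒱
      (𝓝 (match j with
        | none => max (1 / rr d - t / sc k) (t / sc k - rr d)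
        | some i => |om i * y i / sc (k + 1) - c i| - rho d : ℝ)) := by
    intro j _
    cases j with
    | none =>
      exact (tendsto_const_nhds.sub (ht.div_const _)).max ((ht.div_const _).sub tendsto_const_nhds)
    | some i =>
      exact ((((hy i).const_mul _).div_const _).sub tendsto_const_nhds).abs.sub tendsto_const_nhds
  exact ⟨_, (Tendsto.finset_sup'_nhds_apply Finset.univ_nonempty key).const_mul _⟩

theorem continuous_soft_tent (e h c : ℝ) :
    Continuous (fun z : ℝ × ℝ => e * soft (max 0 z.1) (tent h (z.2 - c))) := by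
  unfold soft tent
  fun_prop

theorem oCont_gval (X : Ctx H) {F : (ℕ → HV H) → ℝ} (hF : OCont X F) (n : ℕ) (a : ℤ) (c : Fin n → ℤ)
    (k : ℤ) (d : ℕ) : OCont X (gval X F n a c k d) :=
  OCont.comp₂ (oCont_sfun X n k c d) hF
    (g := fun s x => ep d * soft (max 0 s) (tent (hh d * sc k) (x - a * (hh d * sc k))))
    (continuous_soft_tent _ _ _)

theorem oCont_DBT (X : Ctx H) {T : Sg → (ℕ → HV H) → ℝ} (hT : ∀ σ, OCont X (T σ)) (b : Bk) :
    OCont X (DBT X T b) := by
  cases b with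
  | inl μ => exact oCont_beta X μ
  | inr σ => exact hT σ

theorem oCont_DT (X : Ctx H) {T : Sg → (ℕ → HV H) → ℝ} (hT : ∀ σ, OCont X (T σ)) (n : ℕ) (G : GG) :
    OCont X (DT X T n G) := by
  unfold DT
  refine OCont.sum _ fun b _ => ?_
  by_cases hb : lev b < n
  · simp only [hb, if_true]
    exact (oCont_DBT X hT b).comp (g := fun x => (G b : ℝ) * x) (by fun_prop)
  · simp only [hb, if_false]
    exact OCont.const X 0

theorem oCont_Tab (X : Ctx H) (n : ℕ) : ∀ σ, OCont X (Tab X n σ) := by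
  induction n with
  | zero => exact fun σ => OCont.const X 0
  | succ n ih =>
    intro σ
    unfold Tab
    by_cases h1 : σ.1 = n
    · simp only [h1, if_true]
      split_ifs with h2
      · exact oCont_gval X (oCont_DT X ih n _) _ _ _ _ _
      · exact OCont.const X 0
    · simp only [h1, if_false]
      exact ih σ

theorem oCont_Phi (X : Ctx H) (σ : Sg) : OCont X (Phi X σ) := oCont_Tab X (σ.1 + 1) σ

theorem oCont_DG (X : Ctx H) (G : GG) : OCont X (DG X G) := by
  unfold DG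
  refine OCont.sum _ fun b _ => ?_
  exact (oCont_DBT X (oCont_Phi X) b).comp (g := fun x => (G b : ℝ) * x) (by fun_prop)




end Crest.Agent.R091
end

-- ▼ part R091/Chain
section

/-!
Row 91, section 5 of the blueprint (helper441): the abstract chain theorem (helper102).
-/

set_option autoImplicit false

namespace Crest.Agent.R091.Ch

open Filter Topology

/-! ### `tent` and `soft` -/

section TS

theorem tent_eq_self {h x : ℝ} (hx : |x| ≤ h) : tent h x = x := by
  have := abs_le.1 hx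
  unfold tent
  rcases le_total 0 x with h0 | h0
  · rw [min_eq_left (by linarith), max_eq_left h0, min_eq_left (by linarith),
      max_eq_right (by linarith)]
    ring
  · rw [min_eq_left (by linarith), max_eq_right h0, min_eq_left (by linarith),
      max_eq_left (by linarith)]
    ring

theorem abs_tent_le {h : ℝ} (hh : 0 ≤ h) (x : ℝ) : |tent h x| ≤ h := by
  unfold tent
  have h1 : 0 ≤ max (min x (2 * h - x)) 0 := le_max_right _ _
  have h2 : 0 ≤ max (min (-x) (2 * h + x)) 0 := le_max_right _ _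
  have h3 : max (min x (2 * h - x)) 0 ≤ h := by
    refine max_le ?_ hh
    rcases le_total x h with hx | hx
    · exact (min_le_left _ _).trans hx
    · exact (min_le_right _ _).trans (by linarith)
  have h4 : max (min (-x) (2 * h + x)) 0 ≤ h := by
    refine max_le ?_ hh
    rcases le_total (-x) h with hx | hx
    · exact (min_le_left _ _).trans hx
    · exact (min_le_right _ _).trans (by linarith)
  rw [abs_le]
  constructor <;> linarith

theorem tent_lip {h : ℝ} (_hh : 0 ≤ h) (x y : ℝ) : |tent h x - tent h y| ≤ |x - y| := by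
  -- both pieces are monotone-separated; do it by cases
  have key : ∀ x y : ℝ, x ≤ y → |tent h x - tent h y| ≤ y - x := by
    intro x y hxy
    have fp : ∀ t : ℝ, 0 ≤ t → tent h t = max (min t (2 * h - t)) 0 := by
      intro t ht
      unfold tent
      have : min (-t) (2 * h + t) ≤ 0 := (min_le_left _ _).trans (by linarith)
      rw [max_eq_right this, sub_zero]
    have fn : ∀ t : ℝ, t ≤ 0 → tent h t = - max (min (-t) (2 * h + t)) 0 := by
      intro t ht
      unfold tent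
      have : min t (2 * h - t) ≤ 0 := (min_le_left _ _).trans ht
      rw [max_eq_right this, zero_sub]
    have lpos : ∀ s t : ℝ, s ≤ t →
        |max (min s (2 * h - s)) 0 - max (min t (2 * h - t)) 0| ≤ t - s := by
      intro s t hst
      refine (abs_max_sub_max_le_abs _ _ _).trans ?_
      refine (abs_min_sub_min_le_max _ _ _ _).trans (max_le ?_ ?_)
      · rw [abs_sub_comm, abs_of_nonneg (by linarith)]
      · rw [abs_le]; constructor <;> linarith
    rcases le_total 0 x with hx | hx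
    · rw [fp x hx, fp y (hx.trans hxy)]
      exact lpos x y hxy
    rcases le_total y 0 with hy | hy
    · rw [fn x hx, fn y hy]
      have := lpos (-y) (-x) (by linarith)
      have e1 : 2 * h - -y = 2 * h + y := by ring
      have e2 : 2 * h - -x = 2 * h + x := by ring
      rw [e1, e2] at this
      rw [show -max (min (-x) (2 * h + x)) 0 - -max (min (-y) (2 * h + y)) 0
        = max (min (-y) (2 * h + y)) 0 - max (min (-x) (2 * h + x)) 0 by ring]
      linarith
    · rw [fn x hx, fp y hy]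
      have h1 : 0 ≤ max (min (-x) (2 * h + x)) 0 := le_max_right _ _
      have h2 : max (min (-x) (2 * h + x)) 0 ≤ -x :=
        max_le (min_le_left _ _) (by linarith)
      have h3 : 0 ≤ max (min y (2 * h - y)) 0 := le_max_right _ _
      have h4 : max (min y (2 * h - y)) 0 ≤ y := max_le (min_le_left _ _) hy
      rw [abs_le]; constructor <;> linarith
  rcases le_total x y with hxy | hxy
  · have := key x y hxy
    rw [abs_sub_comm x y, abs_of_nonneg (sub_nonneg.2 hxy)]; exact this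
  · have := key y x hxy
    rw [abs_sub_comm (tent h x), abs_of_nonneg (sub_nonneg.2 hxy)]; exact this

theorem soft_zero (x : ℝ) : soft 0 x = x := by
  unfold soft
  rcases le_total 0 x with h | h
  · rw [max_eq_left (by linarith), max_eq_right (by linarith)]; ring
  · rw [max_eq_right (by linarith), max_eq_left (by linarith)]; ring

theorem soft_eq_zero {b x : ℝ} (h : |x| ≤ b) : soft b x = 0 := by
  have := abs_le.1 h
  unfold soft
  rw [max_eq_right (by linarith), max_eq_right (by linarith)]; ring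

theorem abs_soft_le {b : ℝ} (hb : 0 ≤ b) (x : ℝ) : |soft b x| ≤ |x| := by
  unfold soft
  rcases le_total 0 x with h | h
  · rw [max_eq_right (a := -x - b) (by linarith), sub_zero, abs_of_nonneg h,
      abs_of_nonneg (le_max_right _ _)]
    exact max_le (by linarith) h
  · rw [max_eq_right (a := x - b) (by linarith), zero_sub, abs_neg, abs_of_nonpos h,
      abs_of_nonneg (le_max_right _ _)]
    exact max_le (by linarith) (by linarith)

/-- the clip -/
noncomputable def clipc (b x : ℝ) : ℝ := max (-b) (min x b)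

theorem sub_soft {b : ℝ} (hb : 0 ≤ b) (x : ℝ) : x - soft b x = clipc b x := by
  unfold soft clipc
  rcases le_total x b with h1 | h1
  · rcases le_total (-b) x with h2 | h2
    · rw [max_eq_right (a := x - b) (by linarith), max_eq_right (a := -x - b) (by linarith),
        min_eq_left h1, max_eq_right h2]; ring
    · rw [max_eq_right (a := x - b) (by linarith), max_eq_left (a := -x - b) (by linarith),
        min_eq_left h1, max_eq_left h2]; ring
  · rw [max_eq_left (a := x - b) (by linarith), max_eq_right (a := -x - b) (by linarith),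
        min_eq_right h1, max_eq_right (by linarith)]; ring

theorem abs_clipc_le {b : ℝ} (hb : 0 ≤ b) (x : ℝ) : |clipc b x| ≤ b := by
  unfold clipc
  rw [abs_le]
  exact ⟨le_max_left _ _, max_le (by linarith) (min_le_right _ _)⟩

theorem abs_clipc_le' {b : ℝ} (hb : 0 ≤ b) (x : ℝ) : |clipc b x| ≤ |x| := by
  unfold clipc
  rw [abs_le]
  constructor
  · rcases le_total x b with h | h
    · rw [min_eq_left h]; exact (neg_abs_le x).trans (le_max_right _ _)
    · rw [min_eq_right h]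
      have : 0 ≤ |x| := abs_nonneg x
      exact (by linarith : -|x| ≤ b).trans (le_max_right _ _)
  · refine max_le ?_ ((min_le_left _ _).trans (le_abs_self x))
    have : 0 ≤ |x| := abs_nonneg x
    linarith

theorem clipc_lip {b b' x x' : ℝ} : |clipc b x - clipc b' x'| ≤ max |x - x'| |b - b'| := by
  unfold clipc
  refine (abs_max_sub_max_le_max _ _ _ _).trans (max_le ?_ ?_)
  · rw [show -b - -b' = -(b - b') by ring, abs_neg]; exact le_max_right _ _
  · exact abs_min_sub_min_le_max _ _ _ _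

theorem soft_lip {b b' : ℝ} (hb : 0 ≤ b) (hb' : 0 ≤ b') (x x' : ℝ) :
    |soft b x - soft b' x'| ≤ |x - x'| + |b - b'| := by
  have hx : ∀ (b x x' : ℝ), 0 ≤ b → x' ≤ x → |soft b x - soft b x'| ≤ x - x' := by
    intro b x x' hb h
    have h0 : 0 ≤ soft b x - soft b x' := by
      unfold soft
      have a1 : max (x' - b) 0 ≤ max (x - b) 0 := max_le_max (by linarith) le_rfl
      have a2 : max (-x - b) 0 ≤ max (-x' - b) 0 := max_le_max (by linarith) le_rfl
      linarith
    rw [abs_of_nonneg h0]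
    have e1 := sub_soft hb x
    have e2 := sub_soft hb x'
    have : clipc b x' ≤ clipc b x := by
      unfold clipc
      exact max_le_max le_rfl (min_le_min h le_rfl)
    linarith
  have hx' : ∀ (b x x' : ℝ), 0 ≤ b → |soft b x - soft b x'| ≤ |x - x'| := by
    intro b x x' hb
    rcases le_total x x' with h | h
    · have := hx b x' x hb h
      rw [abs_sub_comm, abs_sub_comm x, abs_of_nonneg (sub_nonneg.2 h)]; exact this
    · have := hx b x x' hb h
      rw [abs_of_nonneg (sub_nonneg.2 h)]; exact this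
  have hbb : |soft b x' - soft b' x'| ≤ |b - b'| := by
    unfold soft
    rcases le_total 0 x' with h | h
    · rw [max_eq_right (a := -x' - b) (by linarith), max_eq_right (a := -x' - b') (by linarith),
        sub_zero, sub_zero]
      refine (abs_max_sub_max_le_abs _ _ _).trans ?_
      rw [show x' - b - (x' - b') = -(b - b') by ring, abs_neg]
    · rw [max_eq_right (a := x' - b) (by linarith), max_eq_right (a := x' - b') (by linarith),
        zero_sub, zero_sub, neg_sub_neg, abs_sub_comm]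
      refine (abs_max_sub_max_le_abs _ _ _).trans ?_
      rw [show -x' - b - (-x' - b') = -(b - b') by ring, abs_neg]
  calc |soft b x - soft b' x'| ≤ |soft b x - soft b x'| + |soft b x' - soft b' x'| :=
        abs_sub_le _ _ _
    _ ≤ _ := add_le_add (hx' b x x' hb) hbb

end TS

/-! ### Abstract data -/

/-- Abstract data for a chain. -/
structure ChainData {P : Type*} [PseudoMetricSpace P] {E : Type*} [NormedAddCommGroup E]
    [NormedSpace ℝ E] (β : P → E) (U : Ultrafilter ℕ) (z : ℕ → E) where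
  /-- rational functionals -/
  GQ : Set (E →L[ℝ] ℝ)
  GQ_zero : (0 : E →L[ℝ] ℝ) ∈ GQ
  GQ_add : ∀ G ∈ GQ, ∀ G' ∈ GQ, G + G' ∈ GQ
  GQ_neg : ∀ G ∈ GQ, -G ∈ GQ
  /-- observables -/
  o : ℕ → P → ℝ
  o_lip : ∀ j, LipschitzWith 1 (o j)
  /-- scales -/
  S : ℕ → ℝ
  S_pos : ∀ i, 0 < S i
  /-- cell functions -/
  s : ℕ → P → ℝ
  s_lip : ∀ i p q, |s i p - s i q| ≤ (1/2) * dist p q
  r : ℝ
  r_pos : 1 ≤ r
  Hs : ℝ
  Hs_nonneg : 0 ≤ Hs
  C1 : ℝ
  C1_nonneg : 0 ≤ C1
  κ : ℝ
  κ_nonneg : 0 ≤ κ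
  ep : ℝ
  ep_pos : 0 < ep
  K : ℕ
  K_ge : 4 * r * Hs ≤ K
  K_ge' : 6 * C1 + 1 ≤ K
  /-- localized functionals -/
  F : ℕ → (E →L[ℝ] ℝ)
  F_mem : ∀ i, F i ∈ GQ
  F_norm : ∀ i, ‖F i‖ ≤ 1
  F_val : ∀ i, κ ≤ F i (z i)
  F_lip : ∀ i p q, |F i (β p) - F i (β q)| ≤ C1 * dist p q
  F_bound : ∀ i p, |F i (β p)| ≤ Hs * S i
  F_supp : ∀ i p, F i (β p) ≠ 0 → s i p ≤ - S i / (2 * r)
  /-- weak nullity -/
  z_null : ∀ G ∈ GQ, Tendsto (fun i => G (z i)) U (𝓝 0)
  F_null : ∀ x : E, Tendsto (fun i => F i x) U (𝓝 0)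
  /-- the flattening coordinates -/
  flat : ∀ G ∈ GQ, ∀ K' : ℕ, (K' = K ∨ K' = K + 1) →
    (∀ p q, |G (β p) - G (β q)| ≤ K' * dist p q) → ∀ (x : E) (τ : ℝ), 0 < τ →
    ∀ᶠ i in (U : Filter ℕ), ∀ a : ℤ, ∃ G' ∈ GQ, ‖G'‖ ≤ K' / ep ∧ |G' x| ≤ τ ∧
      ∀ p, G' (β p) = - K' * soft (max 0 (s i p))
        (tent (1 / (4 * r) * S i) (G (β p) / K' - a * (1 / (4 * r) * S i)))
  /-- cells: on the big cell, the observables are close to the centre. -/
  cen : ℕ → ℕ → ℝ
  Cc : ℕ → ℝ
  cell : ∀ j, ∀ᶠ i in (U : Filter ℕ), ∀ p, s i p < 1 / (4 * r) * S i → |o j p - cen i j| ≤ Cc j * S i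
  /-- o-continuity -/
  ocont : ∀ (c : ℕ → ℝ), ∀ G ∈ GQ, ∃ L : ℝ,
    Tendsto (fun p => G (β p)) (comap (fun p j => o j p) (𝓝 c)) (𝓝 L)
  ocont_s : ∀ (c : ℕ → ℝ) (i : ℕ), ∃ L : ℝ,
    Tendsto (s i) (comap (fun p j => o j p) (𝓝 c)) (𝓝 L)
  /-- dichotomy of scales -/
  dich : (∀ᶠ i₀ in (U : Filter ℕ), ∀ᶠ i in (U : Filter ℕ), S i₀ ≤ S i) ∨ Tendsto S U (𝓝 0)

namespace ChainData

variable {P : Type*} [PseudoMetricSpace P] {E : Type*} [NormedAddCommGroup E]
    [NormedSpace ℝ E] {β : P → E} {U : Ultrafilter ℕ} {z : ℕ → E} (D : ChainData β U z)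

/-- the size of the lattice at stage `i` -/
noncomputable def hS (i : ℕ) : ℝ := 1 / (4 * D.r) * D.S i

lemma r0 : 0 < D.r := lt_of_lt_of_le one_pos D.r_pos

lemma hS_pos (i : ℕ) : 0 < D.hS i := by
  have := D.r0
  have := D.S_pos i
  unfold hS; positivity

lemma K_one : (1 : ℝ) ≤ D.K := le_trans (by linarith [D.C1_nonneg]) D.K_ge'

/-- the height of the localized functions is at most `K h S`. -/
lemma Hs_le (i : ℕ) : D.Hs * D.S i ≤ D.K * D.hS i := by
  have h1 := D.K_ge
  have h2 := D.r0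
  have h3 := D.S_pos i
  unfold hS
  have : D.K * (1 / (4 * D.r) * D.S i) = (D.K / (4 * D.r)) * D.S i := by ring
  rw [this]
  refine mul_le_mul_of_nonneg_right ?_ h3.le
  rw [le_div_iff₀ (by positivity)]
  linarith

lemma supp_neg {i : ℕ} {p : P} (h : D.F i (β p) ≠ 0) : D.s i p < 0 := by
  have h1 := D.F_supp i p h
  have h2 := D.r0
  have h3 := D.S_pos i
  have : - D.S i / (2 * D.r) < 0 := div_neg_of_neg_of_pos (by linarith) (by positivity)
  linarith

/-- Generic induction along the chain. -/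
theorem induct (hU : (U : Filter ℕ) ≤ cofinite) (Inv : ℕ → (E →L[ℝ] ℝ) → Prop)
    (h0 : Inv 0 0)
    (hstep : ∀ m G, G ∈ D.GQ → Inv m G → ∀ (x : E) (τ : ℝ), 0 < τ →
      ∀ᶠ i in (U : Filter ℕ), ∃ G' ∈ D.GQ, ‖G'‖ ≤ (D.K + 1) / D.ep ∧ |G' x| ≤ τ ∧
        Inv (m + 1) (G + G' + D.F i) ∧ Inv (m + 1) (G + G' - D.F i)) (M : ℕ) :
    ∃ (A : Finset ℕ) (ε : ℕ → ℝ) (G : E →L[ℝ] ℝ), (∀ j, |ε j| ≤ 1) ∧ G ∈ D.GQ ∧
      ‖G‖ ≤ M * (1 + (D.K + 1) / D.ep) ∧
      M * D.κ - (1 - (1 / 2) ^ M) ≤ G (∑ i ∈ A, ε i • z i) ∧ Inv M G := by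
  classical
  induction M with
  | zero => exact ⟨∅, fun _ => 0, 0, by simp, D.GQ_zero, by simp, by simp, h0⟩
  | succ m ih =>
    obtain ⟨A, ε, G, hε, hG, hGn, hGv, hInv⟩ := ih
    set x : E := ∑ i ∈ A, ε i • z i with hx
    set τ : ℝ := (1 / 2) ^ (m + 1) / 3 with hτ
    have hτ0 : 0 < τ := by positivity
    have e1 := hstep m G hG hInv x τ hτ0
    have e2 : ∀ᶠ i in (U : Filter ℕ), |G (z i)| ≤ τ := by
      have := (D.z_null G hG).eventually (Metric.ball_mem_nhds 0 hτ0)
      filter_upwards [this] with i hi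
      simpa [Real.norm_eq_abs] using (mem_ball_zero_iff.1 hi).le
    have e3 : ∀ᶠ i in (U : Filter ℕ), |D.F i x| ≤ τ := by
      have := (D.F_null x).eventually (Metric.ball_mem_nhds 0 hτ0)
      filter_upwards [this] with i hi
      simpa [Real.norm_eq_abs] using (mem_ball_zero_iff.1 hi).le
    have e4 : ∀ᶠ i in (U : Filter ℕ), i ∉ A := hU A.finite_toSet.compl_mem_cofinite
    obtain ⟨i, ⟨G', hG', hG'n, hG'x, hI1, hI2⟩, hi2, hi3, hi4⟩ := (e1.and (e2.and (e3.and e4))).exists
    have hpow : ((1 : ℝ) / 2) ^ m = 2 * (1 / 2) ^ (m + 1) := by rw [pow_succ]; ring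
    have a2 := abs_le.1 hi2
    have a3 := abs_le.1 hi3
    have a4 := abs_le.1 hG'x
    have hval := D.F_val i
    -- the sum over `insert i A`
    have hsum : ∀ t : ℝ, ∑ j ∈ insert i A, (Function.update ε i t) j • z j = x + t • z i := by
      intro t
      rw [Finset.sum_insert hi4, Function.update_self, add_comm]
      congr 1
      refine Finset.sum_congr rfl fun j hj => ?_
      have hji : j ≠ i := fun h => hi4 (h ▸ hj)
      rw [Function.update_of_ne hji]
    have hn : ∀ F' : E →L[ℝ] ℝ, ‖F'‖ ≤ 1 → ‖G + G' + F'‖ ≤ ((m + 1 : ℕ) : ℝ) * (1 + (D.K + 1) / D.ep) := by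
      intro F' hF'
      have : ‖G + G' + F'‖ ≤ ‖G‖ + ‖G'‖ + ‖F'‖ := (norm_add_le _ _).trans (by gcongr; exact norm_add_le _ _)
      push_cast
      linarith
    rcases le_total 0 (G' (z i)) with hs | hs
    · refine ⟨insert i A, Function.update ε i 1, G + G' + D.F i, ?_,
        D.GQ_add _ (D.GQ_add _ hG _ hG') _ (D.F_mem i), hn _ (D.F_norm i), ?_, hI1⟩
      · intro j
        by_cases hj : j = i
        · subst hj; simp
        · rw [Function.update_of_ne hj]; exact hε j
      · rw [hsum, one_smul]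
        simp only [add_apply, map_add]
        push_cast
        rw [hpow] at hGv
        linarith
    · refine ⟨insert i A, Function.update ε i (-1), G + G' - D.F i, ?_, ?_, ?_, ?_, hI2⟩
      · intro j
        by_cases hj : j = i
        · subst hj; simp
        · rw [Function.update_of_ne hj]; exact hε j
      · rw [sub_eq_add_neg]
        exact D.GQ_add _ (D.GQ_add _ hG _ hG') _ (D.GQ_neg _ (D.F_mem i))
      · rw [sub_eq_add_neg]
        exact hn _ (by rw [norm_neg]; exact D.F_norm i)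
      · rw [hsum, neg_one_smul]
        simp only [sub_apply, add_apply, map_add, map_neg]
        push_cast
        rw [hpow] at hGv
        linarith

/-- Gluing lemma. -/
theorem glue {f g σ : P → ℝ} {K : ℝ} (hf : ∀ p q, |f p - f q| ≤ K * dist p q)
    (hg : ∀ p q, |g p - g q| ≤ K * dist p q) (hσ : ∀ p q, |σ p - σ q| ≤ dist p q) (hK : 0 ≤ K)
    (hfs : ∀ p, |f p| ≤ K * max 0 (σ p)) (hgs : ∀ p, |g p| ≤ K * max 0 (-σ p)) (p q : P) :
    |(f p + g p) - (f q + g q)| ≤ K * dist p q := by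
  -- f vanishes where σ ≤ 0, g vanishes where σ ≥ 0
  have f0 : ∀ p, σ p ≤ 0 → f p = 0 := by
    intro p hp
    have := hfs p
    rw [max_eq_left hp, mul_zero] at this
    exact abs_nonpos_iff.1 this
  have g0 : ∀ p, 0 ≤ σ p → g p = 0 := by
    intro p hp
    have := hgs p
    rw [max_eq_left (by linarith), mul_zero] at this
    exact abs_nonpos_iff.1 this
  have cross : ∀ p q, 0 ≤ σ p → σ q ≤ 0 → |(f p + g p) - (f q + g q)| ≤ K * dist p q := by
    intro p q hp hq
    rw [g0 p hp, f0 q hq, add_zero, zero_add]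
    have h1 := hfs p
    have h2 := hgs q
    rw [max_eq_right hp] at h1
    rw [max_eq_right (by linarith : (0:ℝ) ≤ -σ q)] at h2
    have h3 := (le_abs_self _).trans (hσ p q)
    have h4 : K * (σ p - σ q) ≤ K * dist p q := mul_le_mul_of_nonneg_left h3 hK
    have h5 : |f p - g q| ≤ |f p| + |g q| := abs_sub _ _
    nlinarith
  rcases le_total 0 (σ p) with hp | hp
  · rcases le_total 0 (σ q) with hq | hq
    · rw [g0 p hp, g0 q hq, add_zero, add_zero]; exact hf p q
    · exact cross p q hp hq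
  · rcases le_total 0 (σ q) with hq | hq
    · rw [abs_sub_comm, dist_comm]; exact cross q p hq hp
    · rw [f0 p hp, f0 q hq, zero_add, zero_add]; exact hg p q

/-! ### Case A -/

theorem caseA (hU : (U : Filter ℕ) ≤ cofinite)
    (hA : ∀ᶠ i₀ in (U : Filter ℕ), ∀ᶠ i in (U : Filter ℕ), D.S i₀ ≤ D.S i) (M : ℕ) :
    ∃ (A : Finset ℕ) (ε : ℕ → ℝ) (G : E →L[ℝ] ℝ), (∀ j, |ε j| ≤ 1) ∧
      ‖G‖ ≤ M * (1 + (D.K + 1) / D.ep) ∧
      (∀ p q, |G (β p) - G (β q)| ≤ (D.K + 1) * dist p q) ∧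
      M * D.κ - 1 ≤ G (∑ i ∈ A, ε i • z i) := by
  have hK1 := D.K_one
  have hr := D.r0
  have hKC : D.C1 ≤ D.K := by linarith [D.K_ge', D.C1_nonneg]
  suffices hst : _ by
    obtain ⟨A, ε, G, h1, _, h3, h4, h5, _⟩ := D.induct hU
      (fun _ G => (∀ p q, |G (β p) - G (β q)| ≤ D.K * dist p q) ∧
        ∃ b : ℝ, (∀ p, |G (β p)| ≤ b) ∧ ∀ᶠ i in (U : Filter ℕ), b ≤ D.K * D.hS i)
      ⟨fun p q => by simp; positivity, 0, fun p => by simp, Eventually.of_forall fun i => by
        have := D.hS_pos i; positivity⟩ hst M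
    refine ⟨A, ε, G, h1, h3, fun p q => (h5 p q).trans ?_, ?_⟩
    · have : 0 ≤ dist p q := dist_nonneg
      nlinarith
    · have : (0 : ℝ) < (1 / 2) ^ M := by positivity
      linarith
  · rintro m G hG ⟨hL, b, hb, hbi⟩ x τ hτ
    have e1 := D.flat G hG D.K (Or.inl rfl) hL x τ hτ
    filter_upwards [e1, hbi, hA] with i hi1 hi2 hi3
    obtain ⟨G', hG', hn, hx, hval⟩ := hi1 0
    have hhS := D.hS_pos i
    have hSi := D.S_pos i
    refine ⟨G', hG', hn.trans ?_, hx, ?_⟩
    · exact div_le_div_of_nonneg_right (by linarith) D.ep_pos.le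
    -- the function f = K clip(D/K)
    have hK0 : (0 : ℝ) < D.K := by linarith
    have hbd : ∀ p, |G (β p) / D.K| ≤ D.hS i := by
      intro p
      rw [abs_div, abs_of_pos hK0, div_le_iff₀ hK0, mul_comm]
      exact (hb p).trans hi2
    have hf : ∀ p, G (β p) + G' (β p) = D.K * clipc (max 0 (D.s i p)) (G (β p) / D.K) := by
      intro p
      rw [hval p]
      have : (1 : ℝ) / (4 * D.r) * D.S i = D.hS i := rfl
      rw [this]
      simp only [Int.cast_zero, zero_mul, sub_zero]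
      rw [tent_eq_self (hbd p), ← sub_soft (le_max_left _ _)]
      field_simp
      ring
    have hfl : ∀ p q, |(G (β p) + G' (β p)) - (G (β q) + G' (β q))| ≤ D.K * dist p q := by
      intro p q
      rw [hf p, hf q, ← mul_sub, abs_mul, abs_of_pos hK0]
      refine mul_le_mul_of_nonneg_left ?_ hK0.le
      refine clipc_lip.trans (max_le ?_ ?_)
      · rw [← sub_div, abs_div, abs_of_pos hK0, div_le_iff₀ hK0, mul_comm]
        exact hL p q
      · refine (abs_max_sub_max_le_max _ _ _ _).trans (max_le ?_ ?_)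
        · simp
        · have := D.s_lip i p q
          have : 0 ≤ dist p q := dist_nonneg
          linarith
    have hfs : ∀ p, |G (β p) + G' (β p)| ≤ D.K * max 0 (D.s i p) := by
      intro p
      rw [hf p, abs_mul, abs_of_pos hK0]
      exact mul_le_mul_of_nonneg_left (abs_clipc_le (le_max_left _ _) _) hK0.le
    have hfb : ∀ p, |G (β p) + G' (β p)| ≤ D.K * D.hS i := by
      intro p
      rw [hf p, abs_mul, abs_of_pos hK0]
      exact mul_le_mul_of_nonneg_left ((abs_clipc_le' (le_max_left _ _) _).trans (hbd p)) hK0.le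
    have hgs : ∀ p, |D.F i (β p)| ≤ D.K * max 0 (-D.s i p) := by
      intro p
      by_cases h : D.F i (β p) = 0
      · rw [h, abs_zero]; positivity
      · have e1 := D.F_supp i p h
        have e2 := D.F_bound i p
        have e3 := D.Hs_le i
        have e4 : D.hS i ≤ D.S i / (2 * D.r) := by
          unfold hS
          rw [div_mul_eq_mul_div, one_mul]
          exact div_le_div_of_nonneg_left hSi.le (by positivity) (by linarith)
        have e5 : D.S i / (2 * D.r) ≤ max 0 (-D.s i p) := by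
          refine le_trans ?_ (le_max_right _ _)
          have : - D.S i / (2 * D.r) = -(D.S i / (2 * D.r)) := by ring
          linarith
        calc |D.F i (β p)| ≤ D.K * D.hS i := e2.trans e3
          _ ≤ D.K * max 0 (-D.s i p) := mul_le_mul_of_nonneg_left (e4.trans e5) hK0.le
    have hgl : ∀ p q, |D.F i (β p) - D.F i (β q)| ≤ D.K * dist p q := fun p q =>
      (D.F_lip i p q).trans (mul_le_mul_of_nonneg_right hKC dist_nonneg)
    have hsl : ∀ p q, |D.s i p - D.s i q| ≤ dist p q := fun p q => by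
      have := D.s_lip i p q
      have : 0 ≤ dist p q := dist_nonneg
      linarith
    have bound : ∀ (g : P → ℝ), (∀ p, |g p| = |D.F i (β p)|) → ∀ p,
        |(G (β p) + G' (β p)) + g p| ≤ D.K * D.hS i := by
      intro g hg p
      rcases le_total (D.s i p) 0 with h | h
      · have e1 : G (β p) + G' (β p) = 0 := by
          have := hfs p
          rw [max_eq_left h, mul_zero] at this
          exact abs_nonpos_iff.1 this
        rw [e1, zero_add, hg]
        exact (D.F_bound i p).trans (D.Hs_le i)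
      · have e1 : D.F i (β p) = 0 := by
          by_contra hne
          have := D.supp_neg hne
          linarith
        have e2 : g p = 0 := by
          have := hg p
          rw [e1, abs_zero] at this
          exact abs_eq_zero.1 this
        rw [e2, add_zero]
        exact hfb p
    constructor
    · refine ⟨fun p q => ?_, D.K * D.hS i, fun p => ?_, ?_⟩
      · simp only [add_apply]
        exact glue hfl hgl hsl hK0.le hfs hgs p q
      · simp only [add_apply]
        exact bound (fun p => D.F i (β p)) (fun _ => rfl) p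
      · filter_upwards [hi3] with j hj
        refine mul_le_mul_of_nonneg_left ?_ hK0.le
        unfold hS
        exact mul_le_mul_of_nonneg_left hj (by positivity)
    · refine ⟨fun p q => ?_, D.K * D.hS i, fun p => ?_, ?_⟩
      · simp only [add_apply, sub_eq_add_neg]
        have := glue (f := fun p => G (β p) + G' (β p)) (g := fun p => -D.F i (β p)) hfl
          (fun p q => by
            rw [show -D.F i (β p) - -D.F i (β q) = -(D.F i (β p) - D.F i (β q)) by ring, abs_neg]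
            exact hgl p q) hsl hK0.le hfs (fun p => by rw [abs_neg]; exact hgs p) p q
        simpa [sub_eq_add_neg] using this
      · simp only [add_apply, sub_eq_add_neg]
        exact bound (fun p => -D.F i (β p)) (fun _ => abs_neg _) p
      · filter_upwards [hi3] with j hj
        refine mul_le_mul_of_nonneg_left ?_ hK0.le
        unfold hS
        exact mul_le_mul_of_nonneg_left hj (by positivity)

/-! ### Disjoint supports -/

theorem caseDisj (hU : (U : Filter ℕ) ≤ cofinite)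
    (hA : ∀ᶠ i₀ in (U : Filter ℕ), ∀ᶠ i in (U : Filter ℕ), ∀ p, D.F i₀ (β p) ≠ 0 → D.F i (β p) = 0)
    (M : ℕ) :
    ∃ (A : Finset ℕ) (ε : ℕ → ℝ) (G : E →L[ℝ] ℝ), (∀ j, |ε j| ≤ 1) ∧
      ‖G‖ ≤ M * (1 + (D.K + 1) / D.ep) ∧
      (∀ p q, |G (β p) - G (β q)| ≤ (D.K + 1) * dist p q) ∧
      M * D.κ - 1 ≤ G (∑ i ∈ A, ε i • z i) := by
  have hK1 := D.K_one
  have hC0 := D.C1_nonneg
  have hKC := D.K_ge'
  suffices hst : _ by
    obtain ⟨A, ε, G, h1, _, h3, h4, h5, _⟩ := D.induct hU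
      (fun _ G => (∀ p q, |G (β p) - G (β q)| ≤ (2 * D.C1) * dist p q) ∧
        (∀ p q, G (β q) = 0 → |G (β p)| ≤ D.C1 * dist p q) ∧
        ∀ᶠ i in (U : Filter ℕ), ∀ p, G (β p) ≠ 0 → D.F i (β p) = 0)
      ⟨fun p q => by simp; positivity, fun p q _ => by simp; positivity,
        Eventually.of_forall fun i p h => absurd (by simp) h⟩ hst M
    refine ⟨A, ε, G, h1, h3, fun p q => (h5 p q).trans ?_, ?_⟩
    · have : 0 ≤ dist p q := dist_nonneg
      nlinarith
    · have : (0 : ℝ) < (1 / 2) ^ M := by positivity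
      linarith
  · rintro m G hG ⟨hL, hV, hbi⟩ x τ hτ
    filter_upwards [hbi, hA] with i hi hi3
    refine ⟨0, D.GQ_zero, by simpa using div_nonneg (by linarith) D.ep_pos.le, by simpa using hτ.le, ?_⟩
    -- generic claim for a function `g` with the same support as `F i ∘ β`
    have claim : ∀ (g : P → ℝ), (∀ p q, |g p - g q| ≤ D.C1 * dist p q) →
        (∀ p, D.F i (β p) = 0 ↔ g p = 0) →
        (∀ p q, |(G (β p) + g p) - (G (β q) + g q)| ≤ (2 * D.C1) * dist p q) ∧
        (∀ p q, G (β q) + g q = 0 → |G (β p) + g p| ≤ D.C1 * dist p q) ∧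
        ∀ᶠ j in (U : Filter ℕ), ∀ p, G (β p) + g p ≠ 0 → D.F j (β p) = 0 := by
      intro g hg hg0
      have hdisj : ∀ p, G (β p) ≠ 0 → g p = 0 := fun p hp => (hg0 p).1 (hi p hp)
      have hdisj' : ∀ p, g p ≠ 0 → G (β p) = 0 := fun p hp => by
        by_contra h; exact hp (hdisj p h)
      have hgz : ∀ p q, g q = 0 → |g p| ≤ D.C1 * dist p q := fun p q hq => by
        have := hg p q
        rwa [hq, sub_zero] at this
      have hV' : ∀ p q, G (β q) + g q = 0 → |G (β p) + g p| ≤ D.C1 * dist p q := by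
        intro p q hq
        have hGq : G (β q) = 0 := by
          by_contra h
          rw [hdisj q h, add_zero] at hq
          exact h hq
        have hgq : g q = 0 := by rwa [hGq, zero_add] at hq
        by_cases hp : G (β p) = 0
        · rw [hp, zero_add]; exact hgz p q hgq
        · rw [hdisj p hp, add_zero]; exact hV p q hGq
      refine ⟨fun p q => ?_, hV', ?_⟩
      · have hd : 0 ≤ dist p q := dist_nonneg
        have hCd : 0 ≤ D.C1 * dist p q := mul_nonneg hC0 hd
        by_cases hp : G (β p) = 0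
        · by_cases hq : G (β q) = 0
          · rw [hp, hq, zero_add, zero_add]
            have := hg p q
            linarith
          · -- q in supp G, so g q = 0
            have hgq := hdisj q hq
            rw [hp, hgq, zero_add, add_zero]
            have e1 := hgz p q hgq
            have e2 := hV q p hp
            rw [dist_comm] at e2
            have e3 : |g p - G (β q)| ≤ |g p| + |G (β q)| := abs_sub _ _
            linarith
        · have hgp := hdisj p hp
          by_cases hq : G (β q) = 0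
          · rw [hgp, hq, zero_add, add_zero]
            have e1 := hgz q p hgp
            rw [dist_comm] at e1
            have e2 := hV p q hq
            have e3 : |G (β p) - g q| ≤ |G (β p)| + |g q| := abs_sub _ _
            linarith
          · rw [hgp, hdisj q hq, add_zero, add_zero]; exact hL p q
      · filter_upwards [hbi, hi3] with j h1 h2
        intro p hp
        by_cases hG0 : G (β p) = 0
        · rw [hG0, zero_add] at hp
          exact h2 p (fun h => hp ((hg0 p).1 h))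
        · exact h1 p hG0
    constructor
    · have := claim (fun p => D.F i (β p)) (D.F_lip i) (fun p => Iff.rfl)
      simpa using this
    · have := claim (fun p => -D.F i (β p)) (fun p q => by
        rw [show -D.F i (β p) - -D.F i (β q) = -(D.F i (β p) - D.F i (β q)) by ring, abs_neg]
        exact D.F_lip i p q) (fun p => by simp)
      simpa [sub_eq_add_neg] using this

/-! ### Case B2 -/

/-- basic neighbourhoods -/
def W (c : ℕ → ℝ) (N : ℕ) (δ : ℝ) : Set P := {p | ∀ j < N, |D.o j p - c j| < δ}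

lemma exists_W (c : ℕ → ℝ) {T : Set P} (hT : T ∈ comap (fun p j => D.o j p) (𝓝 c)) :
    ∃ N : ℕ, ∃ δ > 0, D.W c N δ ⊆ T := by
  obtain ⟨t, ht, hsub⟩ := mem_comap.1 hT
  obtain ⟨u, hut, hu, hcu⟩ := mem_nhds_iff.1 ht
  obtain ⟨I, v, hv, hvu⟩ := isOpen_pi_iff.1 hu c hcu
  have : ∀ j : ℕ, ∃ δ > 0, j ∈ I → Metric.ball (c j) δ ⊆ v j := by
    intro j
    by_cases hj : j ∈ I
    · obtain ⟨δ, hδ, h⟩ := Metric.isOpen_iff.1 (hv j hj).1 (c j) (hv j hj).2
      exact ⟨δ, hδ, fun _ => h⟩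
    · exact ⟨1, one_pos, fun h => absurd h hj⟩
  choose δ hδ hball using this
  obtain ⟨N, hN⟩ : ∃ N, ∀ j ∈ I, j < N := ⟨I.sup id + 1, fun j hj =>
    Nat.lt_succ_of_le (Finset.le_sup (f := id) hj)⟩
  obtain ⟨δ₀, hδ₀, hle⟩ : ∃ δ₀ > 0, ∀ j ∈ I, δ₀ ≤ δ j := by
    rcases I.eq_empty_or_nonempty with h | hne
    · exact ⟨1, one_pos, by simp [h]⟩
    · obtain ⟨j0, _, hmin⟩ := I.exists_min_image δ hne
      exact ⟨δ j0, hδ j0, hmin⟩
  refine ⟨N, δ₀, hδ₀, fun p hp => hsub (hut (hvu ?_))⟩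
  intro j hj
  have hj' : j ∈ I := hj
  refine hball j hj' ?_
  rw [Metric.mem_ball, Real.dist_eq]
  exact (hp j (hN j hj')).trans_le (hle j hj')

lemma cells (hS0 : Tendsto D.S U (𝓝 0)) (c : ℕ → ℝ)
    (hcen : ∀ j, Tendsto (fun i => D.cen i j) U (𝓝 (c j))) (N : ℕ) {δ : ℝ} (hδ : 0 < δ) :
    ∀ᶠ i in (U : Filter ℕ), ∀ p, D.s i p < D.hS i → p ∈ D.W c N δ := by
  have : ∀ j ∈ Finset.range N, ∀ᶠ i in (U : Filter ℕ), ∀ p, D.s i p < D.hS i → |D.o j p - c j| < δ := by
    intro j _
    have h1 := D.cell j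
    have h2 : ∀ᶠ i in (U : Filter ℕ), |D.cen i j - c j| < δ / 2 := by
      have := (hcen j).eventually (Metric.ball_mem_nhds (c j) (half_pos hδ))
      filter_upwards [this] with i hi
      rwa [Real.dist_eq] at hi
    have h3 : ∀ᶠ i in (U : Filter ℕ), D.Cc j * D.S i < δ / 2 := by
      have : Tendsto (fun i => D.Cc j * D.S i) U (𝓝 (D.Cc j * 0)) := hS0.const_mul _
      rw [mul_zero] at this
      exact this.eventually (gt_mem_nhds (half_pos hδ))
    filter_upwards [h1, h2, h3] with i a1 a2 a3 p hp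
    have a4 := a1 p hp
    calc |D.o j p - c j| ≤ |D.o j p - D.cen i j| + |D.cen i j - c j| := abs_sub_le _ _ _
      _ < δ := by linarith
  have := (Filter.eventually_all_finset (Finset.range N)).2 this
  filter_upwards [this] with i hi p hp j hj
  exact hi j (Finset.mem_range.2 hj) p hp

theorem caseB2 (hU : (U : Filter ℕ) ≤ cofinite) (hS0 : Tendsto D.S U (𝓝 0)) (c : ℕ → ℝ)
    (hcen : ∀ j, Tendsto (fun i => D.cen i j) U (𝓝 (c j)))
    (hB2 : ∀ᶠ i in (U : Filter ℕ), ∀ (N : ℕ) (δ : ℝ), 0 < δ → ∃ p ∈ D.W c N δ, D.F i (β p) ≠ 0)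
    (M : ℕ) :
    ∃ (A : Finset ℕ) (ε : ℕ → ℝ) (G : E →L[ℝ] ℝ), (∀ j, |ε j| ≤ 1) ∧
      ‖G‖ ≤ M * (1 + (D.K + 1) / D.ep) ∧
      (∀ p q, |G (β p) - G (β q)| ≤ (D.K + 1) * dist p q) ∧
      M * D.κ - 1 ≤ G (∑ i ∈ A, ε i • z i) := by
  have hK1 := D.K_one
  have hC0 := D.C1_nonneg
  have hKC := D.K_ge'
  have hr := D.r0
  suffices hst : _ by
    obtain ⟨A, ε, G, h1, _, h3, h4, h5, _⟩ := D.induct hU
      (fun m G => (∀ p q, |G (β p) - G (β q)| ≤ (D.K + 1 - (1 / 2) ^ m) * dist p q) ∧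
        ∃ (N : ℕ) (δ : ℝ), 0 < δ ∧ ∀ p ∈ D.W c N δ, ∀ q ∈ D.W c N δ,
          |G (β p) - G (β q)| ≤ D.C1 * dist p q)
      ⟨fun p q => by simp; positivity, 0, 1, one_pos, fun p _ q _ => by simp; positivity⟩ hst M
    refine ⟨A, ε, G, h1, h3, fun p q => (h5 p q).trans ?_, ?_⟩
    · have : 0 ≤ dist p q := dist_nonneg
      have h2 : (0 : ℝ) < (1 / 2) ^ M := by positivity
      nlinarith
    · have : (0 : ℝ) < (1 / 2) ^ M := by positivity
      linarith
  · rintro m G hG ⟨hL, N, δ, hδ, hloc⟩ x τ hτ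
    have hpm : (0 : ℝ) < (1 / 2) ^ m := by positivity
    have hpm1 : (0 : ℝ) < (1 / 2) ^ (m + 1) := by positivity
    have hpow : ((1 : ℝ) / 2) ^ m = 2 * (1 / 2) ^ (m + 1) := by rw [pow_succ]; ring
    have hpm1' : ((1 : ℝ) / 2) ^ (m + 1) ≤ 1 := pow_le_one₀ (by norm_num) (by norm_num)
    have hL' : ∀ p q, |G (β p) - G (β q)| ≤ ((D.K + 1 : ℕ) : ℝ) * dist p q := fun p q => by
      have h0 : 0 ≤ dist p q := dist_nonneg
      refine (hL p q).trans ?_
      push_cast
      nlinarith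
    have E1 := D.flat G hG (D.K + 1) (Or.inr rfl) hL' x τ hτ
    have E2 := D.cells hS0 c hcen N (half_pos hδ)
    have E3 : ∀ᶠ i in (U : Filter ℕ),
        (D.K + 1) * D.hS i + D.Hs * D.S i < δ / 2 * (1 / 2) ^ (m + 1) := by
      have : Tendsto (fun i => ((D.K + 1) * (1 / (4 * D.r)) + D.Hs) * D.S i) U
        (𝓝 (((D.K + 1) * (1 / (4 * D.r)) + D.Hs) * 0)) := hS0.const_mul _
      rw [mul_zero] at this
      have h2 := this.eventually (gt_mem_nhds (show (0:ℝ) < δ / 2 * (1 / 2) ^ (m + 1) by positivity))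
      filter_upwards [h2] with i hi
      have : (D.K + 1) * D.hS i + D.Hs * D.S i = ((D.K + 1) * (1 / (4 * D.r)) + D.Hs) * D.S i := by
        unfold hS; ring
      rw [this]; exact hi
    filter_upwards [E1, E2, E3, hB2] with i F1 F2 F3 F4
    have hhS := D.hS_pos i
    have hSi := D.S_pos i
    set K' : ℝ := D.K + 1 with hK'
    have hK'0 : 0 < K' := by linarith
    -- limits
    obtain ⟨Lg, hLg⟩ := D.ocont c G hG
    obtain ⟨Ls, hLs⟩ := D.ocont_s c i
    have hnegS : - D.S i / (2 * D.r) < 0 := div_neg_of_neg_of_pos (by linarith) (by positivity)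
    have hLs0 : Ls < 0 := by
      by_contra hcon
      have h1 : - D.S i / (2 * D.r) < Ls := lt_of_lt_of_le hnegS (not_lt.1 hcon)
      have h2 := hLs.eventually (lt_mem_nhds h1)
      obtain ⟨N1, δ1, hδ1, hsub⟩ := D.exists_W c h2
      obtain ⟨p, hp, hFp⟩ := F4 N1 δ1 hδ1
      have h3 : - D.S i / (2 * D.r) < D.s i p := hsub hp
      have h4 := D.F_supp i p hFp
      linarith
    have hs_ev := hLs.eventually (gt_mem_nhds hLs0)
    have hg_ev : ∀ᶠ p in comap (fun p j => D.o j p) (𝓝 c), |G (β p) - Lg| < K' * D.hS i / 8 := by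
      have := hLg.eventually (Metric.ball_mem_nhds Lg (show 0 < K' * D.hS i / 8 by positivity))
      filter_upwards [this] with p hp
      rwa [Real.dist_eq] at hp
    obtain ⟨N', δ', hδ', hsub⟩ := D.exists_W c (hs_ev.and hg_ev)
    obtain ⟨p0, hp0, _⟩ := F4 N' δ' hδ'
    have hp0' := hsub hp0
    set a : ℤ := round (G (β p0) / (K' * D.hS i)) with ha
    obtain ⟨G', hG', hn, hx, hval⟩ := F1 a
    have hval' : ∀ p, G' (β p) = - K' * soft (max 0 (D.s i p))
        (tent (D.hS i) (G (β p) / K' - a * D.hS i)) := by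
      intro p
      have := hval p
      push_cast at this
      exact this
    -- on W'
    have hflat : ∀ p ∈ D.W c N' δ', G (β p) + G' (β p) = K' * (a * D.hS i) := by
      intro p hp
      have hp' := hsub hp
      have hsn : D.s i p < 0 := hp'.1
      have hgn : |G (β p) - Lg| < K' * D.hS i / 8 := hp'.2
      have hg0 : |G (β p0) - Lg| < K' * D.hS i / 8 := hp0'.2
      have h1 : |G (β p0) / (K' * D.hS i) - a| ≤ 1 / 2 := by
        rw [ha]; exact abs_sub_round _
      have h2 : |G (β p0) - a * (K' * D.hS i)| ≤ K' * D.hS i / 2 := by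
        have hpos : 0 < K' * D.hS i := by positivity
        have : G (β p0) - a * (K' * D.hS i) = (G (β p0) / (K' * D.hS i) - a) * (K' * D.hS i) := by
          field_simp
        rw [this, abs_mul, abs_of_pos hpos]
        nlinarith
      have h3 : |G (β p) / K' - a * D.hS i| ≤ D.hS i := by
        have e : G (β p) / K' - a * D.hS i = (G (β p) - a * (K' * D.hS i)) / K' := by
          field_simp
        rw [e, abs_div, abs_of_pos hK'0, div_le_iff₀ hK'0]
        have e1 : |G (β p) - a * (K' * D.hS i)| ≤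
            |G (β p) - Lg| + |G (β p0) - Lg| + |G (β p0) - a * (K' * D.hS i)| := by
          have : G (β p) - a * (K' * D.hS i) =
            (G (β p) - Lg) - (G (β p0) - Lg) + (G (β p0) - a * (K' * D.hS i)) := by ring
          rw [this]
          refine (abs_add_le _ _).trans ?_
          gcongr
          exact abs_sub _ _
        have e2 : 0 < K' * D.hS i := by positivity
        linarith
      rw [hval' p, max_eq_left hsn.le, tent_eq_self h3, soft_zero]
      field_simp
      ring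
    -- the perturbation T
    have hT0 : ∀ p, D.hS i ≤ D.s i p → G' (β p) = 0 := by
      intro p hp
      rw [hval' p, soft_eq_zero, mul_zero]
      exact (abs_tent_le hhS.le _).trans (hp.trans (le_max_right _ _))
    have hTb : ∀ p, |G' (β p)| ≤ K' * D.hS i := by
      intro p
      rw [hval' p, abs_mul, abs_neg, abs_of_pos hK'0]
      refine mul_le_mul_of_nonneg_left ?_ hK'0.le
      exact (abs_soft_le (le_max_left _ _) _).trans (abs_tent_le hhS.le _)
    have hTl : ∀ p ∈ D.W c N δ, ∀ q ∈ D.W c N δ,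
        |G' (β p) - G' (β q)| ≤ (D.C1 + K' / 2) * dist p q := by
      intro p hp q hq
      rw [hval' p, hval' q, ← mul_sub, abs_mul, abs_neg, abs_of_pos hK'0]
      have h1 := soft_lip (le_max_left 0 (D.s i p)) (le_max_left 0 (D.s i q))
        (tent (D.hS i) (G (β p) / K' - a * D.hS i)) (tent (D.hS i) (G (β q) / K' - a * D.hS i))
      have h2 := tent_lip hhS.le (G (β p) / K' - a * D.hS i) (G (β q) / K' - a * D.hS i)
      have h3 : |G (β p) / K' - a * D.hS i - (G (β q) / K' - a * D.hS i)| ≤ D.C1 / K' * dist p q := by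
        have : G (β p) / K' - a * D.hS i - (G (β q) / K' - a * D.hS i) =
          (G (β p) - G (β q)) / K' := by ring
        rw [this, abs_div, abs_of_pos hK'0, div_le_iff₀ hK'0]
        have := hloc p hp q hq
        calc |G (β p) - G (β q)| ≤ D.C1 * dist p q := this
          _ = D.C1 / K' * dist p q * K' := by field_simp
      have h4 : |max 0 (D.s i p) - max 0 (D.s i q)| ≤ 1 / 2 * dist p q := by
        refine (abs_max_sub_max_le_max _ _ _ _).trans (max_le ?_ (D.s_lip i p q))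
        simp
      have h5 : |soft (max 0 (D.s i p)) (tent (D.hS i) (G (β p) / K' - a * D.hS i)) -
          soft (max 0 (D.s i q)) (tent (D.hS i) (G (β q) / K' - a * D.hS i))| ≤
          (D.C1 / K' + 1 / 2) * dist p q := by
        linarith
      calc K' * _ ≤ K' * ((D.C1 / K' + 1 / 2) * dist p q) := mul_le_mul_of_nonneg_left h5 hK'0.le
        _ = (D.C1 + K' / 2) * dist p q := by field_simp
    -- generic claim
    have claim : ∀ g : P → ℝ, (∀ p q, |g p - g q| ≤ D.C1 * dist p q) →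
        (∀ p, |g p| = |D.F i (β p)|) →
        (∀ p q, |(G (β p) + G' (β p) + g p) - (G (β q) + G' (β q) + g q)|
          ≤ (K' - (1 / 2) ^ (m + 1)) * dist p q) ∧
        ∃ (N : ℕ) (δ : ℝ), 0 < δ ∧ ∀ p ∈ D.W c N δ, ∀ q ∈ D.W c N δ,
          |(G (β p) + G' (β p) + g p) - (G (β q) + G' (β q) + g q)| ≤ D.C1 * dist p q := by
      intro g hg hgF
      have g0 : ∀ p, D.hS i ≤ D.s i p → g p = 0 := by
        intro p hp
        have : D.F i (β p) = 0 := by
          by_contra h
          have := D.supp_neg h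
          linarith
        have h2 := hgF p
        rw [this, abs_zero] at h2
        exact abs_eq_zero.1 h2
      have gb : ∀ p, |g p| ≤ D.Hs * D.S i := fun p => by rw [hgF]; exact D.F_bound i p
      have one : ∀ p q, D.s i p < D.hS i →
          |(G (β p) + G' (β p) + g p) - (G (β q) + G' (β q) + g q)|
            ≤ (K' - (1 / 2) ^ (m + 1)) * dist p q := by
        intro p q hp
        have hd : 0 ≤ dist p q := dist_nonneg
        have hpW := F2 p hp
        by_cases hq : q ∈ D.W c N δ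
        · have hpW' : p ∈ D.W c N δ := fun j hj => (hpW j hj).trans (by linarith)
          have a1 := hloc p hpW' q hq
          have a2 := hTl p hpW' q hq
          have a3 := hg p q
          have e : (G (β p) + G' (β p) + g p) - (G (β q) + G' (β q) + g q) =
            (G (β p) - G (β q)) + (G' (β p) - G' (β q)) + (g p - g q) := by ring
          rw [e]
          refine (abs_add_three _ _ _).trans ?_
          have : D.C1 * dist p q + (D.C1 + K' / 2) * dist p q + D.C1 * dist p q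
            ≤ (K' - (1 / 2) ^ (m + 1)) * dist p q := by
            rw [← add_mul, ← add_mul]
            refine mul_le_mul_of_nonneg_right ?_ hd
            rw [hK']
            linarith
          linarith
        · -- far apart
          obtain ⟨j, hj, hjq⟩ : ∃ j < N, δ ≤ |D.o j q - c j| := by
            by_contra hcon
            push Not at hcon
            exact hq hcon
          have hdist : δ / 2 ≤ dist p q := by
            have h1 := (D.o_lip j).dist_le_mul p q
            simp only [NNReal.coe_one, one_mul, Real.dist_eq] at h1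
            have h2 := hpW j hj
            have h3 : |D.o j q - c j| ≤ |D.o j p - c j| + |D.o j p - D.o j q| := by
              have : D.o j q - c j = (D.o j p - c j) - (D.o j p - D.o j q) := by ring
              rw [this]; exact abs_sub _ _
            linarith
          have hqs : D.hS i ≤ D.s i q := by
            by_contra hcon
            have := F2 q (not_le.1 hcon)
            exact hq (fun j hj => (this j hj).trans (by linarith))
          rw [hT0 q hqs, g0 q hqs]
          have a1 := hL p q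
          have a2 := hTb p
          have a3 := gb p
          have e : (G (β p) + G' (β p) + g p) - (G (β q) + 0 + 0) =
            (G (β p) - G (β q)) + G' (β p) + g p := by ring
          rw [e]
          refine (abs_add_three _ _ _).trans ?_
          have a4 : δ / 2 * (1 / 2) ^ (m + 1) ≤ (1 / 2) ^ (m + 1) * dist p q := by
            rw [mul_comm]
            exact mul_le_mul_of_nonneg_left hdist hpm1.le
          have a5 : (D.K + 1 - (1 / 2) ^ m) * dist p q + (1 / 2) ^ (m + 1) * dist p q =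
            (K' - (1 / 2) ^ (m + 1)) * dist p q := by
            rw [hpow]; ring
          linarith
      constructor
      · intro p q
        by_cases hp : D.s i p < D.hS i
        · exact one p q hp
        · by_cases hq : D.s i q < D.hS i
          · rw [abs_sub_comm, dist_comm]; exact one q p hq
          · push Not at hp hq
            rw [hT0 p hp, hT0 q hq, g0 p hp, g0 q hq]
            have := hL p q
            have hd : 0 ≤ dist p q := dist_nonneg
            simp only [add_zero]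
            refine this.trans (mul_le_mul_of_nonneg_right ?_ hd)
            rw [hpow]; linarith
      · refine ⟨N', δ', hδ', fun p hp q hq => ?_⟩
        rw [hflat p hp, hflat q hq]
        have := hg p q
        rwa [add_sub_add_left_eq_sub]
    refine ⟨G', hG', ?_, hx, ?_, ?_⟩
    · refine hn.trans (le_of_eq ?_)
      push_cast; rfl
    · have := claim (fun p => D.F i (β p)) (D.F_lip i) (fun _ => rfl)
      simpa using this
    · have := claim (fun p => -D.F i (β p)) (fun p q => by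
        rw [show -D.F i (β p) - -D.F i (β q) = -(D.F i (β p) - D.F i (β q)) by ring, abs_neg]
        exact D.F_lip i p q) (fun p => abs_neg _)
      simpa [sub_eq_add_neg] using this

/-- **Chain theorem.** -/
theorem chain (hU : (U : Filter ℕ) ≤ cofinite) (M : ℕ) :
    ∃ (A : Finset ℕ) (ε : ℕ → ℝ) (G : E →L[ℝ] ℝ), (∀ j, |ε j| ≤ 1) ∧
      ‖G‖ ≤ M * (1 + (D.K + 1) / D.ep) ∧
      (∀ p q, |G (β p) - G (β q)| ≤ (D.K + 1) * dist p q) ∧
      M * D.κ - 1 ≤ G (∑ i ∈ A, ε i • z i) := by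
  have hr := D.r0
  rcases D.dich with hA | hS0
  · exact D.caseA hU hA M
  -- the functions `F i` live on the big cells
  have hcell : ∀ i p, D.F i (β p) ≠ 0 → D.s i p < D.hS i := fun i p h =>
    (D.supp_neg h).trans (D.hS_pos i)
  by_cases hlim : ∀ j, ∃ c : ℝ, Tendsto (fun i => D.cen i j) U (𝓝 c)
  · choose c hc using hlim
    by_cases hB : ∀ᶠ i in (U : Filter ℕ), ∃ (N : ℕ) (δ : ℝ), 0 < δ ∧ ∀ p ∈ D.W c N δ, D.F i (β p) = 0
    · -- B1
      refine D.caseDisj hU ?_ M
      filter_upwards [hB] with i₀ ⟨N, δ, hδ, h0⟩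
      filter_upwards [D.cells hS0 c hc N hδ] with i hi p hp
      by_contra hne
      exact hp (h0 p (hi p (hcell i p hne)))
    · refine D.caseB2 hU hS0 c hc ?_ M
      have := Ultrafilter.eventually_not.2 hB
      filter_upwards [this] with i hi N δ hδ
      by_contra hcon
      push Not at hcon
      exact hi ⟨N, δ, hδ, hcon⟩
  · -- some centre is unbounded
    push Not at hlim
    obtain ⟨j, hj⟩ := hlim
    have hunb : ∀ R : ℝ, ∀ᶠ i in (U : Filter ℕ), R < |D.cen i j| := by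
      intro R
      by_contra hcon
      have h1 : ∀ᶠ i in (U : Filter ℕ), D.cen i j ∈ Set.Icc (-R) R := by
        have := Ultrafilter.eventually_not.2 hcon
        filter_upwards [this] with i hi
        exact abs_le.1 (not_lt.1 hi)
      obtain ⟨c, _, hc⟩ := (isCompact_Icc (a := -R) (b := R)).ultrafilter_le_nhds
        (U.map (fun i => D.cen i j)) (by
          rw [le_principal_iff]
          exact h1)
      exact hj c hc
    refine D.caseDisj hU ?_ M
    have hsmall : ∀ᶠ i in (U : Filter ℕ), D.Cc j * D.S i < 1 := by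
      have : Tendsto (fun i => D.Cc j * D.S i) U (𝓝 (D.Cc j * 0)) := hS0.const_mul _
      rw [mul_zero] at this
      exact this.eventually (gt_mem_nhds one_pos)
    filter_upwards [D.cell j] with i₀ h0
    filter_upwards [hunb (|D.cen i₀ j| + D.Cc j * D.S i₀ + 1), hsmall, D.cell j] with i h1 h2 h3 p hp
    by_contra hne
    have a1 := h0 p (hcell i₀ p hp)
    have a2 := h3 p (hcell i p hne)
    have a3 : |D.cen i j| ≤ |D.o j p - D.cen i j| + |D.o j p - D.cen i₀ j| + |D.cen i₀ j| := by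
      have : D.cen i j = -(D.o j p - D.cen i j) + (D.o j p - D.cen i₀ j) + D.cen i₀ j := by ring
      conv_lhs => rw [this]
      refine (abs_add_three _ _ _).trans ?_
      rw [abs_neg]
    linarith

end ChainData

/-- **Chain theorem**, in the form of the interface. -/
theorem chain {P : Type*} [PseudoMetricSpace P] {E : Type*} [NormedAddCommGroup E]
    [NormedSpace ℝ E] {β : P → E} {U : Ultrafilter ℕ} (hU : (U : Filter ℕ) ≤ cofinite)
    {z : ℕ → E} (D : ChainData β U z) (M : ℕ) :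
    ∃ (A : Finset ℕ) (ε : ℕ → ℝ) (G : E →L[ℝ] ℝ), (∀ j, |ε j| ≤ 1) ∧
      ‖G‖ ≤ M * (1 + (D.K + 1) / D.ep) ∧
      (∀ p q, |G (β p) - G (β q)| ≤ (D.K + 1) * dist p q) ∧
      M * D.κ - 1 ≤ G (∑ i ∈ A, ε i • z i) := D.chain hU M

end Crest.Agent.R091.Ch
end

-- ▼ part R091/ChainInstA
section

/-! # Row 91, module ChainInstA (helper102): the fields `flat`, `dich`, `cell` of the chain data for the
concrete block functionals. -/

set_option autoImplicit false

namespace Crest.Agent.R091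

open Filter
open scoped Topology ZeroAtInfty

variable {H : Type} [NormedAddCommGroup H] [InnerProductSpace ℝ H]

/-- centre of the window of the `j`-th observable in the `i`-th cell -/
noncomputable def cenI (n : ℕ → ℕ) (k : ℕ → ℤ) (c : (i : ℕ) → Fin (n i) → ℤ) (i j : ℕ) : ℝ :=
  if h : j < n i then c i ⟨j, h⟩ * sc (k i + 1) / om j else 0

/-- relative size of the window of the `j`-th observable -/
noncomputable def CcI (d j : ℕ) : ℝ := (rho d + 1 / 2) * Lam / om j

theorem sc_succ' (k : ℤ) : sc (k + 1) = Lam * sc k := by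
  unfold sc Lam
  rw [← Real.exp_add]
  congr 1
  push_cast
  ring

theorem cell_apply (X : Ctx H) (U : Ultrafilter ℕ) (hU : (U : Filter ℕ) ≤ atTop) (n : ℕ → ℕ)
    (k : ℕ → ℤ) (c : (i : ℕ) → Fin (n i) → ℤ) (d : ℕ) (hn : Tendsto n atTop atTop) (j : ℕ) :
    ∀ᶠ i in (U : Filter ℕ), ∀ p : P H,
      sfun X (n i) (k i) (c i) d p < 1 / (4 * rr d) * sc (k i) →
        |obs X j p - cenI n k c i j| ≤ CcI d j * sc (k i) := by
  have h1 : ∀ᶠ i in (U : Filter ℕ), j < n i := (hn.mono_left hU).eventually (eventually_gt_atTop j)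
  filter_upwards [h1] with i hi p hp
  obtain ⟨-, -, h3⟩ := bigcell_facts X (n i) (c i) (k i) d p hp
  have h4 := h3 ⟨j, hi⟩
  have hom : 0 < om j := PhiAux.om_pos j
  have hsc : 0 < sc (k i) := PhiAux.sc_pos (k i)
  have hsc1 : 0 < sc (k i + 1) := PhiAux.sc_pos (k i + 1)
  unfold cenI
  rw [dif_pos hi]
  have e : obs X j p - c i ⟨j, hi⟩ * sc (k i + 1) / om j =
      sc (k i + 1) / om j * (om j * obs X j p / sc (k i + 1) - c i ⟨j, hi⟩) := by
    field_simp
  rw [e, abs_mul, abs_of_pos (div_pos hsc1 hom)]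
  refine (mul_le_mul_of_nonneg_left h4.le (div_pos hsc1 hom).le).trans ?_
  unfold CcI
  rw [sc_succ']
  exact le_of_eq (by ring)

theorem sc_mono' {a b : ℤ} (h : a ≤ b) : sc a ≤ sc b := by
  unfold sc
  apply Real.exp_le_exp.2
  have : (a : ℝ) ≤ b := by exact_mod_cast h
  linarith

theorem exists_sc_lt (ε : ℝ) (hε : 0 < ε) : ∃ m : ℤ, sc m < ε := by
  refine ⟨⌊Real.log ε / 1000⌋ - 1, ?_⟩
  unfold sc
  rw [← Real.lt_log_iff_exp_lt hε]
  have := Int.floor_le (Real.log ε / 1000)
  push_cast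
  linarith

theorem dich_apply (U : Ultrafilter ℕ) (_hU : (U : Filter ℕ) ≤ atTop) (k : ℕ → ℤ) :
    (∀ᶠ i₀ in (U : Filter ℕ), ∀ᶠ i in (U : Filter ℕ), sc (k i₀) ≤ sc (k i)) ∨
      Tendsto (fun i => sc (k i)) U (𝓝 0) := by
  by_cases h : ∀ᶠ i₀ in (U : Filter ℕ), ∀ᶠ i in (U : Filter ℕ), k i₀ ≤ k i
  · left
    filter_upwards [h] with i₀ h0
    filter_upwards [h0] with i hi
    exact sc_mono' hi
  · right
    have h' : ∀ᶠ i₀ in (U : Filter ℕ), ∀ᶠ i in (U : Filter ℕ), k i < k i₀ := by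
      have h1 : ∀ᶠ i₀ in (U : Filter ℕ), ¬ ∀ᶠ i in (U : Filter ℕ), k i₀ ≤ k i :=
        Ultrafilter.eventually_not.2 h
      filter_upwards [h1] with i₀ h0
      have h2 := Ultrafilter.eventually_not.2 h0
      filter_upwards [h2] with i hi
      exact not_le.1 hi
    obtain ⟨i₁, hi₁⟩ := h'.exists
    have key : ∀ t : ℕ, ∀ᶠ i in (U : Filter ℕ), k i ≤ k i₁ - t := by
      intro t
      induction t with
      | zero =>
        filter_upwards [hi₁] with i hi
        push_cast
        omega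
      | succ t ih =>
        obtain ⟨j, hj1, hj2⟩ := (ih.and h').exists
        filter_upwards [hj2] with i hi
        push_cast
        omega
    rw [Metric.tendsto_nhds]
    intro ε hε
    obtain ⟨m, hm⟩ := exists_sc_lt ε hε
    filter_upwards [key (k i₁ - m).toNat] with i hi
    have h3 : k i ≤ m := by
      have := Int.self_le_toNat (k i₁ - m)
      omega
    rw [dist_zero_right, Real.norm_eq_abs, abs_of_pos (PhiAux.sc_pos _)]
    exact (sc_mono' h3).trans_lt hm

theorem flat_apply (X : Ctx H) (U : Ultrafilter ℕ) (hU : (U : Filter ℕ) ≤ atTop) (n : ℕ → ℕ)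
    (k : ℕ → ℤ) (c : (i : ℕ) → Fin (n i) → ℤ) (d : ℕ) (hn : Tendsto n atTop atTop)
    (G : E →L[ℝ] ℝ) (hG : G ∈ Set.range (evG X)) (K' : ℕ) (hK' : 1 ≤ K')
    (hlip : ∀ p q : P H, |G (betaP X p) - G (betaP X q)| ≤ K' * dist p q) (x : E) (τ : ℝ)
    (hτ : 0 < τ) :
    ∀ᶠ i in (U : Filter ℕ), ∀ a : ℤ, ∃ G' ∈ Set.range (evG X),
      ‖G'‖ ≤ K' / ep d ∧ |G' x| ≤ τ ∧ ∀ p : P H, G' (betaP X p) =
        - K' * soft (max 0 (sfun X (n i) (k i) (c i) d p))
          (tent (1 / (4 * rr d) * sc (k i)) (G (betaP X p) / K' - a * (1 / (4 * rr d) * sc (k i)))) := by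
  obtain ⟨G0, rfl⟩ := hG
  have hep : 0 < ep d := PhiAux.ep_pos d
  have hKpos : (0 : ℝ) < K' := by exact_mod_cast (Nat.lt_of_lt_of_le Nat.zero_lt_one hK')
  set G1 : GG := (1 / (K' : ℚ)) • G0 with hG1
  obtain ⟨g, hg⟩ := X.hen G1
  have hDG1 : ∀ v : ℕ → HV H, DG X G1 v = DG X G0 v / K' := by
    intro v
    rw [hG1, DG_smul]
    push_cast
    ring
  have hLip1 : ∀ p p' : P H, |DG X G1 p - DG X G1 p'| ≤ ‖p - p'‖ := by
    intro p p'
    rw [hDG1, hDG1, ← sub_div, abs_div, abs_of_pos hKpos, div_le_iff₀ hKpos, ← evG_betaP, ← evG_betaP,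
      mul_comm, ← dist_eq_norm]
    exact hlip p p'
  obtain ⟨N, hN⟩ := evB_small X x (τ * ep d / K') (by positivity)
  have h1 : ∀ᶠ i in (U : Filter ℕ), g < n i := (hn.mono_left hU).eventually (eventually_gt_atTop g)
  have h2 : ∀ᶠ i in (U : Filter ℕ), G1.support.sup lev < n i :=
    (hn.mono_left hU).eventually (eventually_gt_atTop _)
  have h3 : ∀ᶠ i in (U : Filter ℕ), N ≤ n i := (hn.mono_left hU).eventually (eventually_ge_atTop _)
  filter_upwards [h1, h2, h3] with i hi1 hi2 hi3 a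
  set σ : Sg := ⟨n i, (g, a, c i, k i, d)⟩ with hσ
  set q : ℚ := - (K' * 100 * 2 ^ d) with hq
  have hqe : (q : ℝ) = - (K' / ep d) := by
    have h12 : ((2 : ℝ) ^ d) * (1 / 2) ^ d = 1 := by
      rw [← mul_pow]; norm_num
    have hep' : ep d = (1 / 100) * (1 / 2) ^ d := rfl
    rw [hq]
    push_cast
    rw [neg_inj, eq_div_iff hep.ne', hep']
    calc (K' : ℝ) * 100 * 2 ^ d * (1 / 100 * (1 / 2) ^ d) = K' * (2 ^ d * (1 / 2) ^ d) := by ring
      _ = K' := by rw [h12, mul_one]
  refine ⟨evG X (Finsupp.single (Sum.inr σ) q), ⟨_, rfl⟩, ?_, ?_, ?_⟩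
  · rw [evG_single]
    refine ContinuousLinearMap.opNorm_le_bound _ (by positivity) fun y => ?_
    change |(q : ℝ) * evB X (Sum.inr σ) y| ≤ K' / ep d * ‖y‖
    rw [abs_mul, hqe, abs_neg, abs_of_pos (by positivity)]
    refine mul_le_mul_of_nonneg_left ?_ (by positivity)
    have h5 := (evB X (Sum.inr σ)).le_opNorm y
    rw [Real.norm_eq_abs] at h5
    refine h5.trans ?_
    exact mul_le_of_le_one_left (norm_nonneg _) (norm_evB_le X _)
  · rw [evG_single]
    change |(q : ℝ) * evB X (Sum.inr σ) x| ≤ τ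
    have h4 := hN (Sum.inr σ) hi3
    rw [abs_mul, hqe, abs_neg, abs_of_pos (by positivity)]
    calc K' / ep d * |evB X (Sum.inr σ) x| ≤ K' / ep d * (τ * ep d / K') :=
          mul_le_mul_of_nonneg_left h4 (by positivity)
      _ = τ := by field_simp
  · intro p
    rw [evG_betaP, DG_single]
    have hDB : DB X (Sum.inr σ) p = Phi X σ p := rfl
    rw [hDB, hσ, Phi_of_valid X (n i) g a (c i) (k i) d G1
      (fun b hb => lt_of_le_of_lt (Finset.le_sup (f := lev) hb) hi2) hg hi1 hLip1 p, hDG1, hqe,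
      evG_betaP]
    unfold hh
    field_simp

end Crest.Agent.R091
end

-- ▼ part R091/ChainInst
section

/-! # Row 91, module ChainInst: the abstract chain theorem applied to localized block functionals -/

set_option autoImplicit false

namespace Crest.Agent.R091

open Filter
open scoped Topology ZeroAtInfty

variable {H : Type} [NormedAddCommGroup H] [InnerProductSpace ℝ H]

/-- the constant of the chain argument -/
noncomputable def K0 : ℕ := ⌈16 * Lam ^ 2⌉₊ + 19

theorem range_evG_zero (X : Ctx H) : (0 : E →L[ℝ] ℝ) ∈ Set.range (evG X) :=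
  ⟨0, by unfold evG; exact Finsupp.sum_zero_index⟩

theorem range_evG_add (X : Ctx H) (G : E →L[ℝ] ℝ) (hG : G ∈ Set.range (evG X)) (G' : E →L[ℝ] ℝ)
    (hG' : G' ∈ Set.range (evG X)) : G + G' ∈ Set.range (evG X) := by
  obtain ⟨g, rfl⟩ := hG
  obtain ⟨g', rfl⟩ := hG'
  exact ⟨g + g', evG_add X g g'⟩

theorem range_evG_neg (X : Ctx H) (G : E →L[ℝ] ℝ) (hG : G ∈ Set.range (evG X)) :
    -G ∈ Set.range (evG X) := by
  obtain ⟨g, rfl⟩ := hG
  refine ⟨(-1 : ℚ) • g, ?_⟩
  rw [evG_smul]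
  refine ContinuousLinearMap.ext fun y => ?_
  rw [smul_apply, smul_eq_mul, neg_apply]
  push_cast
  ring

/-- the sign of the value of the block functional -/
noncomputable def sgI (X : Ctx H) (z : ℕ → E) (b : ℕ → Bk) (i : ℕ) : ℚ :=
  if 0 ≤ evB X (b i) (z i) then 1 else -1

/-- the signed block functionals -/
noncomputable def FI (X : Ctx H) (z : ℕ → E) (b : ℕ → Bk) (i : ℕ) : E →L[ℝ] ℝ :=
  evG X (Finsupp.single (b i) (sgI X z b i))

theorem FI_eq (X : Ctx H) (z : ℕ → E) (b : ℕ → Bk) (i : ℕ) :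
    FI X z b i = (sgI X z b i : ℝ) • evB X (b i) := evG_single X _ _

theorem abs_sgI (X : Ctx H) (z : ℕ → E) (b : ℕ → Bk) (i : ℕ) : |(sgI X z b i : ℝ)| = 1 := by
  unfold sgI
  split_ifs <;> simp

theorem sgI_mul (X : Ctx H) (z : ℕ → E) (b : ℕ → Bk) (i : ℕ) :
    (sgI X z b i : ℝ) * evB X (b i) (z i) = |evB X (b i) (z i)| := by
  unfold sgI
  split_ifs with h
  · rw [abs_of_nonneg h]; simp
  · rw [abs_of_neg (not_le.1 h)]; simp

theorem FI_betaP (X : Ctx H) (z : ℕ → E) (b : ℕ → Bk) (i : ℕ) (p : P H) :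
    FI X z b i (betaP X p) = (sgI X z b i : ℝ) * DB X (b i) p := by
  rw [FI_eq, smul_apply, evB_betaP, smul_eq_mul]

theorem tendsto_evG (X : Ctx H) (z : ℕ → E) (hz : ∀ b : Bk, Tendsto (fun i => evB X b (z i)) atTop (𝓝 0))
    (G : GG) : Tendsto (fun i => evG X G (z i)) atTop (𝓝 0) := by
  have h : (fun i => evG X G (z i)) = fun i => ∑ b ∈ G.support, (G b : ℝ) * evB X b (z i) := by
    funext i
    unfold evG Finsupp.sum
    rw [sum_apply]
    rfl
  rw [h]
  have h0 : (0 : ℝ) = ∑ b ∈ G.support, (G b : ℝ) * 0 := by simp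
  rw [h0]
  exact tendsto_finsetSum _ fun b _ => (hz b).const_mul _

theorem tendsto_FI (X : Ctx H) (z : ℕ → E) (b : ℕ → Bk) (n : ℕ → ℕ) (hlev : ∀ i, lev (b i) = n i)
    (hn : Tendsto n atTop atTop) (x : E) : Tendsto (fun i => FI X z b i x) atTop (𝓝 0) := by
  rw [Metric.tendsto_nhds]
  intro ε hε
  obtain ⟨N, hN⟩ := evB_small X x (ε / 2) (by positivity)
  filter_upwards [hn.eventually_ge_atTop N] with i hi
  rw [Real.dist_eq, sub_zero, FI_eq, smul_apply, smul_eq_mul, abs_mul, abs_sgI,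
    one_mul]
  have := hN (b i) (by rw [hlev i]; exact hi)
  linarith

theorem ocont_of_OCont (X : Ctx H) {F : (ℕ → HV H) → ℝ} (hF : OCont X F) (c : ℕ → ℝ) :
    ∃ L : ℝ, Tendsto (fun p : P H => F p) (comap (fun (p : P H) j => obs X j p) (𝓝 c)) (𝓝 L) := by
  by_cases h : (comap (fun (p : P H) j => obs X j p) (𝓝 c)).NeBot
  · refine hF _ h fun j => ⟨c j, ?_⟩
    have h1 : Tendsto (fun (p : P H) j => obs X j p) (comap (fun (p : P H) j => obs X j p) (𝓝 c)) (𝓝 c) :=
      tendsto_comap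
    exact (tendsto_pi_nhds.1 h1) j
  · rw [Filter.not_neBot] at h
    rw [h]
    exact ⟨0, tendsto_bot⟩

/-- the chain data -/
noncomputable def chainData (X : Ctx H) (z : ℕ → E)
    (hz : ∀ b : Bk, Tendsto (fun i => evB X b (z i)) atTop (𝓝 0))
    (b : ℕ → Bk) (n : ℕ → ℕ) (k : ℕ → ℤ) (c : (i : ℕ) → Fin (n i) → ℤ) (d : ℕ) (Hs κ : ℝ)
    (hlev : ∀ i, lev (b i) = n i) (hn : Tendsto n atTop atTop)
    (hHs : 0 ≤ Hs) (hHs' : 4 * rr d * Hs ≤ K0)
    (hκ : 0 ≤ κ) (hval : ∀ i, κ ≤ |evB X (b i) (z i)|)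
    (hbound : ∀ i (p : P H), |DB X (b i) p| ≤ Hs * sc (k i))
    (hsupp : ∀ i (p : P H), DB X (b i) p ≠ 0 → sfun X (n i) (k i) (c i) d p ≤ -(sc (k i) / (2 * rr d)))
    (U : Ultrafilter ℕ) (hU : (U : Filter ℕ) ≤ atTop) :
    Ch.ChainData (betaP X) U z where
  GQ := Set.range (evG X)
  GQ_zero := range_evG_zero X
  GQ_add := range_evG_add X
  GQ_neg := range_evG_neg X
  o := fun j p => obs X j p
  o_lip := fun j => LipschitzWith.of_dist_le_mul fun p q => by
    rw [Real.dist_eq, NNReal.coe_one, one_mul, dist_eq_norm]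
    exact abs_obs_sub_le' X j p q
  S := fun i => sc (k i)
  S_pos := fun i => PhiAux.sc_pos _
  s := fun i p => sfun X (n i) (k i) (c i) d p
  s_lip := fun i p q => by
    rw [dist_eq_norm]
    exact PhiAux.abs_sfun_sub_le X _ _ _ _ p q
  r := rr d
  r_pos := PhiAux.one_le_rr d
  Hs := Hs
  Hs_nonneg := hHs
  C1 := 3
  C1_nonneg := by norm_num
  κ := κ
  κ_nonneg := hκ
  ep := ep d
  ep_pos := PhiAux.ep_pos d
  K := K0
  K_ge := hHs'
  K_ge' := by
    unfold K0
    push_cast
    have : (0:ℝ) ≤ (⌈16 * Lam ^ 2⌉₊ : ℝ) := Nat.cast_nonneg _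
    linarith
  F := FI X z b
  F_mem := fun i => ⟨_, rfl⟩
  F_norm := fun i => by
    rw [FI_eq, norm_smul, Real.norm_eq_abs, abs_sgI, one_mul]
    exact norm_evB_le X _
  F_val := fun i => by
    rw [FI_eq, smul_apply, smul_eq_mul, sgI_mul]
    exact hval i
  F_lip := fun i p q => by
    rw [FI_betaP, FI_betaP, ← mul_sub, abs_mul, abs_sgI, one_mul, dist_eq_norm]
    exact abs_DB_sub_le X _ p q
  F_bound := fun i p => by
    rw [FI_betaP, abs_mul, abs_sgI, one_mul]
    exact hbound i p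
  F_supp := fun i p h => by
    rw [FI_betaP] at h
    have := hsupp i p (right_ne_zero_of_mul h)
    rw [neg_div]
    exact this
  z_null := fun G hG => by
    obtain ⟨g, rfl⟩ := hG
    exact (tendsto_evG X z hz g).mono_left hU
  F_null := fun x => (tendsto_FI X z b n hlev hn x).mono_left hU
  flat := fun G hG K' hK' hlip x τ hτ => by
    refine flat_apply X U hU n k c d hn G hG K' ?_ hlip x τ hτ
    rcases hK' with h | h <;> rw [h]
    · unfold K0; omega
    · omega
  cen := cenI n k c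
  Cc := CcI d
  cell := fun j => cell_apply X U hU n k c d hn j
  ocont := fun c' G hG => by
    obtain ⟨g, rfl⟩ := hG
    obtain ⟨L, hL⟩ := ocont_of_OCont X (oCont_DG X g) c'
    refine ⟨L, ?_⟩
    simpa only [evG_betaP] using hL
  ocont_s := fun c' i => ocont_of_OCont X (oCont_sfun X (n i) (k i) (c i) d) c'
  dich := dich_apply U hU k

/-- Chain theorem for a sequence of localized block functionals `± evB (b i)`. -/
theorem chain_apply (X : Ctx H) (z : ℕ → E) (hz : ∀ b : Bk, Tendsto (fun i => evB X b (z i)) atTop (𝓝 0))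
    (b : ℕ → Bk) (n : ℕ → ℕ) (k : ℕ → ℤ) (c : (i : ℕ) → Fin (n i) → ℤ) (d : ℕ) (Hs κ : ℝ)
    (hlev : ∀ i, lev (b i) = n i) (hn : Tendsto n atTop atTop)
    (hHs : 0 ≤ Hs) (hHs' : 4 * rr d * Hs ≤ K0)
    (hκ : 0 ≤ κ) (hval : ∀ i, κ ≤ |evB X (b i) (z i)|)
    (hbound : ∀ i (p : P H), |DB X (b i) p| ≤ Hs * sc (k i))
    (hsupp : ∀ i (p : P H), DB X (b i) p ≠ 0 → sfun X (n i) (k i) (c i) d p ≤ -(sc (k i) / (2 * rr d)))
    (M : ℕ) :
    ∃ (A : Finset ℕ) (ε : ℕ → ℝ) (G : E →L[ℝ] ℝ), (∀ j, |ε j| ≤ 1) ∧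
      ‖G‖ ≤ M * (1 + (K0 + 1) / ep d) ∧
      (∀ p p' : P H, |G (betaP X p) - G (betaP X p')| ≤ (K0 + 1) * dist p p') ∧
      M * κ - 1 ≤ G (∑ i ∈ A, ε i • z i) := by
  have hU : ((hyperfilter ℕ : Ultrafilter ℕ) : Filter ℕ) ≤ cofinite := hyperfilter_le_cofinite
  have hU' : ((hyperfilter ℕ : Ultrafilter ℕ) : Filter ℕ) ≤ atTop := Nat.hyperfilter_le_atTop
  exact Ch.chain hU (chainData X z hz b n k c d Hs κ hlev hn hHs hHs' hκ hval hbound hsupp
    (hyperfilter ℕ) hU') M

end Crest.Agent.R091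
end

-- ▼ part R091/Sel
section

/-!
# Row 91: selection lemmas (helper50)

Sequences with bounded signed sums, weak nullity, selection of almost biorthogonal subsets, and
the final rescaling.
-/

set_option autoImplicit false

namespace Crest.Agent.R091.Sel

open Filter
open scoped Topology

section
variable {E : Type*} [NormedAddCommGroup E] [NormedSpace ℝ E]

/-- bounded signed sums -/
def BSS (z : ℕ → E) (M : ℝ) : Prop :=
  ∀ (A : Finset ℕ) (ε : ℕ → ℝ), (∀ i, |ε i| ≤ 1) → ‖∑ i ∈ A, ε i • z i‖ ≤ M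

theorem BSS.nonneg {z : ℕ → E} {M : ℝ} (h : BSS z M) : 0 ≤ M := by
  have := h ∅ (fun _ => 0) (by simp)
  simpa using this

/-- transfer of a combination along an injective reindexing -/
theorem sum_reindex (z : ℕ → E) {φ : ℕ → ℕ} (hφ : Function.Injective φ) (A : Finset ℕ)
    (ε : ℕ → ℝ) (hε : ∀ i, |ε i| ≤ 1) :
    ∃ (A' : Finset ℕ) (ε' : ℕ → ℝ), (∀ i, |ε' i| ≤ 1) ∧
      ∑ i ∈ A, ε i • z (φ i) = ∑ i ∈ A', ε' i • z i := by
  classical
  refine ⟨A.map ⟨φ, hφ⟩, fun j => if h : ∃ i, φ i = j then ε h.choose else 0, ?_, ?_⟩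
  · intro j
    by_cases h : ∃ i, φ i = j
    · simp only [dif_pos h]; exact hε _
    · simp [dif_neg h]
  · rw [Finset.sum_map]
    refine Finset.sum_congr rfl fun i _ => ?_
    have h : ∃ i', φ i' = φ i := ⟨i, rfl⟩
    have h2 : h.choose = i := hφ h.choose_spec
    simp only [Function.Embedding.coeFn_mk, dif_pos h, h2]

theorem BSS.comp {z : ℕ → E} {M : ℝ} (h : BSS z M) {φ : ℕ → ℕ} (hφ : Function.Injective φ) :
    BSS (fun i => z (φ i)) M := by
  intro A ε hε
  obtain ⟨A', ε', h1, h2⟩ := sum_reindex z hφ A ε hε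
  rw [h2]; exact h A' ε' h1

theorem BSS.map {F : Type*} [NormedAddCommGroup F] [NormedSpace ℝ F] {z : ℕ → E} {M : ℝ}
    (h : BSS z M) (L : E →L[ℝ] F) : BSS (fun i => L (z i)) (‖L‖ * M) := by
  intro A ε hε
  have : ∑ i ∈ A, ε i • L (z i) = L (∑ i ∈ A, ε i • z i) := by
    rw [map_sum]; exact Finset.sum_congr rfl fun i _ => (L.map_smul _ _).symm
  rw [this]
  exact (L.le_opNorm _).trans (mul_le_mul_of_nonneg_left (h A ε hε) (norm_nonneg _))

/-- choice of signs in an inner product space -/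
theorem exists_signs {V : Type*} [NormedAddCommGroup V] [InnerProductSpace ℝ V] (x : ℕ → V)
    (A : Finset ℕ) : ∃ ε : ℕ → ℝ, (∀ i, |ε i| ≤ 1) ∧
      ∑ i ∈ A, ‖x i‖ ^ 2 ≤ ‖∑ i ∈ A, ε i • x i‖ ^ 2 := by
  classical
  induction A using Finset.induction_on with
  | empty => exact ⟨fun _ => 0, by simp, by simp⟩
  | insert a A ha ih =>
    obtain ⟨ε, h1, h2⟩ := ih
    set S := ∑ i ∈ A, ε i • x i with hS
    obtain ⟨s, hs, hs'⟩ : ∃ s : ℝ, |s| = 1 ∧ 0 ≤ s * inner ℝ (x a) S := by
      rcases le_total 0 (inner ℝ (x a) S) with h | h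
      · exact ⟨1, by simp, by simpa using h⟩
      · exact ⟨-1, by simp, by linarith⟩
    refine ⟨fun i => if i = a then s else ε i, fun i => ?_, ?_⟩
    · by_cases hi : i = a
      · simp [hi, hs]
      · simp [hi, h1]
    · rw [Finset.sum_insert ha, Finset.sum_insert ha]
      have e1 : ∑ i ∈ A, (if i = a then s else ε i) • x i = S := by
        rw [hS]
        refine Finset.sum_congr rfl fun i hi => ?_
        have hia : i ≠ a := fun h => ha (h ▸ hi)
        rw [if_neg hia]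
      rw [e1]
      simp only [↓reduceIte]
      rw [norm_add_sq_real, norm_smul, inner_smul_left, Real.norm_eq_abs, hs]
      simp only [one_mul, conj_trivial]
      nlinarith

theorem BSS.tendsto_hilbert {V : Type*} [NormedAddCommGroup V] [InnerProductSpace ℝ V]
    {z : ℕ → V} {M : ℝ} (h : BSS z M) : Tendsto (fun i => ‖z i‖) atTop (𝓝 0) := by
  have hM := h.nonneg
  have h1 : ∀ A : Finset ℕ, ∑ i ∈ A, ‖z i‖ ^ 2 ≤ M ^ 2 := by
    intro A
    obtain ⟨ε, h1, h2⟩ := exists_signs z A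
    exact h2.trans (pow_le_pow_left₀ (norm_nonneg _) (h A ε h1) 2)
  have h2 : Summable (fun i => ‖z i‖ ^ 2) :=
    summable_of_sum_le (fun i => by positivity) h1
  have h3 := h2.tendsto_atTop_zero
  have h4 : Tendsto (fun i => Real.sqrt (‖z i‖ ^ 2)) atTop (𝓝 (Real.sqrt 0)) :=
    (Real.continuous_sqrt.tendsto 0).comp h3
  simpa [Real.sqrt_sq (norm_nonneg _)] using h4

theorem BSS.tendsto_clm {V : Type*} [NormedAddCommGroup V] [InnerProductSpace ℝ V]
    {z : ℕ → E} {M : ℝ} (h : BSS z M) (L : E →L[ℝ] V) : Tendsto (fun i => L (z i)) atTop (𝓝 0) :=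
  tendsto_zero_iff_norm_tendsto_zero.2 (h.map L).tendsto_hilbert

/-- selection of an almost biorthogonal finite subset -/
theorem select (F : ℕ → (E →L[ℝ] ℝ)) (z : ℕ → E) (S : Set ℕ) (hS : ∃ᶠ i in atTop, i ∈ S)
    (h1 : ∀ j, Tendsto (fun i => F j (z i)) atTop (𝓝 0))
    (h2 : ∀ j, Tendsto (fun i => F i (z j)) atTop (𝓝 0))
    (Rel : ℕ → ℕ → Prop) (h3 : ∀ j, ∀ᶠ i in atTop, Rel j i) {δ : ℝ} (hδ : 0 < δ) (m : ℕ) :
    ∃ A : Finset ℕ, (∀ i ∈ A, i ∈ S) ∧ A.card = m ∧
      (∀ i ∈ A, ∀ j ∈ A, i ≠ j → |F i (z j)| ≤ δ) ∧ (∀ i ∈ A, ∀ j ∈ A, i < j → Rel i j) := by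
  classical
  induction m with
  | zero => exact ⟨∅, by simp, rfl, by simp, by simp⟩
  | succ m ih =>
    obtain ⟨A, hA, hc, hd, hr⟩ := ih
    have e1 : ∀ᶠ i in atTop, ∀ j ∈ A, |F j (z i)| ≤ δ ∧ |F i (z j)| ≤ δ ∧ Rel j i ∧ j < i := by
      rw [Finset.eventually_all]
      intro j _
      have a1 := (Metric.tendsto_nhds.1 (h1 j)) δ hδ
      have a2 := (Metric.tendsto_nhds.1 (h2 j)) δ hδ
      filter_upwards [a1, a2, h3 j, eventually_gt_atTop j] with i b1 b2 b3 b4
      rw [Real.dist_eq, sub_zero] at b1 b2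
      exact ⟨b1.le, b2.le, b3, b4⟩
    obtain ⟨i, hi, hi'⟩ := (hS.and_eventually e1).exists
    have hiA : i ∉ A := fun h => absurd (hi' i h).2.2.2 (lt_irrefl i)
    refine ⟨insert i A, ?_, ?_, ?_, ?_⟩
    · intro j hj
      rcases Finset.mem_insert.1 hj with rfl | hj
      · exact hi
      · exact hA j hj
    · rw [Finset.card_insert_of_notMem hiA, hc]
    · intro a ha b hb hab
      rcases Finset.mem_insert.1 ha with ha1 | ha1
      · rcases Finset.mem_insert.1 hb with hb1 | hb1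
        · exact absurd (ha1.trans hb1.symm) hab
        · rw [ha1]; exact (hi' b hb1).2.1
      · rcases Finset.mem_insert.1 hb with hb1 | hb1
        · rw [hb1]; exact (hi' a ha1).1
        · exact hd a ha1 b hb1 hab
    · intro a ha b hb hab
      rcases Finset.mem_insert.1 ha with ha1 | ha1
      · rcases Finset.mem_insert.1 hb with hb1 | hb1
        · rw [ha1, hb1] at hab; exact absurd hab (lt_irrefl _)
        · rw [ha1] at hab; exact absurd hab (not_lt.2 (hi' b hb1).2.2.2.le)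
      · rcases Finset.mem_insert.1 hb with hb1 | hb1
        · rw [hb1]; exact (hi' a ha1).2.2.1
        · exact hr a ha1 b hb1 hab

/-- value of the sum functional on the sum vector -/
theorem value_ge (F : ℕ → (E →L[ℝ] ℝ)) (z : ℕ → E) (A : Finset ℕ) {κ δ : ℝ}
    (hv : ∀ i ∈ A, κ ≤ F i (z i)) (hd : ∀ i ∈ A, ∀ j ∈ A, i ≠ j → |F i (z j)| ≤ δ) (hδ : 0 ≤ δ) :
    A.card * κ - A.card * A.card * δ ≤ (∑ i ∈ A, F i) (∑ i ∈ A, (1 : ℝ) • z i) := by
  classical
  rw [sum_apply]
  have h1 : ∀ i ∈ A, κ - A.card * δ ≤ F i (∑ j ∈ A, (1 : ℝ) • z j) := by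
    intro i hi
    rw [map_sum, ← Finset.add_sum_erase A _ hi]
    simp only [one_smul]
    have h2 : |∑ j ∈ A.erase i, F i (z j)| ≤ A.card * δ := by
      refine (Finset.abs_sum_le_sum_abs _ _).trans ?_
      refine (Finset.sum_le_card_nsmul _ _ δ fun j hj => ?_).trans ?_
      · exact hd i hi j (Finset.mem_of_mem_erase hj) (Finset.ne_of_mem_erase hj).symm
      · rw [nsmul_eq_mul]
        refine mul_le_mul_of_nonneg_right ?_ hδ
        exact_mod_cast Finset.card_le_card (Finset.erase_subset _ _)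
    have h3 := hv i hi
    have h4 := (abs_le.1 h2).1
    linarith
  have h5 := Finset.sum_le_sum h1
  rw [Finset.sum_const, nsmul_eq_mul] at h5
  calc (A.card : ℝ) * κ - A.card * A.card * δ = A.card * (κ - A.card * δ) := by ring
    _ ≤ _ := h5

end

section
variable {E : Type*} [NormedAddCommGroup E] [NormedSpace ℝ E] {P : Type*} [PseudoMetricSpace P]

/-- the intermediate goal -/
def Pre (β : P → E) (z : ℕ → E) : Prop :=
  ∃ κ L B : ℝ, 0 < κ ∧ 1 ≤ L ∧ 1 ≤ B ∧ ∀ m : ℕ, 1 ≤ m → ∃ (A : Finset ℕ) (ε : ℕ → ℝ) (G : E →L[ℝ] ℝ),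
    (∀ i, |ε i| ≤ 1) ∧ ‖G‖ ≤ B * m ∧ (∀ p q, |G (β p) - G (β q)| ≤ L * dist p q) ∧
    m * κ - 1 ≤ G (∑ i ∈ A, ε i • z i)

theorem Pre.of_comp {β : P → E} {z : ℕ → E} {φ : ℕ → ℕ} (hφ : Function.Injective φ)
    (h : Pre β (fun i => z (φ i))) : Pre β z := by
  obtain ⟨κ, L, B, h1, h2, h3, h4⟩ := h
  refine ⟨κ, L, B, h1, h2, h3, fun m hm => ?_⟩
  obtain ⟨A, ε, G, a1, a2, a3, a4⟩ := h4 m hm
  obtain ⟨A', ε', b1, b2⟩ := sum_reindex z hφ A ε a1
  exact ⟨A', ε', G, b1, a2, a3, by rw [← b2]; exact a4⟩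


/-- direct sums: for every `m` an almost biorthogonal set of functionals whose sum is Lipschitz -/
theorem Pre.of_select {β : P → E} {z : ℕ → E} (κ L : ℝ) (hκ : 0 < κ) (hL : 1 ≤ L)
    (h : ∀ m : ℕ, 1 ≤ m → ∃ (F : ℕ → (E →L[ℝ] ℝ)) (S : Set ℕ) (Rel : ℕ → ℕ → Prop),
      (∃ᶠ i in atTop, i ∈ S) ∧ (∀ j, Tendsto (fun i => F j (z i)) atTop (𝓝 0)) ∧
      (∀ j, Tendsto (fun i => F i (z j)) atTop (𝓝 0)) ∧ (∀ j, ∀ᶠ i in atTop, Rel j i) ∧
      (∀ i, ‖F i‖ ≤ 1) ∧ (∀ i ∈ S, κ ≤ F i (z i)) ∧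
      ∀ A : Finset ℕ, (∀ i ∈ A, i ∈ S) → A.card = m → (∀ i ∈ A, ∀ j ∈ A, i < j → Rel i j) →
        ∀ p q, |∑ i ∈ A, (F i (β p) - F i (β q))| ≤ L * dist p q) : Pre β z := by
  classical
  refine ⟨κ, L, 1, hκ, hL, le_rfl, fun m hm => ?_⟩
  obtain ⟨F, S, Rel, hS, h1, h2, h3, h4, h5, h6⟩ := h m hm
  have hm' : (0 : ℝ) < m := by exact_mod_cast hm
  have hδ : (0 : ℝ) < 1 / (m * m) := by positivity
  obtain ⟨A, a1, a2, a3, a4⟩ := select F z S hS h1 h2 Rel h3 hδ m
  refine ⟨A, fun _ => 1, ∑ i ∈ A, F i, fun _ => by simp, ?_, ?_, ?_⟩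
  · rw [one_mul]
    refine (norm_sum_le _ _).trans ?_
    refine (Finset.sum_le_card_nsmul _ _ 1 fun i _ => h4 i).trans ?_
    rw [a2]; simp
  · intro p q
    rw [sum_apply, sum_apply, ← Finset.sum_sub_distrib]
    exact h6 A a1 a2 a4 p q
  · have := value_ge F z A (fun i hi => h5 i (a1 i hi)) a3 hδ.le
    rw [a2] at this
    have e : (m : ℝ) * m * (1 / (m * m)) = 1 := by field_simp
    rw [e] at this
    exact this

/-- final rescaling -/
theorem Pre.finish {β : P → E} {z : ℕ → E} (h : Pre β z) (N : ℝ) :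
    ∃ (l : ℕ) (A : Finset ℕ) (ε : ℕ → ℝ) (G : E →L[ℝ] ℝ), (∀ i, |ε i| ≤ 1) ∧
      ‖G‖ ≤ 1000 ^ l ∧ (∀ p q, |G (β p) - G (β q)| ≤ dist p q) ∧
      N ≤ (1 / 2 : ℝ) ^ (l + 1) * G (∑ i ∈ A, ε i • z i) := by
  obtain ⟨κ, L, B, h1, h2, h3, h4⟩ := h
  have hL0 : 0 < L := by linarith
  -- choose l
  have t1 : Tendsto (fun l : ℕ => (2 : ℝ) ^ l) atTop atTop :=
    tendsto_pow_atTop_atTop_of_one_lt (by norm_num)
  obtain ⟨l, hl1, hl2⟩ := ((t1.eventually_ge_atTop (2 * (|N| * L + 1) / κ)).and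
    (t1.eventually_ge_atTop B)).exists
  have e4 : ((4 ^ l : ℕ) : ℝ) = (2 : ℝ) ^ l * 2 ^ l := by
    push_cast; rw [← mul_pow]; norm_num
  obtain ⟨A, ε, G, a1, a2, a3, a4⟩ := h4 (4 ^ l) (Nat.one_le_pow _ _ (by norm_num))
  have hp : (0 : ℝ) < 2 ^ l := by positivity
  refine ⟨l, A, ε, (1 / L) • G, a1, ?_, ?_, ?_⟩
  · rw [norm_smul, Real.norm_eq_abs, abs_of_pos (by positivity)]
    have b1 : 1 / L * ‖G‖ ≤ ‖G‖ := by
      have : 1 / L ≤ 1 := by rw [div_le_one hL0]; exact h2
      calc 1 / L * ‖G‖ ≤ 1 * ‖G‖ := mul_le_mul_of_nonneg_right this (norm_nonneg _)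
        _ = ‖G‖ := one_mul _
    refine b1.trans (a2.trans ?_)
    rw [e4]
    calc B * ((2 : ℝ) ^ l * 2 ^ l) ≤ 2 ^ l * (2 ^ l * 2 ^ l) :=
          mul_le_mul_of_nonneg_right hl2 (by positivity)
      _ = 8 ^ l := by rw [← mul_pow, ← mul_pow]; norm_num
      _ ≤ 1000 ^ l := pow_le_pow_left₀ (by norm_num) (by norm_num) l
  · intro p q
    simp only [smul_apply, smul_eq_mul]
    rw [← mul_sub, abs_mul, abs_of_pos (by positivity)]
    calc 1 / L * |G (β p) - G (β q)| ≤ 1 / L * (L * dist p q) :=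
          mul_le_mul_of_nonneg_left (a3 p q) (by positivity)
      _ = dist p q := by field_simp
  · simp only [smul_apply, smul_eq_mul]
    rw [e4] at a4
    have c1 : |N| * L + 1 ≤ (2 : ℝ) ^ l * κ / 2 := by
      rw [div_le_iff₀ h1] at hl1; linarith
    have c2 : (1 / 2 : ℝ) ^ (l + 1) * (1 / L * ((2 : ℝ) ^ l * 2 ^ l * κ - 1)) ≤
        (1 / 2 : ℝ) ^ (l + 1) * (1 / L * G (∑ i ∈ A, ε i • z i)) := by
      apply mul_le_mul_of_nonneg_left _ (by positivity)
      exact mul_le_mul_of_nonneg_left a4 (by positivity)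
    refine le_trans ?_ c2
    have c3 : (1 / 2 : ℝ) ^ (l + 1) * (1 / L * ((2 : ℝ) ^ l * 2 ^ l * κ - 1)) =
        ((2 : ℝ) ^ l * κ / 2 - (1 / 2 : ℝ) ^ (l + 1)) / L := by
      have : (1 / 2 : ℝ) ^ (l + 1) = 1 / (2 * 2 ^ l) := by
        rw [one_div_pow, pow_succ]; ring
      rw [this]; field_simp
    rw [c3, le_div_iff₀ hL0]
    have c4 : (1 / 2 : ℝ) ^ (l + 1) ≤ 1 := pow_le_one₀ (by norm_num) (by norm_num)
    have c5 : N * L ≤ |N| * L := mul_le_mul_of_nonneg_right (le_abs_self _) hL0.le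
    linarith

end

end Crest.Agent.R091.Sel
end

-- ▼ part R091/LargeA
section

/-! # Row 91, module LargeA: bounded signed sums, `Good`, passing to subsequences -/

set_option autoImplicit false

namespace Crest.Agent.R091

open Filter
open scoped Topology ZeroAtInfty

variable {H : Type} [NormedAddCommGroup H] [InnerProductSpace ℝ H]

/-- bounded signed sums -/
def BddSigned (z : ℕ → E) (K : ℝ) : Prop :=
  ∀ (s : Finset ℕ) (ε : ℕ → ℝ), (∀ i, |ε i| ≤ 1) → ‖∑ i ∈ s, ε i • z i‖ ≤ K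

theorem BddSigned.comp {z : ℕ → E} {K : ℝ} (h : BddSigned z K) {φ : ℕ → ℕ} (hφ : StrictMono φ) :
    BddSigned (fun i => z (φ i)) K := by
  intro A ε hε
  obtain ⟨A', ε', h1, h2⟩ := Sel.sum_reindex z hφ.injective A ε hε
  rw [h2]
  exact h A' ε' h1

/-- conclusion of every case -/
def Good (X : Ctx H) (z : ℕ → E) : Prop :=
  ∀ N : ℝ, ∃ (l : ℕ) (s : Finset ℕ) (ε : ℕ → ℝ), (∀ i, |ε i| ≤ 1) ∧
    N ≤ Fr.Par.wt l * (parX X).q l (∑ i ∈ s, ε i • z i)

/-- passing to a subsequence -/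
theorem Good.of_subseq (X : Ctx H) {z : ℕ → E} {φ : ℕ → ℕ} (hφ : StrictMono φ)
    (h : Good X (fun i => z (φ i))) : Good X z := by
  intro N
  obtain ⟨l, A, ε, h1, h2⟩ := h N
  obtain ⟨A', ε', b1, b2⟩ := Sel.sum_reindex z hφ.injective A ε h1
  exact ⟨l, A', ε', b1, by rw [← b2]; exact h2⟩

/-- how a functional gives the lower bound (`G` of norm `≤ K' 1000^l`, `G ∘ β` being `K'`-Lipschitz) -/
theorem q_ge (X : Ctx H) (l : ℕ) (G : E →L[ℝ] ℝ) (K' : ℝ) (hK' : 1 ≤ K')
    (hG : ‖G‖ ≤ K' * 1000 ^ l) (hLip : ∀ p p' : P H, |G (betaP X p) - G (betaP X p')| ≤ K' * dist p p')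
    (x : E) : |G x| / K' ≤ (parX X).q l x := by
  have hpos : 0 < K' := by linarith
  have hadm : Fr.Adm (betaP X) (51 / 25) (1000 ^ l) (K'⁻¹ • G) := by
    refine ⟨fun p p' => ?_, ?_⟩
    · have h := hLip p p'
      have hd : (0 : ℝ) ≤ dist p p' := dist_nonneg
      rw [smul_apply, smul_apply, smul_eq_mul, smul_eq_mul,
        ← mul_sub, abs_mul, abs_of_pos (inv_pos.2 hpos)]
      calc K'⁻¹ * |G (betaP X p) - G (betaP X p')| ≤ K'⁻¹ * (K' * dist p p') :=
            mul_le_mul_of_nonneg_left h (inv_pos.2 hpos).le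
        _ = dist p p' := by rw [← mul_assoc, inv_mul_cancel₀ hpos.ne', one_mul]
        _ ≤ 51 / 25 * dist p p' := by linarith
    · rw [norm_smul, Real.norm_eq_abs, abs_of_pos (inv_pos.2 hpos)]
      calc K'⁻¹ * ‖G‖ ≤ K'⁻¹ * (K' * 1000 ^ l) := mul_le_mul_of_nonneg_left hG (inv_pos.2 hpos).le
        _ = 1000 ^ l := by rw [← mul_assoc, inv_mul_cancel₀ hpos.ne', one_mul]
  have h := Fr.le_qs hadm x
  rw [smul_apply, smul_eq_mul, abs_mul, abs_of_pos (inv_pos.2 hpos)] at h
  rw [div_eq_inv_mul]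
  exact h

end Crest.Agent.R091
end

-- ▼ part R091/Flat
section

/-!
# Row 91: pure function lemmas

`clip`, `soft`, `tent`, the flattening steps of cases A and B and sums of functions with disjoint
or boundedly overlapping supports.  `LipK K f` is `|f x - f y| ≤ K * dist x y`.
-/

namespace Crest.Agent.R091.Flat

variable {P : Type*} [PseudoMetricSpace P]

/-- `f` is `K`-Lipschitz -/
def LipK (K : ℝ) (f : P → ℝ) : Prop := ∀ x y, |f x - f y| ≤ K * dist x y

theorem LipK.mono {K K' : ℝ} {f : P → ℝ} (h : LipK K f) (hK : K ≤ K') : LipK K' f :=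
  fun x y => (h x y).trans (mul_le_mul_of_nonneg_right hK dist_nonneg)

theorem LipK.const (c : ℝ) {K : ℝ} (hK : 0 ≤ K) : LipK K (fun _ : P => c) := by
  intro x y; simp only [sub_self, abs_zero]; positivity

theorem LipK.add {K L : ℝ} {f g : P → ℝ} (hf : LipK K f) (hg : LipK L g) :
    LipK (K + L) (fun x => f x + g x) := by
  intro x y
  have h1 := hf x y; have h2 := hg x y
  have : f x + g x - (f y + g y) = (f x - f y) + (g x - g y) := by ring
  rw [this]
  calc |(f x - f y) + (g x - g y)| ≤ |f x - f y| + |g x - g y| := abs_add_le _ _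
    _ ≤ K * dist x y + L * dist x y := add_le_add h1 h2
    _ = (K + L) * dist x y := by ring

theorem LipK.smul {K : ℝ} {f : P → ℝ} (hf : LipK K f) (a : ℝ) :
    LipK (|a| * K) (fun x => a * f x) := by
  intro x y
  rw [← mul_sub, abs_mul, mul_assoc]
  exact mul_le_mul_of_nonneg_left (hf x y) (abs_nonneg a)

theorem LipK.neg {K : ℝ} {f : P → ℝ} (hf : LipK K f) : LipK K (fun x => - f x) := by
  intro x y
  rw [neg_sub_neg, abs_sub_comm]; exact hf x y

theorem LipK.sub {K L : ℝ} {f g : P → ℝ} (hf : LipK K f) (hg : LipK L g) :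
    LipK (K + L) (fun x => f x - g x) := by
  have := hf.add hg.neg
  simpa [sub_eq_add_neg] using this




























/-- sum of Lipschitz functions with boundedly overlapping supports -/
theorem lip_overlap_sum {ι : Type*} [DecidableEq ι] (A : Finset ι) {C : ℝ} (hC : 0 ≤ C) (N : ℕ)
    (f : ι → P → ℝ) (hf : ∀ i ∈ A, LipK C (f i))
    (hd : ∀ v, ∃ B : Finset ι, B.card ≤ N ∧ ∀ i ∈ A, f i v ≠ 0 → i ∈ B) :
    LipK (2 * N * C) (fun v => ∑ i ∈ A, f i v) := by
  intro x y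
  obtain ⟨Bx, hBx, hx⟩ := hd x
  obtain ⟨By, hBy, hy⟩ := hd y
  have h1 : (∑ i ∈ A, f i x) - ∑ i ∈ A, f i y = ∑ i ∈ A ∩ (Bx ∪ By), (f i x - f i y) := by
    rw [← Finset.sum_sub_distrib]
    symm
    apply Finset.sum_subset Finset.inter_subset_left
    intro i hi hni
    have h2 : i ∉ Bx ∧ i ∉ By := by
      constructor
      · intro h; exact hni (Finset.mem_inter.2 ⟨hi, Finset.mem_union_left _ h⟩)
      · intro h; exact hni (Finset.mem_inter.2 ⟨hi, Finset.mem_union_right _ h⟩)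
    have h3 : f i x = 0 := by by_contra h; exact h2.1 (hx i hi h)
    have h4 : f i y = 0 := by by_contra h; exact h2.2 (hy i hi h)
    rw [h3, h4, sub_zero]
  show |(∑ i ∈ A, f i x) - ∑ i ∈ A, f i y| ≤ _
  rw [h1]
  refine (Finset.abs_sum_le_sum_abs _ _).trans ?_
  have h2 : ∀ i ∈ A ∩ (Bx ∪ By), |f i x - f i y| ≤ C * dist x y :=
    fun i hi => hf i (Finset.mem_inter.1 hi).1 x y
  refine (Finset.sum_le_card_nsmul _ _ _ h2).trans ?_
  rw [nsmul_eq_mul]
  have h3 : ((A ∩ (Bx ∪ By)).card : ℝ) ≤ 2 * N := by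
    have h4 : (A ∩ (Bx ∪ By)).card ≤ Bx.card + By.card :=
      (Finset.card_le_card Finset.inter_subset_right).trans (Finset.card_union_le _ _)
    have h5 : (A ∩ (Bx ∪ By)).card ≤ 2 * N := by omega
    exact_mod_cast h5
  calc ((A ∩ (Bx ∪ By)).card : ℝ) * (C * dist x y) ≤ (2 * N) * (C * dist x y) :=
        mul_le_mul_of_nonneg_right h3 (mul_nonneg hC dist_nonneg)
    _ = 2 * N * C * dist x y := by ring



end Crest.Agent.R091.Flat
end

-- ▼ part R091/Cases1
section

/-!
# Row 91: cases V-flat, U-flat, U-overlap (helper50)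
-/

set_option autoImplicit false

namespace Crest.Agent.R091.Cases

open Filter
open scoped Topology ZeroAtInfty
open Crest.Agent.R091.Sel

section
variable {ι F : Type} [TopologicalSpace ι] [DiscreteTopology ι] [NormedAddCommGroup F]
  [NormedSpace ℝ F]

/-- evaluation on `C₀` -/
noncomputable def evC (i : ι) : C₀(ι, F) →L[ℝ] F :=
  LinearMap.mkContinuous
    { toFun := fun f => f i, map_add' := fun _ _ => rfl, map_smul' := fun _ _ => rfl } 1
    (fun f => by rw [one_mul]; exact norm_apply_le_c0 f i)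

@[simp] theorem evC_apply (i : ι) (f : C₀(ι, F)) : evC i f = f i := rfl


end

/-- the functional `⟨f, z(V_n)⟩` -/
noncomputable def fn (n : ℕ) (f : V) : E →L[ℝ] ℝ :=
  (innerSL ℝ f).comp ((evC n).comp (ContinuousLinearMap.fst ℝ Vs C₀(Sg, ℝ)))

@[simp] theorem fn_apply (n : ℕ) (f : V) (z : E) : fn n f z = inner ℝ f (z.1 n) := rfl

theorem abs_fn_le (n : ℕ) (f : V) (z : E) : |fn n f z| ≤ ‖f‖ * ‖z.1 n‖ := by
  rw [fn_apply]; exact abs_real_inner_le_norm _ _

theorem norm_fn_le (n : ℕ) (f : V) : ‖fn n f‖ ≤ ‖f‖ := by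
  refine ContinuousLinearMap.opNorm_le_bound _ (norm_nonneg _) fun z => ?_
  refine (abs_fn_le n f z).trans (mul_le_mul_of_nonneg_left ?_ (norm_nonneg _))
  exact (norm_apply_le_c0 z.1 n).trans (_root_.norm_fst_le z)

/-- the coordinate functional -/
noncomputable def fs (σ : Sg) : E →L[ℝ] ℝ :=
  (evC σ).comp (ContinuousLinearMap.snd ℝ Vs C₀(Sg, ℝ))

@[simp] theorem fs_apply (σ : Sg) (z : E) : fs σ z = z.2 σ := rfl

theorem norm_fs_le (σ : Sg) : ‖fs σ‖ ≤ 1 := by
  refine ContinuousLinearMap.opNorm_le_bound _ zero_le_one fun z => ?_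
  rw [one_mul]
  exact (norm_apply_le_c0 z.2 σ).trans (_root_.norm_snd_le z)

variable {H : Type} [NormedAddCommGroup H] [InnerProductSpace ℝ H]

/-- `βP` is the map with the right coordinates -/
structure IsBeta (X : Ctx H) (βP : P H → E) : Prop where
  b1 : ∀ p n, (βP p).1 n = beta X n p
  b2 : ∀ p σ, (βP p).2 σ = Phi X σ p

theorem tendsto_of_inj {z : E} {σ : ℕ → Sg} (hσ : Tendsto σ atTop cofinite) :
    Tendsto (fun i => z.2 (σ i)) atTop (𝓝 0) :=
  (tendsto_cofinite_c0 z.2).comp hσ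

theorem tendsto_level {z : E} {n : ℕ → ℕ} (hn : Tendsto n atTop atTop) :
    Tendsto (fun i => ‖z.1 (n i)‖) atTop (𝓝 0) := by
  have h := tendsto_cofinite_c0 z.1
  rw [Nat.cofinite_eq_atTop] at h
  exact tendsto_zero_iff_norm_tendsto_zero.1 (h.comp hn)

/-- coordinates of a sequence with bounded signed sums tend to zero -/
theorem BSS_coord {z : ℕ → E} {M : ℝ} (h : BSS z M) (G : E →L[ℝ] ℝ) :
    Tendsto (fun i => G (z i)) atTop (𝓝 0) := h.tendsto_clm G

theorem BSS_level {z : ℕ → E} {M : ℝ} (h : BSS z M) (n : ℕ) :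
    Tendsto (fun i => (z i).1 n) atTop (𝓝 0) :=
  h.tendsto_clm ((evC n).comp (ContinuousLinearMap.fst ℝ Vs C₀(Sg, ℝ)) : E →L[ℝ] V)

/-- if a coordinate is `≥ c/2` on the index `n i`, then `n i → ∞` -/
theorem tendsto_index {α : Type} (g : ℕ → α → ℝ) (n : ℕ → α) {c : ℝ} (hc : 0 < c)
    (h1 : ∀ i, c ≤ g i (n i)) (h2 : ∀ a, Tendsto (fun i => g i a) atTop (𝓝 0)) :
    Tendsto n atTop cofinite := by
  refine le_cofinite_iff_eventually_ne.2 fun a => ?_
  rw [eventually_map]
  have h3 := (Metric.tendsto_nhds.1 (h2 a)) c hc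
  filter_upwards [h3] with i hi hia
  rw [Real.dist_eq, sub_zero] at hi
  have := h1 i
  rw [hia] at this
  linarith [le_abs_self (g i a)]

/-- **V-flat** -/
theorem pre_Vflat {X : Ctx H} {βP : P H → E} (hβ : IsBeta X βP) {z : ℕ → E} {M : ℝ}
    (hz : BSS z M) {c : ℝ} (hc : 0 < c) (n : ℕ → ℕ) (hn : ∀ i, c / 2 ≤ ‖(z i).1 (n i)‖)
    (hflat : ∀ m : ℕ, 1 ≤ m → ∃ᶠ i in atTop, ∀ (k : ℤ) (cc : Fin (n i) → ℤ),
      ‖restr (win (n i) k cc) ((z i).1 (n i))‖ ≤ (1 / m : ℝ) * ‖(z i).1 (n i)‖) :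
    Pre βP z := by
  have hnt : Tendsto n atTop atTop := by
    rw [← Nat.cofinite_eq_atTop]
    rw [Nat.cofinite_eq_atTop]
    have := tendsto_index (fun i a => ‖(z i).1 a‖) n (half_pos hc) hn
      (fun a => tendsto_zero_iff_norm_tendsto_zero.1 (BSS_level hz a))
    rwa [Nat.cofinite_eq_atTop] at this
  refine Pre.of_select (c / 2) 12 (half_pos hc) (by norm_num) fun m hm => ?_
  have hm' : (0 : ℝ) < m := by exact_mod_cast hm
  have hpos : ∀ i, 0 < ‖(z i).1 (n i)‖ := fun i => lt_of_lt_of_le (half_pos hc) (hn i)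
  have hunit : ∀ i, ‖(‖(z i).1 (n i)‖⁻¹ • (z i).1 (n i) : V)‖ = 1 := by
    intro i
    rw [norm_smul, norm_inv, norm_norm, inv_mul_cancel₀ (hpos i).ne']
  refine ⟨fun i => fn (n i) (‖(z i).1 (n i)‖⁻¹ • (z i).1 (n i)),
    {i | ∀ (k : ℤ) (cc : Fin (n i) → ℤ),
      ‖restr (win (n i) k cc) ((z i).1 (n i))‖ ≤ (1 / m : ℝ) * ‖(z i).1 (n i)‖},
    fun _ _ => True, hflat m hm, fun j => BSS_coord hz _, ?_, fun _ => by simp, ?_, ?_, ?_⟩
  · intro j
    rw [tendsto_zero_iff_norm_tendsto_zero]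
    refine squeeze_zero (fun _ => norm_nonneg _) (fun i => ?_) (tendsto_level (z := z j) hnt)
    refine (abs_fn_le _ _ _).trans ?_
    rw [hunit i, one_mul]
  · intro i
    exact (norm_fn_le _ _).trans (hunit i).le
  · intro i _
    rw [fn_apply, inner_smul_left, real_inner_self_eq_norm_sq]
    simp only [map_inv₀, conj_trivial]
    rw [pow_two, inv_mul_cancel_left₀ (hpos i).ne']
    exact hn i
  · intro A hA hAc _ p q
    refine (Finset.abs_sum_le_sum_abs _ _).trans ?_
    have h1 : ∀ i ∈ A, |fn (n i) (‖(z i).1 (n i)‖⁻¹ • (z i).1 (n i)) (βP p) -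
        fn (n i) (‖(z i).1 (n i)‖⁻¹ • (z i).1 (n i)) (βP q)| ≤ 12 * (1 / m) * dist p q := by
      intro i hi
      rw [fn_apply, fn_apply, hβ.b1, hβ.b1, dist_eq_norm]
      refine flat_lip X (n i) _ (1 / m) (by positivity) (fun k cc => ?_) p q
      have e : restr (win (n i) k cc) (‖(z i).1 (n i)‖⁻¹ • (z i).1 (n i)) =
          ‖(z i).1 (n i)‖⁻¹ • restr (win (n i) k cc) ((z i).1 (n i)) := by
        apply lp.ext; funext κ
        simp only [restr_apply, lp.coeFn_smul, Pi.smul_apply]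
        by_cases hκ : κ ∈ win (n i) k cc
        · simp [Set.indicator_of_mem hκ]
        · simp [Set.indicator_of_notMem hκ]
      rw [e, norm_smul, norm_inv, norm_norm, inv_mul_le_iff₀ (hpos i)]
      have := hA i hi k cc
      linarith
    refine (Finset.sum_le_card_nsmul _ _ _ h1).trans ?_
    rw [hAc, nsmul_eq_mul]
    apply le_of_eq
    field_simp

/-- sign making a real number nonnegative -/
theorem exists_sign (x : ℝ) : ∃ s : ℝ, |s| = 1 ∧ s * x = |x| := by
  rcases le_total 0 x with h | h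
  · exact ⟨1, by simp, by rw [one_mul, abs_of_nonneg h]⟩
  · exact ⟨-1, by simp, by rw [abs_of_nonpos h]; ring⟩

/-- **U-flat** -/
theorem pre_Uflat {X : Ctx H} {βP : P H → E} (hβ : IsBeta X βP) {z : ℕ → E} {M : ℝ}
    (hz : BSS z M) {c : ℝ} (hc : 0 < c) (σ : ℕ → Sg) (hσ : ∀ i, c / 2 ≤ |(z i).2 (σ i)|)
    (hflat : ∀ D : ℕ, ∃ᶠ i in atTop, D ≤ (σ i).2.2.2.2.2) : Pre βP z := by
  have hσt : Tendsto σ atTop cofinite :=
    tendsto_index (fun i a => |(z i).2 a|) σ (half_pos hc) hσ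
      (fun a => by simpa using (BSS_coord hz (fs a)).abs)
  choose s hs1 hs2 using fun i => exists_sign ((z i).2 (σ i))
  refine Pre.of_select (c / 2) 1 (half_pos hc) le_rfl fun m hm => ?_
  have hm' : (0 : ℝ) < m := by exact_mod_cast hm
  obtain ⟨D, hD⟩ := ((Metric.tendsto_nhds.1 PhiAux.tendsto_ep) (1 / (2 * m))
    (by positivity)).exists_forall_of_atTop
  refine ⟨fun i => s i • fs (σ i), {i | D ≤ (σ i).2.2.2.2.2}, fun _ _ => True, hflat D,
    fun j => BSS_coord hz _, ?_, fun _ => by simp, ?_, ?_, ?_⟩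
  · intro j
    rw [tendsto_zero_iff_norm_tendsto_zero]
    have h0 := (tendsto_zero_iff_norm_tendsto_zero.1 (tendsto_of_inj (z := z j) hσt))
    refine h0.congr fun i => ?_
    rw [smul_apply, norm_smul, Real.norm_eq_abs (s i), hs1, one_mul, fs_apply]
  · intro i
    rw [norm_smul, Real.norm_eq_abs, hs1, one_mul]; exact norm_fs_le _
  · intro i _
    rw [smul_apply, smul_eq_mul, fs_apply, hs2]; exact hσ i
  · intro A hA hAc _ p q
    refine (Finset.abs_sum_le_sum_abs _ _).trans ?_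
    have h1 : ∀ i ∈ A, |(s i • fs (σ i)) (βP p) - (s i • fs (σ i)) (βP q)| ≤
        1 / m * dist p q := by
      intro i hi
      rw [smul_apply, smul_apply, smul_eq_mul, smul_eq_mul, ← mul_sub, abs_mul, hs1, one_mul,
        fs_apply, fs_apply, hβ.b2, hβ.b2, dist_eq_norm]
      have h2 := hD _ (hA i hi)
      rw [Real.dist_eq, sub_zero, abs_of_pos (PhiAux.ep_pos _)] at h2
      rcases hσi : σ i with ⟨n, g, a, cc, k, d⟩
      refine (abs_Phi_sub_le X n g a cc k d p q).trans ?_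
      refine mul_le_mul_of_nonneg_right ?_ (norm_nonneg _)
      have h3 : ep d < 1 / (2 * m) := by
        have : (σ i).2.2.2.2.2 = d := by rw [hσi]
        rw [this] at h2; exact h2
      have h4 : 1 / (2 * (m : ℝ)) = 1 / m / 2 := by field_simp
      rw [h4] at h3
      linarith
    refine (Finset.sum_le_card_nsmul _ _ _ h1).trans ?_
    rw [hAc, nsmul_eq_mul]
    apply le_of_eq
    field_simp

/-- **U-overlap** -/
theorem pre_Uoverlap {X : Ctx H} {βP : P H → E} (hβ : IsBeta X βP) {z : ℕ → E} {M : ℝ}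
    (hz : BSS z M) {c : ℝ} (hc : 0 < c) (σ : ℕ → Sg) (hσ : ∀ i, c / 2 ≤ |(z i).2 (σ i)|)
    (n d : ℕ) (hn : ∀ i, (σ i).1 = n) (hd : ∀ i, (σ i).2.2.2.2.2 = d) : Pre βP z := by
  classical
  have hσt : Tendsto σ atTop cofinite :=
    tendsto_index (fun i a => |(z i).2 a|) σ (half_pos hc) hσ
      (fun a => by simpa using (BSS_coord hz (fs a)).abs)
  choose s hs1 hs2 using fun i => exists_sign ((z i).2 (σ i))
  obtain ⟨N, hN⟩ := Phi_overlap X n d
  refine Pre.of_select (c / 2) (max 1 (2 * N * (2 * ep d))) (half_pos hc) (le_max_left _ _)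
    fun m hm => ?_
  refine ⟨fun i => s i • fs (σ i), Set.univ, fun i j => σ j ≠ σ i,
    Frequently.of_forall fun i => Set.mem_univ i,
    fun j => BSS_coord hz _, ?_, ?_, ?_, ?_, ?_⟩
  · intro j
    rw [tendsto_zero_iff_norm_tendsto_zero]
    have h0 := (tendsto_zero_iff_norm_tendsto_zero.1 (tendsto_of_inj (z := z j) hσt))
    refine h0.congr fun i => ?_
    rw [smul_apply, norm_smul, Real.norm_eq_abs (s i), hs1, one_mul, fs_apply]
  · intro j
    exact eventually_map.1 ((le_cofinite_iff_eventually_ne.1 hσt) (σ j))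
  · intro i
    rw [norm_smul, Real.norm_eq_abs, hs1, one_mul]; exact norm_fs_le _
  · intro i _
    rw [smul_apply, smul_eq_mul, fs_apply, hs2]; exact hσ i
  · intro A _ _ hR p q
    have hinj : ∀ i ∈ A, ∀ j ∈ A, σ i = σ j → i = j := by
      intro i hi j hj hij
      by_contra hne
      rcases lt_or_gt_of_ne hne with h | h
      · exact hR i hi j hj h hij.symm
      · exact hR j hj i hi h hij
    have h1 := Flat.lip_overlap_sum (P := P H) A (C := 2 * ep d)
      (by have := PhiAux.ep_pos d; positivity) N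
      (fun i v => s i * Phi X (σ i) v) (by
        intro i _ x y
        show |s i * Phi X (σ i) x - s i * Phi X (σ i) y| ≤ _
        rw [← mul_sub, abs_mul, hs1, one_mul, dist_eq_norm]
        have e2 := hd i
        rcases hσi : σ i with ⟨n', g, a, cc, k, d'⟩
        rw [hσi] at e2
        simp only at e2
        rw [← e2]
        exact abs_Phi_sub_le X n' g a cc k d' x y) (by
        intro v
        refine ⟨A.filter (fun i => s i * Phi X (σ i) v ≠ 0), ?_, fun i hi h => by
          rw [Finset.mem_filter]; exact ⟨hi, h⟩⟩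
        have h2 : ((A.filter (fun i => s i * Phi X (σ i) v ≠ 0)).image σ).card ≤ N := by
          apply hN v
          intro τ hτ
          rw [Finset.mem_image] at hτ
          obtain ⟨i, hi, rfl⟩ := hτ
          rw [Finset.mem_filter] at hi
          exact ⟨hn i, hd i, right_ne_zero_of_mul hi.2⟩
        rwa [Finset.card_image_of_injOn] at h2
        intro i hi j hj hij
        rw [Finset.coe_filter] at hi hj
        exact hinj i hi.1 j hj.1 hij)
    have h2 := h1 p q
    have e3 : ∑ i ∈ A, ((s i • fs (σ i)) (βP p) - (s i • fs (σ i)) (βP q)) =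
        (∑ i ∈ A, s i * Phi X (σ i) p) - ∑ i ∈ A, s i * Phi X (σ i) q := by
      rw [← Finset.sum_sub_distrib]
      refine Finset.sum_congr rfl fun i _ => ?_
      rw [smul_apply, smul_apply, smul_eq_mul, smul_eq_mul, fs_apply, fs_apply, hβ.b2, hβ.b2]
    rw [e3]
    refine h2.trans (mul_le_mul_of_nonneg_right (le_max_right _ _) dist_nonneg)

end Crest.Agent.R091.Cases
end

-- ▼ part R091/Phi2
section

/-! # Row 91, module Phi2: cells (`sfun`, `fV_loc`, `fV_height`), `tent` and `soft` -/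

set_option autoImplicit false
set_option linter.unusedSectionVars false

namespace Crest.Agent.R091

open Filter
open scoped Topology ZeroAtInfty

/-! ### tent and soft -/




















/-! ### parameters -/

theorem sc_pos (k : ℤ) : 0 < sc k := Real.exp_pos _

theorem Lam_pos : 0 < Lam := Real.exp_pos _

theorem one_le_Lam : 1 ≤ Lam := by
  unfold Lam
  exact Real.one_le_exp (by norm_num)








theorem ep_pos (d : ℕ) : 0 < ep d := by unfold ep; positivity

/-! ### cells -/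

section
variable {H : Type} [NormedAddCommGroup H] [InnerProductSpace ℝ H]

theorem sfun_le_iff (X : Ctx H) (n : ℕ) (k : ℤ) (c : Fin n → ℤ) (d : ℕ) (v : ℕ → HV H) (r : ℝ) :
    sfun X n k c d v ≤ r * sc k ↔
      1 / rr d - ‖v n‖ / sc k ≤ 2 * r ∧ ‖v n‖ / sc k - rr d ≤ 2 * r ∧
        ∀ i : Fin n, |om i * obs X i v / sc (k + 1) - c i| - rho d ≤ 2 * r := by
  have hs := sc_pos k
  unfold sfun
  rw [show r * sc k = (1 / 2 * sc k) * (2 * r) by ring, mul_le_mul_iff_right₀ (by positivity),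
    Finset.sup'_le_iff]
  constructor
  · intro h
    have h0 := h none (Finset.mem_univ _)
    simp only [max_le_iff] at h0
    exact ⟨h0.1, h0.2, fun i => h (some i) (Finset.mem_univ _)⟩
  · rintro ⟨h1, h2, h3⟩ j _
    cases j with
    | none => exact max_le h1 h2
    | some i => exact h3 i






/-- an active node in the window -/
theorem fV_active (X : Ctx H) (n : ℕ) (k : ℤ) (c : Fin n → ℤ) (s : ℕ) (v : ℕ → HV H)
    (h : inner ℝ (fV X ⟨n, (k, c, s)⟩) (beta X n v) ≠ 0) :
    v n ≠ 0 ∧ ∃ κ ∈ win n k c, (th X n v) κ ≠ 0 := by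
  constructor
  · intro h0
    apply h
    have : beta X n v = 0 := by
      unfold beta
      rw [h0]
      have hu : uu X.J (tens (th X n v)) (0 : HV H) = 0 := by
        have := uu_sub X.J (tens (th X n v)) (0 : HV H) 0
        simpa using this
      rw [hu, map_zero]
    rw [this, inner_zero_right]
  · by_contra hc
    push Not at hc
    apply h
    rw [lp.inner_eq_tsum]
    have : ∀ κ : Node, inner ℝ ((fV X ⟨n, (k, c, s)⟩) κ) ((beta X n v) κ) = 0 := by
      intro κ
      by_cases hκ : κ ∈ win n k c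
      · have h1 := hc κ hκ
        have h2 : (beta X n v) κ = 0 := by
          unfold beta
          rw [tens_apply, h1, zero_smul]
        rw [h2, inner_zero_right]
      · have h2 : (fV X ⟨n, (k, c, s)⟩) κ = 0 := by
          unfold fV
          split_ifs
          · rw [restr_apply]
            exact Set.indicator_of_notMem hκ _
          · rfl
        rw [h2, inner_zero_left]
    simp only [this, tsum_zero]

theorem fV_bounds (X : Ctx H) (n : ℕ) (k : ℤ) (c : Fin n → ℤ) (s : ℕ) (v : ℕ → HV H)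
    (h : inner ℝ (fV X ⟨n, (k, c, s)⟩) (beta X n v) ≠ 0) :
    1 / Lam < ‖v n‖ / sc k ∧ ‖v n‖ / sc k < Lam ∧
      ∀ i : Fin n, |om i * obs X i v / sc (k + 1) - c i| ≤ 2 := by
  obtain ⟨h0, κ, ⟨c', hκ, hcc⟩, hth⟩ := fV_active X n k c s v h
  obtain ⟨_, h2, h3⟩ := theta_ne_zero (n := n) (y := fun i => obs X i v) (t := ‖v n‖) (κ := κ) hth
  subst hκ
  have hn : 0 < ‖v n‖ := norm_pos_iff.2 h0
  have hs := sc_pos k
  simp only [] at h2 h3
  have h4 := (abs_lt.1 h2).1
  have h5 := (abs_lt.1 h2).2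
  have hexp : Real.exp (Real.log ‖v n‖) = ‖v n‖ := Real.exp_log hn
  refine ⟨?_, ?_, fun i => ?_⟩
  · rw [lt_div_iff₀ hs, one_div, ← hexp]
    unfold Lam sc
    rw [← Real.exp_neg, ← Real.exp_add]
    exact Real.exp_lt_exp.2 (by linarith)
  · rw [div_lt_iff₀ hs, ← hexp]
    unfold Lam sc
    rw [← Real.exp_add]
    exact Real.exp_lt_exp.2 (by linarith)
  · have h6 := h3 i
    have h7 := hcc i
    have h8 : |((c' i : ℤ) : ℝ) - (c i : ℝ)| ≤ 1 := by
      have : ((|c' i - c i| : ℤ) : ℝ) ≤ ((1 : ℤ) : ℝ) := by exact_mod_cast h7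
      push_cast at this
      exact this
    have e : om i * obs X i v / sc (k + 1) - c i
        = (om i * obs X i v / sc (k + 1) - c' i) + ((c' i : ℝ) - c i) := by ring
    rw [e]
    refine (abs_add_le _ _).trans ?_
    have h9 : |om i * obs X i v / sc (k + 1) - c' i| < 1 := h6
    linarith

/-- the functionals of the levels `V_n` are localized, with flattening depth `0` -/
theorem fV_loc (X : Ctx H) (n : ℕ) (k : ℤ) (c : Fin n → ℤ) (s : ℕ) (v : ℕ → HV H)
    (h : inner ℝ (fV X ⟨n, (k, c, s)⟩) (beta X n v) ≠ 0) :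
    sfun X n k c 0 v ≤ -(sc k / (2 * rr 0)) := by
  obtain ⟨h1, h2, h3⟩ := fV_bounds X n k c s v h
  have hL := one_le_Lam
  have hL0 := Lam_pos
  have hr : rr 0 = 2 * Lam := by unfold rr; norm_num
  have e : -(sc k / (2 * rr 0)) = (-(1 / (2 * rr 0))) * sc k := by ring
  rw [e, sfun_le_iff, hr]
  have hi : 1 / Lam ≤ 1 := by rw [div_le_one hL0]; exact hL
  have hi0 : 0 < 1 / Lam := by positivity
  have e1 : 2 * -(1 / (2 * (2 * Lam))) = - (1 / 2) * (1 / Lam) := by field_simp
  have e2 : 1 / (2 * Lam) = (1 / 2) * (1 / Lam) := by field_simp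
  rw [e1, e2]
  refine ⟨by linarith, by linarith, fun i => ?_⟩
  have h4 := h3 i
  have h5 : rho 0 = 3 := by unfold rho; norm_num
  rw [h5]
  linarith

theorem fV_height (X : Ctx H) (n : ℕ) (k : ℤ) (c : Fin n → ℤ) (s : ℕ) (v : ℕ → HV H) :
    |inner ℝ (fV X ⟨n, (k, c, s)⟩) (beta X n v)| ≤ 2 * Lam * sc k := by
  by_cases h : inner ℝ (fV X ⟨n, (k, c, s)⟩) (beta X n v) = 0
  · rw [h, abs_zero]
    have := Lam_pos
    have := sc_pos k
    positivity
  · obtain ⟨_, h2, _⟩ := fV_bounds X n k c s v h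
    have hs := sc_pos k
    rw [div_lt_iff₀ hs] at h2
    have hf : ‖fV X ⟨n, (k, c, s)⟩‖ ≤ 1 := by
      unfold fV
      split_ifs with h
      · exact h
      · rw [norm_zero]; exact zero_le_one
    have hiso : ∀ y, ‖tens (th X n v) y‖ = ‖y‖ := by
      intro y
      rw [norm_tens_apply]
      unfold th
      rw [norm_theta, one_mul]
    have hb : ‖beta X n v‖ ≤ 2 * ‖v n‖ := by
      unfold beta
      rw [hiso]
      exact norm_uu_le X.J _ hiso (v n)
    calc |inner ℝ (fV X ⟨n, (k, c, s)⟩) (beta X n v)| ≤ ‖fV X ⟨n, (k, c, s)⟩‖ * ‖beta X n v‖ :=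
          abs_real_inner_le_norm _ _
      _ ≤ 1 * (2 * ‖v n‖) := mul_le_mul hf hb (norm_nonneg _) zero_le_one
      _ ≤ 2 * Lam * sc k := by linarith

end

end Crest.Agent.R091
end

-- ▼ part R091/CasesV
section

/-! # Row 91, module CasesV: the V-case, up to `Sel.Pre` (helper935) -/

set_option autoImplicit false

namespace Crest.Agent.R091

open Filter
open scoped Topology ZeroAtInfty

variable {H : Type} [NormedAddCommGroup H] [InnerProductSpace ℝ H]

theorem isBeta_betaP' (X : Ctx H) : Cases.IsBeta X (betaP X) := ⟨fun _ _ => rfl, fun _ _ => rfl⟩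

/-- V-loc: every term has a window with a proportional part of the norm -/
theorem pre_Vloc (X : Ctx H) {z : ℕ → E} {K c η : ℝ} (hc : 0 < c) (hη : 0 < η)
    (hb : Sel.BSS z K) (n : ℕ → ℕ) (hn : ∀ i, c ≤ ‖(z i).1 (n i)‖)
    (hloc : ∀ i, ∃ (k : ℤ) (cc : Fin (n i) → ℤ),
      η * ‖(z i).1 (n i)‖ < ‖restr (win (n i) k cc) ((z i).1 (n i))‖) :
    Sel.Pre (betaP X) z := by
  have hnt : Tendsto n atTop atTop := by
    have := Cases.tendsto_index (fun i a => ‖(z i).1 a‖) n hc hn
      (fun a => tendsto_zero_iff_norm_tendsto_zero.1 (Cases.BSS_level hb a))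
    rwa [Nat.cofinite_eq_atTop] at this
  choose k cc hk using hloc
  have hex : ∀ i, ∃ s : ℕ, η * c ≤ inner ℝ (fV X ⟨n i, (k i, cc i, s)⟩) ((z i).1 (n i)) := by
    intro i
    apply exists_fV X (n i) (k i) (cc i) _ (η * c)
    exact lt_of_le_of_lt (mul_le_mul_of_nonneg_left (hn i) hη.le) (hk i)
  choose s hs using hex
  have hL := PhiAux.Lam_pos
  have hrr : rr 0 = 2 * Lam := by unfold rr; norm_num
  have hK0 : (0 : ℝ) ≤ K0 := Nat.cast_nonneg _
  have hep := PhiAux.ep_pos 0
  refine ⟨η * c, K0 + 1, 1 + (K0 + 1) / ep 0, mul_pos hη hc, by linarith, ?_, fun m _ => ?_⟩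
  · have : 0 ≤ ((K0 : ℝ) + 1) / ep 0 := by positivity
    linarith
  obtain ⟨A, ε, G, h1, h2, h3, h4⟩ := chain_apply X z
    (fun b => Cases.BSS_coord hb (evB X b)) (fun i => Sum.inl ⟨n i, (k i, cc i, s i)⟩) n k cc 0
    (2 * Lam) (η * c) (fun _ => rfl) hnt (by positivity) (by
      rw [hrr]
      have h1 : 16 * Lam ^ 2 ≤ (⌈16 * Lam ^ 2⌉₊ : ℝ) := Nat.le_ceil _
      unfold K0
      push_cast
      nlinarith) (by positivity) (fun i => (hs i).trans (le_abs_self _))
    (fun i p => fV_height X (n i) (k i) (cc i) (s i) p)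
    (fun i p h => fV_loc X (n i) (k i) (cc i) (s i) p h) m
  exact ⟨A, ε, G, h1, by rw [mul_comm]; exact h2, h3, h4⟩

/-- V-case -/
theorem pre_V (X : Ctx H) {z : ℕ → E} {K c : ℝ} (hc : 0 < c) (hb : Sel.BSS z K)
    (n : ℕ → ℕ) (hn : ∀ i, c ≤ ‖(z i).1 (n i)‖) : Sel.Pre (betaP X) z := by
  by_cases hflat : ∀ m : ℕ, 1 ≤ m → ∃ᶠ i in atTop, ∀ (k : ℤ) (cc : Fin (n i) → ℤ),
      ‖restr (win (n i) k cc) ((z i).1 (n i))‖ ≤ (1 / m : ℝ) * ‖(z i).1 (n i)‖
  · exact Cases.pre_Vflat (isBeta_betaP' X) hb (c := 2 * c) (by positivity) n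
      (fun i => by rw [mul_div_cancel_left₀ c (two_ne_zero)]; exact hn i) hflat
  · push Not at hflat
    obtain ⟨m, hm, hf⟩ := hflat
    have hm' : (0 : ℝ) < m := by exact_mod_cast hm
    obtain ⟨N, hN⟩ := hf.exists_forall_of_atTop
    have hinj : Function.Injective fun i : ℕ => i + N := add_left_injective N
    refine Sel.Pre.of_comp (φ := fun i => i + N) hinj ?_
    exact pre_Vloc X (K := K) hc (η := 1 / m) (by positivity) (hb.comp hinj)
      (fun i => n (i + N)) (fun i => hn _) (fun i => hN (i + N) (Nat.le_add_left _ _))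

end Crest.Agent.R091
end

-- ▼ part R091/LargeV
section

/-! # Row 91, module LargeV: the V-case (helper935) -/

set_option autoImplicit false

namespace Crest.Agent.R091

open Filter
open scoped Topology ZeroAtInfty

variable {H : Type} [NormedAddCommGroup H] [InnerProductSpace ℝ H]

/-- from the intermediate goal `Sel.Pre` to `Good` -/
theorem Good.of_pre (X : Ctx H) {z : ℕ → E} (h : Sel.Pre (betaP X) z) : Good X z := by
  intro N
  obtain ⟨l, A, ε, G, h1, h2, h3, h4⟩ := h.finish N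
  refine ⟨l, A, ε, h1, ?_⟩
  have h5 := q_ge X l G 1 le_rfl (by rwa [one_mul])
    (fun p p' => (h3 p p').trans (by rw [one_mul])) (∑ i ∈ A, ε i • z i)
  rw [div_one] at h5
  have hw : Fr.Par.wt l = (1 / 2 : ℝ) ^ (l + 1) := by
    unfold Fr.Par.wt
    rw [pow_succ, one_div_pow, div_eq_mul_one_div, mul_comm]
  rw [hw]
  exact h4.trans (mul_le_mul_of_nonneg_left ((le_abs_self _).trans h5) (by positivity))

/-- V-case -/
theorem good_V (X : Ctx H) (z : ℕ → E) (K c : ℝ) (hc : 0 < c) (hb : BddSigned z K)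
    (n : ℕ → ℕ) (hn : ∀ i, c ≤ ‖(z i).1 (n i)‖) : Good X z :=
  Good.of_pre X (pre_V X hc (K := K) hb n hn)

end Crest.Agent.R091
end

-- ▼ part R091/LargeU
section

/-! # Row 91, module LargeU: the U-cases -/

set_option autoImplicit false

namespace Crest.Agent.R091

open Filter
open scoped Topology ZeroAtInfty
open Crest.Agent.R091.Sel

variable {H : Type} [NormedAddCommGroup H] [InnerProductSpace ℝ H]

theorem isBeta_betaP (X : Ctx H) : Cases.IsBeta X (betaP X) :=
  ⟨fun _ _ => rfl, fun _ _ => rfl⟩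

theorem good_of_pre (X : Ctx H) {z : ℕ → E} (h : Pre (betaP X) z) : Good X z := by
  intro N
  obtain ⟨l, A, ε, G, h1, h2, h3, h4⟩ := h.finish N
  refine ⟨l, A, ε, h1, h4.trans ?_⟩
  have hw : (1 / 2 : ℝ) ^ (l + 1) = Fr.Par.wt l := by
    unfold Fr.Par.wt
    rw [pow_succ, div_div, one_div_pow, one_div, one_div, one_div, mul_inv, mul_comm]
  rw [hw]
  refine mul_le_mul_of_nonneg_left ((le_abs_self _).trans ?_) (Fr.Par.wt_pos l).le
  refine Fr.le_qs ⟨fun p p' => (h3 p p').trans ?_, h2⟩ _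
  have : (0 : ℝ) ≤ dist p p' := dist_nonneg
  change dist p p' ≤ 51 / 25 * dist p p'
  linarith

/-- U-case, constant level, constant depth -/
theorem good_U_overlap (X : Ctx H) (z : ℕ → E) (K c : ℝ) (hc : 0 < c) (hb : BddSigned z K)
    (σ : ℕ → Sg) (hσ : ∀ i, c ≤ |(z i).2 (σ i)|) (n d : ℕ) (hd : ∀ i, (σ i).2.2.2.2.2 = d)
    (hn : ∀ i, (σ i).1 = n) : Good X z :=
  good_of_pre X (Cases.pre_Uoverlap (isBeta_betaP X) (M := K) hb hc σ
    (fun i => by have := hσ i; linarith) n d hn hd)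

/-- U-case, depth tending to infinity -/
theorem good_U_flat (X : Ctx H) (z : ℕ → E) (K c : ℝ) (hc : 0 < c) (hb : BddSigned z K)
    (σ : ℕ → Sg) (hσ : ∀ i, c ≤ |(z i).2 (σ i)|)
    (hd : Tendsto (fun i => (σ i).2.2.2.2.2) atTop atTop) : Good X z :=
  good_of_pre X (Cases.pre_Uflat (isBeta_betaP X) (M := K) hb hc σ
    (fun i => by have := hσ i; linarith) fun D => (hd.eventually_ge_atTop D).frequently)

/-- U-case, levels tending to infinity, constant depth -/
theorem good_U_chain (X : Ctx H) (z : ℕ → E) (K c : ℝ) (hc : 0 < c) (hb : BddSigned z K)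
    (σ : ℕ → Sg) (hσ : ∀ i, c ≤ |(z i).2 (σ i)|) (d : ℕ) (hd : ∀ i, (σ i).2.2.2.2.2 = d)
    (hn : Tendsto (fun i => (σ i).1) atTop atTop) : Good X z := by
  have hz : ∀ b : Bk, Tendsto (fun i => evB X b (z i)) atTop (𝓝 0) := fun b =>
    Cases.BSS_coord (M := K) hb (evB X b)
  have hep : 0 < ep d := PhiAux.ep_pos d
  have hep' : 0 < ep (d + 1) := PhiAux.ep_pos (d + 1)
  have hhh : 0 < hh d := PhiAux.hh_pos d
  refine good_of_pre X ⟨c, K0 + 1, 1 + (K0 + 1) / ep (d + 1), hc, by linarith [(Nat.cast_nonneg K0 : (0:ℝ) ≤ K0)],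
    ?_, fun m hm => ?_⟩
  · have : (0 : ℝ) ≤ (K0 + 1) / ep (d + 1) := by positivity
    linarith
  · have hHs : 4 * rr (d + 1) * (ep d * hh d) ≤ K0 := by
      have e1 : 4 * rr (d + 1) * (ep d * hh d) = 4 * ep d := by
        unfold hh
        rw [PhiAux.rr_succ]
        have := PhiAux.rr_pos d
        field_simp
      rw [e1]
      have e2 : ep d ≤ 1 := PhiAux.ep_le_one d
      have e3 : (19 : ℝ) ≤ K0 := by
        unfold K0
        push_cast
        linarith [(Nat.cast_nonneg ⌈16 * Lam ^ 2⌉₊ : (0:ℝ) ≤ (⌈16 * Lam ^ 2⌉₊ : ℝ))]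
      linarith
    have hbd : ∀ i (p : P H), |DB X (Sum.inr (σ i)) p| ≤ ep d * hh d * sc (σ i).2.2.2.2.1 := by
      intro i p
      have e := hd i
      rcases hσi : σ i with ⟨n', g, a, cc, k, d'⟩
      rw [hσi] at e
      simp only at e
      subst e
      have := abs_Phi_le X n' g a cc k d' p
      rw [← mul_assoc] at this
      exact this
    have hsp : ∀ i (p : P H), DB X (Sum.inr (σ i)) p ≠ 0 →
        sfun X (σ i).1 (σ i).2.2.2.2.1 (σ i).2.2.2.1 (d + 1) p ≤
          -(sc (σ i).2.2.2.2.1 / (2 * rr (d + 1))) := by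
      intro i p hp
      have e := hd i
      have hp' : Phi X (σ i) p ≠ 0 := hp
      rcases hσi : σ i with ⟨n', g, a, cc, k, d'⟩
      rw [hσi] at e hp'
      simp only at e
      subst e
      exact Phi_loc X n' g a cc k d' p hp'
    obtain ⟨A, ε, G, h1, h2, h3, h4⟩ := chain_apply X z hz (fun i => Sum.inr (σ i)) (fun i => (σ i).1)
      (fun i => (σ i).2.2.2.2.1) (fun i => (σ i).2.2.2.1) (d + 1) (ep d * hh d) c (fun _ => rfl) hn
      (by positivity) hHs hc.le hσ hbd hsp m
    exact ⟨A, ε, G, h1, by linarith, h3, h4⟩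

end Crest.Agent.R091
end

-- ▼ part R091/LargeMain
section

/-! # Row 91, module LargeMain: `Large (parX X)` -/

set_option autoImplicit false

namespace Crest.Agent.R091

open Filter
open scoped Topology ZeroAtInfty

variable {H : Type} [NormedAddCommGroup H] [InnerProductSpace ℝ H]

/-- a sequence of naturals has a subsequence tending to infinity or a constant one -/
theorem exists_subseq_cases (f : ℕ → ℕ) :
    (∃ φ : ℕ → ℕ, StrictMono φ ∧ Tendsto (fun i => f (φ i)) atTop atTop) ∨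
      ∃ (φ : ℕ → ℕ) (v : ℕ), StrictMono φ ∧ ∀ i, f (φ i) = v := by
  by_cases h : ∀ N : ℕ, ∃ᶠ k in atTop, N ≤ f k
  · left
    obtain ⟨φ, hφ, hφ2⟩ := Filter.extraction_forall_of_frequently h
    exact ⟨φ, hφ, tendsto_atTop_mono hφ2 tendsto_id⟩
  · right
    push Not at h
    obtain ⟨N, hN⟩ := h
    have h1 : ∃ v, ∃ᶠ k in atTop, f k = v := by
      by_contra hcon
      push Not at hcon
      have h2 : ∀ᶠ k in atTop, ∀ v ∈ Finset.range N, f k ≠ v :=
        (Filter.eventually_all_finset _).2 fun v _ => by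
          simpa using hcon v
      obtain ⟨k, hk1, hk2⟩ := (h2.and hN).exists
      exact hk1 (f k) (Finset.mem_range.2 (by simpa using hk2)) rfl
    obtain ⟨v, hv⟩ := h1
    obtain ⟨φ, hφ, hφ2⟩ := Filter.extraction_of_frequently_atTop hv
    exact ⟨φ, v, hφ, hφ2⟩

theorem good_U (X : Ctx H) (z : ℕ → E) (K c : ℝ) (hc : 0 < c) (hb : BddSigned z K)
    (σ : ℕ → Sg) (hσ : ∀ i, c ≤ |(z i).2 (σ i)|) : Good X z := by
  rcases exists_subseq_cases (fun i => (σ i).2.2.2.2.2) with ⟨φ, hφ, hd⟩ | ⟨φ, d, hφ, hd⟩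
  · exact Good.of_subseq X hφ
      (good_U_flat X (fun i => z (φ i)) K c hc (hb.comp hφ) (fun i => σ (φ i))
        (fun i => hσ (φ i)) hd)
  · refine Good.of_subseq X hφ ?_
    rcases exists_subseq_cases (fun i => (σ (φ i)).1) with ⟨ψ, hψ, hn⟩ | ⟨ψ, n, hψ, hn⟩
    · exact Good.of_subseq X hψ
        (good_U_chain X (fun i => z (φ (ψ i))) K c hc ((hb.comp hφ).comp hψ)
          (fun i => σ (φ (ψ i))) (fun i => hσ (φ (ψ i))) d (fun i => hd (ψ i)) hn)
    · exact Good.of_subseq X hψ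
        (good_U_overlap X (fun i => z (φ (ψ i))) K c hc ((hb.comp hφ).comp hψ)
          (fun i => σ (φ (ψ i))) (fun i => hσ (φ (ψ i))) n d (fun i => hd (ψ i)) hn)

theorem large (X : Ctx H) : Fr.Large (parX X) := by
  intro z K c hc hb hz
  suffices h : Good X z from h
  have hc2 : 0 < c / 2 := half_pos hc
  -- for every `i` one of the two components is large at one point
  have hi : ∀ i, (∃ n, c / 2 ≤ ‖(z i).1 n‖) ∨ ∃ σ, c / 2 ≤ |(z i).2 σ| := by
    intro i
    by_contra hcon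
    push Not at hcon
    obtain ⟨h1, h2⟩ := hcon
    have h3 : ‖(z i).1‖ ≤ c / 2 := (norm_le_iff_c0 _ hc2.le).2 fun n => (h1 n).le
    have h4 : ‖(z i).2‖ ≤ c / 2 := (norm_le_iff_c0 _ hc2.le).2 fun n => by
      rw [Real.norm_eq_abs]; exact (h2 n).le
    have h5 : ‖z i‖ ≤ c / 2 := by
      rw [Prod.norm_def]
      exact max_le h3 h4
    linarith [hz i]
  by_cases hV : ∃ᶠ i in atTop, ∃ n, c / 2 ≤ ‖(z i).1 n‖
  · obtain ⟨φ, hφ, hφ2⟩ := Filter.extraction_of_frequently_atTop hV
    choose n hn using hφ2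
    exact Good.of_subseq X hφ
      (good_V X (fun i => z (φ i)) K (c / 2) hc2 (BddSigned.comp hb hφ) n hn)
  · have hU : ∃ᶠ i in atTop, ∃ σ, c / 2 ≤ |(z i).2 σ| := by
      refine Eventually.frequently ?_
      rw [Filter.not_frequently] at hV
      filter_upwards [hV] with i hi2
      exact (hi i).resolve_left hi2
    obtain ⟨φ, hφ, hφ2⟩ := Filter.extraction_of_frequently_atTop hU
    choose σ hσ using hφ2
    exact Good.of_subseq X hφ
      (good_U X (fun i => z (φ i)) K (c / 2) hc2 (BddSigned.comp hb hφ) σ hσ)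

end Crest.Agent.R091
end

-- ▼ part R091/Main

/-! # Row 91, module Main: the main theorem for `H = ℝ` and `H = ℓ²` -/

set_option autoImplicit false

namespace Crest.Agent.R091

open TopologicalSpace
open scoped ZeroAtInfty

theorem mainFor_real : MainFor ℝ := by
  obtain ⟨J⟩ := exists_J_real
  obtain ⟨X⟩ := exists_ctx J
  exact mainFor_of_large X (large X)

theorem mainFor_l2 : MainFor (lp (fun _ : ℕ => ℝ) 2) := by
  have : SeparableSpace Y := separable_l2
  obtain ⟨J⟩ := exists_J_l2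
  obtain ⟨X⟩ := exists_ctx (H := Y) J
  exact mainFor_of_large X (large X)

end Crest.Agent.R091
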