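import Crest.Agent.R091.Rot
import Crest.Agent.R091.Theta_Mg
import Crest.Agent.R091.C0

/-! # Row 91, module Phi, part 1: observables, `beta`, functionals on the levels `V_n` -/

set_option autoImplicit false

namespace Crest.Agent.R091

open Filter
open scoped Topology ZeroAtInfty

variable {H : Type} [NormedAddCommGroup H] [InnerProductSpace ℝ H]

/-! ### observables -/

theorem abs_obs_sub_le (X : Ctx H) (i : ℕ) (v v' : ℕ → HV H) :
    |obs X i v - obs X i v'| ≤ ‖v (Nat.unpair i).1 - v' (Nat.unpair i).1‖ := by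
  unfold obs
  split_ifs
  · exact abs_norm_sub_norm_le _ _
  · rw [← inner_sub_right]
    refine (abs_real_inner_le_norm _ _).trans ?_
    have h := X.he1 ((Nat.unpair i).2 - 1)
    nlinarith [norm_nonneg (v (Nat.unpair i).1 - v' (Nat.unpair i).1)]

theorem abs_obs_sub_le' (X : Ctx H) (i : ℕ) (p p' : P H) :
    |obs X i p - obs X i p'| ≤ ‖p - p'‖ :=
  (abs_obs_sub_le X i p p').trans (norm_apply_le_c0 (p - p') _)

theorem obs_congr (X : Ctx H) (i : ℕ) {v v' : ℕ → HV H}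
    (h : v (Nat.unpair i).1 = v' (Nat.unpair i).1) : obs X i v = obs X i v' := by
  unfold obs
  rw [h]

/-! ### `beta` -/

theorem tens_th_iso (X : Ctx H) (n : ℕ) (v : ℕ → HV H) (y : Y) : ‖tens (th X n v) y‖ = ‖y‖ := by
  rw [norm_tens_apply, th, norm_theta, one_mul]



theorem norm_beta_le (X : Ctx H) (n : ℕ) (v : ℕ → HV H) : ‖beta X n v‖ ≤ 2 * ‖v n‖ := by
  unfold beta
  rw [tens_th_iso]
  exact norm_uu_le _ _ (tens_th_iso X n v) _

theorem snd_add_beta (X : Ctx H) (n : ℕ) (v : ℕ → HV H) :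
    (v n).snd + beta X n v = rot X.J (tens (th X n v)) (v n) := rfl

private theorem rot_aux (X : Ctx H) (n : ℕ) (v v' : ℕ → HV H) (δ : ℝ) (hδ : 0 ≤ δ)
    (h : ∀ m ≤ n, ‖v m - v' m‖ ≤ δ) (hle : ‖v n‖ ≤ ‖v' n‖) :
    ‖rot X.J (tens (th X n v)) (v n) - rot X.J (tens (th X n v')) (v' n)‖
      ≤ (1 + 8 / 250) * δ := by
  have h1 : ‖rot X.J (tens (th X n v)) (v n) - rot X.J (tens (th X n v')) (v n)‖
      ≤ 4 * ‖tens (th X n v) - tens (th X n v')‖ * ‖v n‖ :=
    norm_rot_sub_rot_le _ _ _ (tens_th_iso X n v) (tens_th_iso X n v') _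
  have h2 : ‖rot X.J (tens (th X n v')) (v n) - rot X.J (tens (th X n v')) (v' n)‖ ≤ δ := by
    rw [← rot_sub, norm_rot _ _ (tens_th_iso X n v')]
    exact h n le_rfl
  have h3 : ‖th X n v - th X n v'‖ * min ‖v n‖ ‖v' n‖ ≤ (1 / 250) * (δ + |‖v n‖ - ‖v' n‖|) := by
    refine theta_lip n _ _ _ _ δ (norm_nonneg _) (norm_nonneg _) hδ fun i hi => ?_
    refine (abs_obs_sub_le X i v v').trans (h _ ?_)
    exact (Nat.unpair_left_le i).trans hi.le
  rw [min_eq_left hle] at h3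
  have h4 : |‖v n‖ - ‖v' n‖| ≤ δ := (abs_norm_sub_norm_le _ _).trans (h n le_rfl)
  have h5 : ‖tens (th X n v) - tens (th X n v')‖ * ‖v n‖ ≤ ‖th X n v - th X n v'‖ * ‖v n‖ :=
    mul_le_mul_of_nonneg_right (norm_tens_sub_le _ _) (norm_nonneg _)
  have h6 := norm_sub_le_norm_sub_add_norm_sub (rot X.J (tens (th X n v)) (v n))
    (rot X.J (tens (th X n v')) (v n)) (rot X.J (tens (th X n v')) (v' n))
  nlinarith

/-- `‖R(v)_n - R(v')_n‖ ≤ (1 + 8/250) δ` when `‖v m - v' m‖ ≤ δ` for `m ≤ n` -/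
theorem norm_snd_add_beta_sub_le (X : Ctx H) (n : ℕ) (v v' : ℕ → HV H) (δ : ℝ) (hδ : 0 ≤ δ)
    (h : ∀ m ≤ n, ‖v m - v' m‖ ≤ δ) :
    ‖((v n).snd + beta X n v) - ((v' n).snd + beta X n v')‖ ≤ (1 + 8 / 250) * δ := by
  rw [snd_add_beta, snd_add_beta]
  rcases le_total ‖v n‖ ‖v' n‖ with hle | hle
  · exact rot_aux X n v v' δ hδ h hle
  · rw [norm_sub_rev]
    refine rot_aux X n v' v δ hδ (fun m hm => ?_) hle
    rw [norm_sub_rev]
    exact h m hm

theorem norm_beta_sub_le (X : Ctx H) (n : ℕ) (v v' : ℕ → HV H) (δ : ℝ) (hδ : 0 ≤ δ)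
    (h : ∀ m ≤ n, ‖v m - v' m‖ ≤ δ) :
    ‖beta X n v - beta X n v'‖ ≤ 3 * δ := by
  have h1 := norm_snd_add_beta_sub_le X n v v' δ hδ h
  have h2 : ‖(v n).snd - (v' n).snd‖ ≤ δ := (norm_snd_le (v n - v' n)).trans (h n le_rfl)
  have h3 : beta X n v - beta X n v' = (((v n).snd + beta X n v) - ((v' n).snd + beta X n v'))
      - ((v n).snd - (v' n).snd) := by abel
  rw [h3]
  refine (norm_sub_le _ _).trans ?_
  linarith

/-! ### functionals on the levels `V_n` -/

theorem norm_fV_le (X : Ctx H) (μ : Mu) : ‖fV X μ‖ ≤ 1 := by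
  unfold fV
  split_ifs with h
  · exact h
  · rw [norm_zero]; exact zero_le_one

theorem restr_restr (S : Set Node) (w : V) : restr S (restr S w) = restr S w := by
  refine Subtype.ext (funext fun κ => ?_)
  change S.indicator (fun κ => S.indicator (fun κ => w κ) κ) κ = S.indicator (fun κ => w κ) κ
  by_cases hκ : κ ∈ S
  · rw [Set.indicator_of_mem hκ]
  · rw [Set.indicator_of_notMem hκ, Set.indicator_of_notMem hκ]

theorem inner_restr_left (S : Set Node) (f y : V) :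
    inner ℝ (restr S f) y = inner ℝ (restr S f) (restr S y) := by
  have h := inner_eq_inner_restr S y (restr S f) fun κ hκ => Set.indicator_of_notMem hκ _
  rw [real_inner_comm, h, real_inner_comm]

theorem restr_smul (S : Set Node) (r : ℝ) (w : V) : restr S (r • w) = r • restr S w := by
  refine Subtype.ext (funext fun κ => ?_)
  change S.indicator (fun κ => (r • w) κ) κ = r • S.indicator (fun κ => w κ) κ
  by_cases hκ : κ ∈ S
  · rw [Set.indicator_of_mem hκ, Set.indicator_of_mem hκ]; rfl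
  · rw [Set.indicator_of_notMem hκ, Set.indicator_of_notMem hκ, smul_zero]

theorem exists_fV (X : Ctx H) (n : ℕ) (k : ℤ) (c : Fin n → ℤ) (y : V) (r : ℝ)
    (hr : r < ‖restr (win n k c) y‖) : ∃ s : ℕ, r ≤ inner ℝ (fV X ⟨n, (k, c, s)⟩) y := by
  set S := win n k c with hS
  set ρ := ‖restr S y‖ with hρ
  have hρ0 : 0 ≤ ρ := norm_nonneg _
  set u : V := ρ⁻¹ • restr S y with hu
  have hu1 : ‖u‖ ≤ 1 := by
    rw [hu, norm_smul, norm_inv, Real.norm_eq_abs, abs_of_nonneg hρ0, ← hρ]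
    exact inv_mul_le_one
  have hu2 : inner ℝ u (restr S y) = ρ := by
    rw [hu, inner_smul_left, real_inner_self_eq_norm_sq, ← hρ]
    rcases hρ0.eq_or_lt with h | h
    · rw [← h]; simp
    · simp only [conj_trivial]
      field_simp
  have hu3 : restr S u = u := by rw [hu, restr_smul, restr_restr]
  set ε := min 1 ((ρ - r) / (2 * (ρ + 1))) with hε
  have hε0 : 0 < ε := lt_min one_pos (div_pos (by linarith) (by linarith))
  have hε1 : ε ≤ 1 := min_le_left _ _
  have hε2 : 2 * ε * ρ ≤ ρ - r := by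
    have h1 : ε ≤ (ρ - r) / (2 * (ρ + 1)) := min_le_right _ _
    rw [le_div_iff₀ (by linarith)] at h1
    nlinarith
  obtain ⟨s, hs⟩ := X.hdv.exists_dist_lt ((1 - ε) • u) hε0
  refine ⟨s, ?_⟩
  have h1 : ‖restr S (X.dv s) - (1 - ε) • u‖ ≤ ε := by
    have : restr S (X.dv s) - (1 - ε) • u = restr S (X.dv s - (1 - ε) • u) := by
      rw [restr_sub, restr_smul, hu3]
    rw [this]
    refine (norm_restr_le _ _).trans ?_
    rw [← dist_eq_norm, dist_comm]
    exact hs.le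
  have h2 : ‖restr S (X.dv s)‖ ≤ 1 := by
    have h3 : restr S (X.dv s) = (restr S (X.dv s) - (1 - ε) • u) + (1 - ε) • u := by abel
    rw [h3]
    refine (norm_add_le _ _).trans ?_
    rw [norm_smul, Real.norm_eq_abs, abs_of_nonneg (by linarith : (0:ℝ) ≤ 1 - ε)]
    nlinarith
  have h4 : fV X ⟨n, (k, c, s)⟩ = restr S (X.dv s) := by
    unfold fV
    exact if_pos h2
  rw [h4, inner_restr_left]
  have h5 : inner ℝ (restr S (X.dv s)) (restr S y)
      = inner ℝ (restr S (X.dv s) - (1 - ε) • u) (restr S y) + (1 - ε) * ρ := by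
    rw [inner_sub_left, inner_smul_left, hu2]
    simp
  have h6 := neg_le_of_abs_le (abs_real_inner_le_norm (restr S (X.dv s) - (1 - ε) • u) (restr S y))
  rw [← hρ] at h6
  rw [h5]
  nlinarith

theorem beta_apply_eq_zero (X : Ctx H) (n : ℕ) (v : ℕ → HV H) {κ : Node}
    (hκ : (th X n v) κ = 0) : (beta X n v) κ = 0 := by
  unfold beta
  rw [tens_apply, hκ, zero_smul]

/-- `β_n(v)` is supported by two windows -/
theorem beta_windows (X : Ctx H) (n : ℕ) (v : ℕ → HV H) :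
    ∃ (k k' : ℤ) (c c' : Fin n → ℤ), ∀ κ, κ ∉ win n k c ∪ win n k' c' → (beta X n v) κ = 0 := by
  obtain ⟨k, k', c, c', h⟩ := theta_windows n (fun i => obs X i v) ‖v n‖
  refine ⟨k, k', c, c', fun κ hκ => beta_apply_eq_zero X n v ?_⟩
  by_contra h0
  exact hκ (h κ h0)

/-- V-flat -/
theorem flat_lip (X : Ctx H) (n : ℕ) (F : V) (η : ℝ) (hη : 0 ≤ η)
    (hF : ∀ (k : ℤ) (c : Fin n → ℤ), ‖restr (win n k c) F‖ ≤ η) (p p' : P H) :
    |inner ℝ F (beta X n p) - inner ℝ F (beta X n p')| ≤ 12 * η * ‖p - p'‖ := by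
  obtain ⟨k1, k2, c1, c2, h12⟩ := beta_windows X n p
  obtain ⟨k3, k4, c3, c4, h34⟩ := beta_windows X n p'
  set S := (win n k1 c1 ∪ win n k2 c2) ∪ (win n k3 c3 ∪ win n k4 c4) with hS
  rw [← inner_sub_right]
  have h1 : inner ℝ F (beta X n p - beta X n p') = inner ℝ (restr S F) (beta X n p - beta X n p') := by
    refine inner_eq_inner_restr S F _ fun κ hκ => ?_
    change (beta X n p) κ - (beta X n p') κ = 0
    rw [h12 κ (fun h => hκ (Or.inl h)), h34 κ (fun h => hκ (Or.inr h)), sub_zero]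
  rw [h1]
  refine (abs_real_inner_le_norm _ _).trans ?_
  have h2 : ‖restr S F‖ ≤ 4 * η := by
    refine (norm_restr_union_le _ _ _).trans ?_
    have h3 := norm_restr_union_le (win n k1 c1) (win n k2 c2) F
    have h4 := norm_restr_union_le (win n k3 c3) (win n k4 c4) F
    linarith [hF k1 c1, hF k2 c2, hF k3 c3, hF k4 c4]
  have h3 : ‖beta X n p - beta X n p'‖ ≤ 3 * ‖p - p'‖ :=
    norm_beta_sub_le X n p p' _ (norm_nonneg _) fun m _ => norm_apply_le_c0 (p - p') m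
  calc ‖restr S F‖ * ‖beta X n p - beta X n p'‖ ≤ (4 * η) * (3 * ‖p - p'‖) :=
        mul_le_mul h2 h3 (norm_nonneg _) (by positivity)
    _ = 12 * η * ‖p - p'‖ := by ring

end Crest.Agent.R091
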