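import Crest.Agent.R091.Defs
import Crest.Agent.R091.Phi1

-- ▼ part R091/PhiAux
section

/-! # Row 91, auxiliary lemmas for module Phi3 (helper634): tent, soft, parameters, observables, sfun

Everything in namespace `Crest.Agent.R091.PhiAux` to avoid clashes with Phi1/Phi2. -/

set_option autoImplicit false

namespace Crest.Agent.R091.PhiAux

open scoped ZeroAtInfty Topology
open Filter

/-! ### the real functions `tent` and `soft` -/


theorem tent_of_le_abs {h x : ℝ} (hx : 2 * h ≤ |x|) : tent h x = 0 := by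
  unfold tent
  rcases le_total 0 x with h0 | h0
  · rw [abs_of_nonneg h0] at hx
    rw [max_eq_right (min_le_of_right_le (by linarith)),
      max_eq_right (min_le_of_left_le (by linarith))]
    ring
  · rw [abs_of_nonpos h0] at hx
    rw [max_eq_right (min_le_of_left_le (by linarith)),
      max_eq_right (min_le_of_right_le (by linarith))]
    ring

theorem tent_nonneg_eq {h x : ℝ} (hx : 0 ≤ x) : tent h x = max (min x (2 * h - x)) 0 := by
  unfold tent
  rw [max_eq_right (min_le_of_left_le (by linarith) : min (-x) (2 * h + x) ≤ 0)]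
  ring

theorem tent_nonpos_eq {h x : ℝ} (hx : x ≤ 0) : tent h x = - max (min (-x) (2 * h + x)) 0 := by
  unfold tent
  rw [max_eq_right (min_le_of_left_le (by linarith) : min x (2 * h - x) ≤ 0)]
  ring

theorem abs_tent_le {h : ℝ} (h0 : 0 ≤ h) (x : ℝ) : |tent h x| ≤ h := by
  rcases le_total 0 x with hx | hx
  · rw [tent_nonneg_eq hx, abs_of_nonneg (le_max_right _ _)]
    refine max_le ?_ h0
    rcases le_total x h with h1 | h1
    · exact min_le_of_left_le h1
    · exact min_le_of_right_le (by linarith)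
  · rw [tent_nonpos_eq hx, abs_neg, abs_of_nonneg (le_max_right _ _)]
    refine max_le ?_ h0
    rcases le_total (-x) h with h1 | h1
    · exact min_le_of_left_le h1
    · exact min_le_of_right_le (by linarith)

theorem abs_max_sub_max_zero (a b : ℝ) : |max a 0 - max b 0| ≤ |a - b| := by
  have := abs_max_sub_max_le_max a 0 b 0
  simpa using this

theorem abs_bumpy (h x x' : ℝ) :
    |max (min x (2 * h - x)) 0 - max (min x' (2 * h - x')) 0| ≤ |x - x'| := by
  refine (abs_max_sub_max_zero _ _).trans ?_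
  refine (abs_min_sub_min_le_max _ _ _ _).trans ?_
  have : 2 * h - x - (2 * h - x') = -(x - x') := by ring
  rw [this, abs_neg, max_self]

theorem abs_tent_sub_le (h x x' : ℝ) : |tent h x - tent h x'| ≤ |x - x'| := by
  rcases le_total 0 x with hx | hx <;> rcases le_total 0 x' with hx' | hx'
  · rw [tent_nonneg_eq hx, tent_nonneg_eq hx']
    exact abs_bumpy h x x'
  · rw [tent_nonneg_eq hx, tent_nonpos_eq hx', sub_neg_eq_add]
    have h1 : max (min x (2 * h - x)) 0 ≤ x := max_le (min_le_left _ _) hx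
    have h2 : max (min (-x') (2 * h + x')) 0 ≤ -x' := max_le (min_le_left _ _) (by linarith)
    have h3 : 0 ≤ max (min x (2 * h - x)) 0 := le_max_right _ _
    have h4 : 0 ≤ max (min (-x') (2 * h + x')) 0 := le_max_right _ _
    rw [abs_of_nonneg (by linarith), abs_of_nonneg (by linarith)]
    linarith
  · rw [tent_nonpos_eq hx, tent_nonneg_eq hx']
    have h1 : max (min x' (2 * h - x')) 0 ≤ x' := max_le (min_le_left _ _) hx'
    have h2 : max (min (-x) (2 * h + x)) 0 ≤ -x := max_le (min_le_left _ _) (by linarith)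
    have h3 : 0 ≤ max (min x' (2 * h - x')) 0 := le_max_right _ _
    have h4 : 0 ≤ max (min (-x) (2 * h + x)) 0 := le_max_right _ _
    rw [abs_of_nonpos (by linarith), abs_of_nonpos (by linarith)]
    linarith
  · rw [tent_nonpos_eq hx, tent_nonpos_eq hx']
    have h1 := abs_bumpy h (-x) (-x')
    rw [sub_neg_eq_add, sub_neg_eq_add, sub_neg_eq_add] at h1
    have e1 : -max (min (-x) (2 * h + x)) 0 - -max (min (-x') (2 * h + x')) 0
        = -(max (min (-x) (2 * h + x)) 0 - max (min (-x') (2 * h + x')) 0) := by ring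
    have e2 : x - x' = -(-x + x') := by ring
    rw [e1, abs_neg, e2, abs_neg]
    exact h1


theorem soft_nonneg_eq {b x : ℝ} (hb : 0 ≤ b) (hx : 0 ≤ x) : soft b x = max (x - b) 0 := by
  unfold soft
  rw [max_eq_right (by linarith : -x - b ≤ 0)]; ring

theorem soft_nonpos_eq {b x : ℝ} (hb : 0 ≤ b) (hx : x ≤ 0) : soft b x = - max (-x - b) 0 := by
  unfold soft
  rw [max_eq_right (by linarith : x - b ≤ 0)]; ring


theorem soft_of_abs_le {b x : ℝ} (hx : |x| ≤ b) : soft b x = 0 := by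
  unfold soft
  rw [abs_le] at hx
  rw [max_eq_right (by linarith), max_eq_right (by linarith)]; ring

theorem abs_soft_le {b : ℝ} (hb : 0 ≤ b) (x : ℝ) : |soft b x| ≤ |x| := by
  rcases le_total 0 x with hx | hx
  · rw [soft_nonneg_eq hb hx, abs_of_nonneg (le_max_right _ _), abs_of_nonneg hx]
    exact max_le (by linarith) hx
  · rw [soft_nonpos_eq hb hx, abs_neg, abs_of_nonneg (le_max_right _ _), abs_of_nonpos hx]
    exact max_le (by linarith) (by linarith)

theorem abs_soft_sub_le {b : ℝ} (hb : 0 ≤ b) (x x' : ℝ) : |soft b x - soft b x'| ≤ |x - x'| := by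
  rcases le_total 0 x with hx | hx <;> rcases le_total 0 x' with hx' | hx'
  · rw [soft_nonneg_eq hb hx, soft_nonneg_eq hb hx']
    refine (abs_max_sub_max_zero _ _).trans (le_of_eq ?_)
    congr 1; ring
  · rw [soft_nonneg_eq hb hx, soft_nonpos_eq hb hx', sub_neg_eq_add]
    have h1 : max (x - b) 0 ≤ x := max_le (by linarith) hx
    have h2 : max (-x' - b) 0 ≤ -x' := max_le (by linarith) (by linarith)
    have h3 : 0 ≤ max (x - b) 0 := le_max_right _ _
    have h4 : 0 ≤ max (-x' - b) 0 := le_max_right _ _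
    rw [abs_of_nonneg (by linarith), abs_of_nonneg (by linarith)]
    linarith
  · rw [soft_nonpos_eq hb hx, soft_nonneg_eq hb hx']
    have h1 : max (x' - b) 0 ≤ x' := max_le (by linarith) hx'
    have h2 : max (-x - b) 0 ≤ -x := max_le (by linarith) (by linarith)
    have h3 : 0 ≤ max (x' - b) 0 := le_max_right _ _
    have h4 : 0 ≤ max (-x - b) 0 := le_max_right _ _
    rw [abs_of_nonpos (by linarith), abs_of_nonpos (by linarith)]
    linarith
  · rw [soft_nonpos_eq hb hx, soft_nonpos_eq hb hx']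
    have e1 : -max (-x - b) 0 - -max (-x' - b) 0 = -(max (-x - b) 0 - max (-x' - b) 0) := by ring
    rw [e1, abs_neg]
    refine (abs_max_sub_max_zero _ _).trans (le_of_eq ?_)
    rw [← abs_neg]; congr 1; ring

theorem abs_soft_sub_le' {b b' : ℝ} (hb : 0 ≤ b) (hb' : 0 ≤ b') (x : ℝ) :
    |soft b x - soft b' x| ≤ |b - b'| := by
  rcases le_total 0 x with hx | hx
  · rw [soft_nonneg_eq hb hx, soft_nonneg_eq hb' hx]
    refine (abs_max_sub_max_zero _ _).trans (le_of_eq ?_)
    rw [← abs_neg]; congr 1; ring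
  · rw [soft_nonpos_eq hb hx, soft_nonpos_eq hb' hx]
    have e1 : -max (-x - b) 0 - -max (-x - b') 0 = -(max (-x - b) 0 - max (-x - b') 0) := by ring
    rw [e1, abs_neg]
    refine (abs_max_sub_max_zero _ _).trans (le_of_eq ?_)
    rw [← abs_neg]; congr 1; ring

/-! ### parameters -/

theorem sc_pos (k : ℤ) : 0 < sc k := Real.exp_pos _

theorem Lam_pos : 0 < Lam := Real.exp_pos _

theorem one_le_Lam : 1 ≤ Lam := by
  unfold Lam
  exact Real.one_le_exp (by norm_num)

theorem sc_le_sc {k l : ℤ} (h : k ≤ l) : sc k ≤ sc l := by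
  unfold sc
  apply Real.exp_le_exp.2
  have : (k : ℝ) ≤ l := by exact_mod_cast h
  linarith

theorem sc_succ_pos (k : ℤ) : 0 < sc (k + 1) := sc_pos _

theorem sc_le_succ (k : ℤ) : sc k ≤ sc (k + 1) := sc_le_sc (by omega)

theorem om_pos (i : ℕ) : 0 < om i := by unfold om; positivity

theorem om_le_one (i : ℕ) : om i ≤ 1 := by
  unfold om
  exact pow_le_one₀ (by norm_num) (by norm_num)

theorem rr_pos (d : ℕ) : 0 < rr d := by
  unfold rr
  have := Lam_pos
  positivity

theorem one_le_rr (d : ℕ) : 1 ≤ rr d := by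
  unfold rr
  have h1 := one_le_Lam
  have h2 : (1:ℝ) ≤ 4 ^ d := one_le_pow₀ (by norm_num)
  nlinarith

theorem rr_succ (d : ℕ) : rr (d + 1) = 4 * rr d := by
  unfold rr
  rw [pow_succ]; ring

theorem rho_succ (d : ℕ) : rho (d + 1) = rho d + 2 := by
  unfold rho
  push_cast; ring


theorem hh_pos (d : ℕ) : 0 < hh d := by
  unfold hh
  have := rr_pos d
  positivity




theorem ep_pos (d : ℕ) : 0 < ep d := by
  unfold ep
  positivity

theorem ep_le (d : ℕ) : ep d ≤ 1 / 100 := by
  unfold ep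
  have : ((1:ℝ) / 2) ^ d ≤ 1 := pow_le_one₀ (by norm_num) (by norm_num)
  linarith

theorem ep_le_one (d : ℕ) : ep d ≤ 1 := (ep_le d).trans (by norm_num)

theorem tendsto_ep : Tendsto ep atTop (𝓝 0) := by
  unfold ep
  have h : Tendsto (fun d : ℕ => ((1:ℝ) / 2) ^ d) atTop (𝓝 0) :=
    tendsto_pow_atTop_nhds_zero_of_lt_one (by norm_num) (by norm_num)
  simpa using h.const_mul ((1:ℝ) / 100)

/-! ### observables and cell functions -/

section
variable {H : Type} [NormedAddCommGroup H] [InnerProductSpace ℝ H]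

/-- `obs i` depends only on the coordinate `(unpair i).1 ≤ i` -/
theorem obs_congr (X : Ctx H) (i : ℕ) {v v' : ℕ → HV H} (h : v (Nat.unpair i).1 = v' (Nat.unpair i).1) :
    obs X i v = obs X i v' := by
  unfold obs
  rw [h]

theorem abs_obs_sub_le (X : Ctx H) (i : ℕ) (v v' : ℕ → HV H) :
    |obs X i v - obs X i v'| ≤ ‖v (Nat.unpair i).1 - v' (Nat.unpair i).1‖ := by
  unfold obs
  split_ifs with h
  · exact abs_norm_sub_norm_le _ _
  · rw [← inner_sub_right]
    refine (abs_real_inner_le_norm _ _).trans ?_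
    have := X.he1 ((Nat.unpair i).2 - 1)
    exact mul_le_of_le_one_left (norm_nonneg _) this

theorem abs_obs_sub_le_of (X : Ctx H) (i n : ℕ) (hi : i ≤ n) (v v' : ℕ → HV H) {δ : ℝ}
    (h : ∀ m ≤ n, ‖v m - v' m‖ ≤ δ) : |obs X i v - obs X i v'| ≤ δ :=
  (abs_obs_sub_le X i v v').trans (h _ ((Nat.unpair_left_le i).trans hi))

/-- `n`-th coordinate of the difference in the `c₀`-sum -/
theorem norm_P_sub_apply_le (p p' : P H) (n : ℕ) : ‖p n - p' n‖ ≤ ‖p - p'‖ := by
  have := (p - p').toBCF.norm_coe_le_norm n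
  rw [ZeroAtInftyContinuousMap.norm_toBCF_eq_norm] at this
  exact this

theorem norm_P_apply_le (p : P H) (n : ℕ) : ‖p n‖ ≤ ‖p‖ := by
  have := p.toBCF.norm_coe_le_norm n
  rw [ZeroAtInftyContinuousMap.norm_toBCF_eq_norm] at this
  exact this

/-- the value of the `j`-th term in `sfun` -/
noncomputable def sterm (X : Ctx H) (n : ℕ) (k : ℤ) (c : Fin n → ℤ) (d : ℕ) (v : ℕ → HV H)
    (j : Option (Fin n)) : ℝ :=
  match j with
    | none => max (1 / rr d - ‖v n‖ / sc k) (‖v n‖ / sc k - rr d)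
    | some i => |om i * obs X i v / sc (k + 1) - c i| - rho d

theorem sfun_eq (X : Ctx H) (n : ℕ) (k : ℤ) (c : Fin n → ℤ) (d : ℕ) (v : ℕ → HV H) :
    sfun X n k c d v =
      (1 / 2) * sc k * Finset.univ.sup' Finset.univ_nonempty (sterm X n k c d v) := rfl

theorem sterm_le (X : Ctx H) (n : ℕ) (k : ℤ) (c : Fin n → ℤ) (d : ℕ) (v : ℕ → HV H)
    (j : Option (Fin n)) :
    sterm X n k c d v j ≤ Finset.univ.sup' Finset.univ_nonempty (sterm X n k c d v) :=
  Finset.le_sup' (sterm X n k c d v) (Finset.mem_univ j)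

theorem sterm_le_add (X : Ctx H) (n : ℕ) (k : ℤ) (c : Fin n → ℤ) (d : ℕ) (v v' : ℕ → HV H) {δ : ℝ}
    (h : ∀ m ≤ n, ‖v m - v' m‖ ≤ δ) (j : Option (Fin n)) :
    sterm X n k c d v j ≤ sterm X n k c d v' j + δ / sc k := by
  have hδ : 0 ≤ δ := (norm_nonneg _).trans (h n le_rfl)
  have hs := sc_pos k
  cases j with
  | none =>
    show max (1 / rr d - ‖v n‖ / sc k) (‖v n‖ / sc k - rr d) ≤
      max (1 / rr d - ‖v' n‖ / sc k) (‖v' n‖ / sc k - rr d) + δ / sc k
    have h1 : |‖v n‖ - ‖v' n‖| ≤ δ := (abs_norm_sub_norm_le _ _).trans (h n le_rfl)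
    rw [abs_le] at h1
    have h2 : ‖v n‖ / sc k ≤ ‖v' n‖ / sc k + δ / sc k := by
      rw [← add_div]; exact div_le_div_of_nonneg_right (by linarith) hs.le
    have h3 : ‖v' n‖ / sc k ≤ ‖v n‖ / sc k + δ / sc k := by
      rw [← add_div]; exact div_le_div_of_nonneg_right (by linarith) hs.le
    refine max_le ?_ ?_
    · have := le_max_left (1 / rr d - ‖v' n‖ / sc k) (‖v' n‖ / sc k - rr d)
      linarith
    · have := le_max_right (1 / rr d - ‖v' n‖ / sc k) (‖v' n‖ / sc k - rr d)
      linarith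
  | some i =>
    show |om i * obs X i v / sc (k + 1) - c i| - rho d ≤
      |om i * obs X i v' / sc (k + 1) - c i| - rho d + δ / sc k
    have h1 : |obs X i v - obs X i v'| ≤ δ := abs_obs_sub_le_of X i n i.2.le v v' h
    have h2 : |om i * obs X i v / sc (k + 1) - c i| ≤
        |om i * obs X i v' / sc (k + 1) - c i| + |om i * (obs X i v - obs X i v') / sc (k + 1)| := by
      have e : om i * obs X i v / sc (k + 1) - c i = (om i * obs X i v' / sc (k + 1) - c i) +
        om i * (obs X i v - obs X i v') / sc (k + 1) := by ring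
      rw [e]
      exact abs_add_le _ _
    have h3 : |om i * (obs X i v - obs X i v') / sc (k + 1)| ≤ δ / sc k := by
      rw [abs_div, abs_mul, abs_of_pos (om_pos i), abs_of_pos (sc_succ_pos k)]
      refine div_le_div₀ hδ ?_ hs (sc_le_succ k)
      calc om i * |obs X i v - obs X i v'| ≤ 1 * δ :=
            mul_le_mul (om_le_one i) h1 (abs_nonneg _) zero_le_one
        _ = δ := one_mul _
    linarith

theorem sfun_le_add (X : Ctx H) (n : ℕ) (k : ℤ) (c : Fin n → ℤ) (d : ℕ) (v v' : ℕ → HV H) {δ : ℝ}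
    (h : ∀ m ≤ n, ‖v m - v' m‖ ≤ δ) :
    sfun X n k c d v ≤ sfun X n k c d v' + (1 / 2) * δ := by
  rw [sfun_eq, sfun_eq]
  have hs := sc_pos k
  have h1 : Finset.univ.sup' Finset.univ_nonempty (sterm X n k c d v) ≤
      Finset.univ.sup' Finset.univ_nonempty (sterm X n k c d v') + δ / sc k := by
    refine Finset.sup'_le _ _ fun j _ => ?_
    have h2 := sterm_le_add X n k c d v v' h j
    have h3 := sterm_le X n k c d v' j
    linarith
  have h4 := mul_le_mul_of_nonneg_left h1 (by positivity : (0:ℝ) ≤ 1 / 2 * sc k)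
  refine h4.trans (le_of_eq ?_)
  field_simp

/-- the cell functions are `1/2`-Lipschitz -/
theorem abs_sfun_sub_le_of (X : Ctx H) (n : ℕ) (k : ℤ) (c : Fin n → ℤ) (d : ℕ) (v v' : ℕ → HV H)
    {δ : ℝ} (h : ∀ m ≤ n, ‖v m - v' m‖ ≤ δ) :
    |sfun X n k c d v - sfun X n k c d v'| ≤ (1 / 2) * δ := by
  have h1 := sfun_le_add X n k c d v v' h
  have h2 := sfun_le_add X n k c d v' v (δ := δ) (fun m hm => by rw [norm_sub_rev]; exact h m hm)
  rw [abs_le]
  constructor <;> linarith

theorem abs_sfun_sub_le (X : Ctx H) (n : ℕ) (k : ℤ) (c : Fin n → ℤ) (d : ℕ) (p p' : P H) :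
    |sfun X n k c d p - sfun X n k c d p'| ≤ (1 / 2) * ‖p - p'‖ :=
  abs_sfun_sub_le_of X n k c d p p' fun m _ => norm_P_sub_apply_le p p' m

/-- `sfun < b` means that all terms are `< 2 b / sc k` -/
theorem sterm_lt_of_sfun_lt {X : Ctx H} {n : ℕ} {k : ℤ} {c : Fin n → ℤ} {d : ℕ} {v : ℕ → HV H} {b : ℝ}
    (h : sfun X n k c d v < b) (j : Option (Fin n)) : sterm X n k c d v j < 2 * b / sc k := by
  have hs := sc_pos k
  have h1 := sterm_le X n k c d v j
  rw [sfun_eq] at h
  rw [lt_div_iff₀ hs]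
  nlinarith

theorem sfun_le_of {X : Ctx H} {n : ℕ} {k : ℤ} {c : Fin n → ℤ} {d : ℕ} {v : ℕ → HV H} {b : ℝ}
    (h1 : 1 / rr d - ‖v n‖ / sc k ≤ b) (h2 : ‖v n‖ / sc k - rr d ≤ b)
    (h3 : ∀ i : Fin n, |om i * obs X i v / sc (k + 1) - c i| - rho d ≤ b) :
    sfun X n k c d v ≤ (1 / 2) * sc k * b := by
  rw [sfun_eq]
  refine mul_le_mul_of_nonneg_left ?_ (by have := sc_pos k; positivity)
  refine Finset.sup'_le _ _ fun j _ => ?_
  cases j with
  | none => exact max_le h1 h2
  | some i => exact h3 i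

end

end Crest.Agent.R091.PhiAux
end

-- ▼ part R091/Phi3
section

/-! # Row 91, module Phi3: the recursion for the scalar coordinates, null property, overlap, `DG` (helper634) -/

set_option autoImplicit false

namespace Crest.Agent.R091

open Filter
open scoped Topology ZeroAtInfty

variable {H : Type} [NormedAddCommGroup H] [InnerProductSpace ℝ H]

/-! ### the recursion -/

theorem Tab_eq_Phi (X : Ctx H) {n : ℕ} {σ : Sg} (h : σ.1 < n) (v : ℕ → HV H) :
    Tab X n σ v = Phi X σ v := by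
  induction n with
  | zero => exact absurd h (Nat.not_lt_zero _)
  | succ n ih =>
    rcases Nat.lt_succ_iff_lt_or_eq.1 h with h1 | h1
    · have hne : σ.1 ≠ n := h1.ne
      rw [← ih h1]
      simp only [Tab, if_neg hne]
    · unfold Phi
      rw [h1]


/-- block functions with two tables agreeing below `n` -/
theorem DBT_Tab (X : Ctx H) {n : ℕ} {b : Bk} (hb : lev b < n) (v : ℕ → HV H) :
    DBT X (Tab X n) b v = DB X b v := by
  unfold DB
  cases b with
  | inl μ => rfl
  | inr σ => exact Tab_eq_Phi X hb v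


/-- truncation of a formal functional to the levels `< n` -/
noncomputable def trunc (n : ℕ) (G : GG) : GG :=
  open Classical in G.filter (fun b => lev b < n)


theorem DT_eq_DG_trunc (X : Ctx H) (n : ℕ) (G : GG) (v : ℕ → HV H) :
    DT X (Tab X n) n G v = DG X (trunc n G) v := by
  classical
  unfold DT DG trunc Finsupp.sum
  rw [Finsupp.support_filter, Finset.sum_filter]
  refine Finset.sum_congr rfl fun b hb => ?_
  by_cases h : lev b < n
  · simp only [if_pos h, Finsupp.filter_apply_pos (fun b => lev b < n) G h, DBT_Tab X h]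
  · simp only [if_neg h]

/-- validity of the pair `(n, g)` -/
def Valid (X : Ctx H) (n g : ℕ) : Prop :=
  g < n ∧ ∀ p p' : P H, |DG X (trunc n (X.en g)) p - DG X (trunc n (X.en g)) p'| ≤ ‖p - p'‖

theorem Phi_eq (X : Ctx H) (n g : ℕ) (a : ℤ) (c : Fin n → ℤ) (k : ℤ) (d : ℕ) (v : ℕ → HV H) :
    Phi X ⟨n, (g, a, c, k, d)⟩ v = open Classical in if Valid X n g then
      ep d * soft (max 0 (sfun X n k c d v))
        (tent (hh d * sc k) (DG X (trunc n (X.en g)) v - a * (hh d * sc k))) else 0 := by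
  classical
  unfold Phi
  simp only [Tab, if_true, DT_eq_DG_trunc]
  by_cases h : Valid X n g
  · rw [if_pos h]
    have h' := h
    unfold Valid at h'
    rw [if_pos h']
    unfold gval
    simp only [DT_eq_DG_trunc]
  · rw [if_neg h]
    have h' := h
    unfold Valid at h'
    rw [if_neg h']

/-- main formula -/
theorem Phi_of_valid (X : Ctx H) (n g : ℕ) (a : ℤ) (c : Fin n → ℤ) (k : ℤ) (d : ℕ) (G : GG)
    (hG : ∀ b ∈ G.support, lev b < n) (hg : X.en g = G) (hgn : g < n)
    (hLip : ∀ p p' : P H, |DG X G p - DG X G p'| ≤ ‖p - p'‖) (v : ℕ → HV H) :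
    Phi X ⟨n, (g, a, c, k, d)⟩ v =
      ep d * soft (max 0 (sfun X n k c d v)) (tent (hh d * sc k) (DG X G v - a * (hh d * sc k))) := by
  classical
  have htr : trunc n G = G := by
    unfold trunc
    rw [Finsupp.filter_eq_self_iff]
    intro b hb
    exact hG b (Finsupp.mem_support_iff.2 hb)
  have hv : Valid X n g := ⟨hgn, by rw [hg, htr]; exact hLip⟩
  rw [Phi_eq, if_pos hv, hg, htr]




theorem abs_Phi_sub_le (X : Ctx H) (n g : ℕ) (a : ℤ) (c : Fin n → ℤ) (k : ℤ) (d : ℕ) (p p' : P H) :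
    |Phi X ⟨n, (g, a, c, k, d)⟩ p - Phi X ⟨n, (g, a, c, k, d)⟩ p'| ≤ 2 * ep d * ‖p - p'‖ := by
  classical
  have hep := PhiAux.ep_pos d
  rw [Phi_eq, Phi_eq]
  by_cases hv : Valid X n g
  · rw [if_pos hv, if_pos hv, ← mul_sub, abs_mul, abs_of_pos hep]
    have hs := PhiAux.abs_sfun_sub_le X n k c d p p'
    have hb : |max 0 (sfun X n k c d p) - max 0 (sfun X n k c d p')| ≤ (1 / 2) * ‖p - p'‖ := by
      have h1 := PhiAux.abs_max_sub_max_zero (sfun X n k c d p) (sfun X n k c d p')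
      rw [max_comm 0, max_comm 0]
      exact h1.trans hs
    have ht := PhiAux.abs_tent_sub_le (hh d * sc k)
      (DG X (trunc n (X.en g)) p - a * (hh d * sc k)) (DG X (trunc n (X.en g)) p' - a * (hh d * sc k))
    have ht2 : |DG X (trunc n (X.en g)) p - a * (hh d * sc k) -
      (DG X (trunc n (X.en g)) p' - a * (hh d * sc k))| ≤ ‖p - p'‖ := by
      have e : DG X (trunc n (X.en g)) p - a * (hh d * sc k) -
        (DG X (trunc n (X.en g)) p' - a * (hh d * sc k)) =
          DG X (trunc n (X.en g)) p - DG X (trunc n (X.en g)) p' := by ring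
      rw [e]
      exact hv.2 p p'
    have h3 := PhiAux.abs_soft_sub_le (le_max_left 0 (sfun X n k c d p))
      (tent (hh d * sc k) (DG X (trunc n (X.en g)) p - a * (hh d * sc k)))
      (tent (hh d * sc k) (DG X (trunc n (X.en g)) p' - a * (hh d * sc k)))
    have h4 := PhiAux.abs_soft_sub_le' (le_max_left 0 (sfun X n k c d p))
      (le_max_left 0 (sfun X n k c d p'))
      (tent (hh d * sc k) (DG X (trunc n (X.en g)) p' - a * (hh d * sc k)))
    have h5 := abs_sub_le
      (soft (max 0 (sfun X n k c d p))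
        (tent (hh d * sc k) (DG X (trunc n (X.en g)) p - a * (hh d * sc k))))
      (soft (max 0 (sfun X n k c d p))
        (tent (hh d * sc k) (DG X (trunc n (X.en g)) p' - a * (hh d * sc k))))
      (soft (max 0 (sfun X n k c d p'))
        (tent (hh d * sc k) (DG X (trunc n (X.en g)) p' - a * (hh d * sc k))))
    have h6 : |soft (max 0 (sfun X n k c d p))
        (tent (hh d * sc k) (DG X (trunc n (X.en g)) p - a * (hh d * sc k))) -
        soft (max 0 (sfun X n k c d p'))
        (tent (hh d * sc k) (DG X (trunc n (X.en g)) p' - a * (hh d * sc k)))| ≤ 2 * ‖p - p'‖ := by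
      have := norm_nonneg (p - p')
      linarith
    calc ep d * _ ≤ ep d * (2 * ‖p - p'‖) := mul_le_mul_of_nonneg_left h6 hep.le
      _ = 2 * ep d * ‖p - p'‖ := by ring
  · rw [if_neg hv, if_neg hv, sub_zero, abs_zero]
    positivity

theorem abs_Phi_le (X : Ctx H) (n g : ℕ) (a : ℤ) (c : Fin n → ℤ) (k : ℤ) (d : ℕ) (v : ℕ → HV H) :
    |Phi X ⟨n, (g, a, c, k, d)⟩ v| ≤ ep d * (hh d * sc k) := by
  classical
  have hep := PhiAux.ep_pos d
  have hhp := PhiAux.hh_pos d
  have hsc := PhiAux.sc_pos k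
  rw [Phi_eq]
  by_cases hv : Valid X n g
  · rw [if_pos hv, abs_mul, abs_of_pos hep]
    refine mul_le_mul_of_nonneg_left ?_ hep.le
    exact (PhiAux.abs_soft_le (le_max_left _ _) _).trans (PhiAux.abs_tent_le (by positivity) _)
  · rw [if_neg hv, abs_zero]
    positivity

theorem Phi_active (X : Ctx H) (n g : ℕ) (a : ℤ) (c : Fin n → ℤ) (k : ℤ) (d : ℕ) (v : ℕ → HV H)
    (h : Phi X ⟨n, (g, a, c, k, d)⟩ v ≠ 0) :
    g < n ∧ sfun X n k c d v < hh d * sc k ∧
      |DG X (trunc n (X.en g)) v - a * (hh d * sc k)| < 2 * (hh d * sc k) := by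
  classical
  have hep := PhiAux.ep_pos d
  have hhp := PhiAux.hh_pos d
  have hsc := PhiAux.sc_pos k
  rw [Phi_eq] at h
  by_cases hv : Valid X n g
  · rw [if_pos hv] at h
    refine ⟨hv.1, ?_, ?_⟩
    · by_contra hs
      rw [not_lt] at hs
      apply h
      rw [PhiAux.soft_of_abs_le, mul_zero]
      exact (PhiAux.abs_tent_le (by positivity) _).trans (hs.trans (le_max_right _ _))
    · by_contra hs
      rw [not_lt] at hs
      apply h
      rw [PhiAux.tent_of_le_abs hs, PhiAux.soft_of_abs_le, mul_zero]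
      rw [abs_zero]
      exact le_max_left _ _
  · rw [if_neg hv] at h
    exact absurd rfl h

theorem Phi_loc_lt (X : Ctx H) (n g : ℕ) (a : ℤ) (c : Fin n → ℤ) (k : ℤ) (d : ℕ) (v : ℕ → HV H)
    (h : Phi X ⟨n, (g, a, c, k, d)⟩ v ≠ 0) : sfun X n k c d v < hh d * sc k :=
  (Phi_active X n g a c k d v h).2.1

/-- on the big cell -/
theorem bigcell_facts (X : Ctx H) (n : ℕ) (c : Fin n → ℤ) (k : ℤ) (d : ℕ) (v : ℕ → HV H)
    (h : sfun X n k c d v < hh d * sc k) :
    1 / (2 * rr d) < ‖v n‖ / sc k ∧ ‖v n‖ / sc k < 2 * rr d ∧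
      ∀ i : Fin n, |om i * obs X i v / sc (k + 1) - c i| < rho d + 1 / 2 := by
  have hsc := PhiAux.sc_pos k
  have hrr := PhiAux.rr_pos d
  have hrr1 := PhiAux.one_le_rr d
  have hhe : 2 * (hh d * sc k) / sc k = 1 / (2 * rr d) := by
    unfold hh
    field_simp
    norm_num
  have key : ∀ j, PhiAux.sterm X n k c d v j < 1 / (2 * rr d) := fun j => by
    rw [← hhe]; exact PhiAux.sterm_lt_of_sfun_lt h j
  have h0 := key none
  have h1 : 1 / rr d - ‖v n‖ / sc k < 1 / (2 * rr d) := lt_of_le_of_lt (le_max_left _ _) h0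
  have h2 : ‖v n‖ / sc k - rr d < 1 / (2 * rr d) := lt_of_le_of_lt (le_max_right _ _) h0
  have e1 : 1 / rr d = 2 * (1 / (2 * rr d)) := by field_simp
  have e2 : 1 / (2 * rr d) ≤ 1 / 2 := by
    rw [div_le_div_iff₀ (by linarith) (by norm_num)]; linarith
  refine ⟨by linarith, by linarith, fun i => ?_⟩
  have h3 : |om i * obs X i v / sc (k + 1) - c i| - rho d < 1 / (2 * rr d) := key (some i)
  linarith

/-- localization with flattening depth `d + 1` -/
theorem Phi_loc (X : Ctx H) (n g : ℕ) (a : ℤ) (c : Fin n → ℤ) (k : ℤ) (d : ℕ) (v : ℕ → HV H)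
    (h : Phi X ⟨n, (g, a, c, k, d)⟩ v ≠ 0) :
    sfun X n k c (d + 1) v ≤ -(sc k / (2 * rr (d + 1))) := by
  have hsc := PhiAux.sc_pos k
  have hrr := PhiAux.rr_pos d
  have hrr1 := PhiAux.one_le_rr d
  obtain ⟨h1, h2, h3⟩ := bigcell_facts X n c k d v (Phi_loc_lt X n g a c k d v h)
  have hR : rr (d + 1) = 4 * rr d := PhiAux.rr_succ d
  have hRpos : 0 < rr (d + 1) := PhiAux.rr_pos _
  have hinv : 1 / rr (d + 1) ≤ 1 / 4 := by
    rw [hR, div_le_div_iff₀ (by linarith) (by norm_num)]; linarith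
  have e1 : 1 / (2 * rr d) = 2 * (1 / rr (d + 1)) := by
    rw [hR]; field_simp; norm_num
  have e2 : -(sc k / (2 * rr (d + 1))) = (1 / 2) * sc k * (-(1 / rr (d + 1))) := by
    field_simp
  rw [e2]
  refine PhiAux.sfun_le_of ?_ ?_ fun i => ?_
  · rw [e1] at h1; linarith
  · rw [hR] at *; linarith
  · have := h3 i
    rw [PhiAux.rho_succ]
    linarith

theorem Phi_zero (X : Ctx H) (σ : Sg) : Phi X σ (0 : ℕ → HV H) = 0 := by
  obtain ⟨n, g, a, c, k, d⟩ := σ
  by_contra h
  obtain ⟨h1, -, -⟩ := bigcell_facts X n c k d 0 (Phi_loc_lt X n g a c k d 0 h)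
  have hrr := PhiAux.rr_pos d
  have h0 : ‖(0 : ℕ → HV H) n‖ / sc k = 0 := by
    simp
  rw [h0] at h1
  have : 0 < 1 / (2 * rr d) := by positivity
  linarith

/-! ### finiteness -/

theorem int_near {x : ℝ} {m M : ℤ} (h : |x - m| < M) : m - ⌊x⌋ ∈ Finset.Icc (-(M + 1)) (M + 1) := by
  rw [abs_lt] at h
  have h1 := Int.floor_le x
  have h2 := Int.lt_floor_add_one x
  rw [Finset.mem_Icc]
  constructor
  · have : (-(M + 1) : ℝ) ≤ (m : ℝ) - ⌊x⌋ := by linarith
    exact_mod_cast this
  · have : (m : ℝ) - ⌊x⌋ ≤ (M + 1 : ℝ) := by linarith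
    exact_mod_cast this

/-- finite parameter set for the active coordinates of level `n`, depth `d` -/
noncomputable def ovPar (n d : ℕ) : Finset (ℕ × ℤ × (Fin n → ℤ) × ℤ) :=
  Finset.range n ×ˢ (Finset.Icc (-(2 + 1)) (2 + 1) ×ˢ
    (Fintype.piFinset (fun _ => Finset.Icc (-((2 * d + 4 : ℤ) + 1)) ((2 * d + 4 : ℤ) + 1)) ×ˢ
      Finset.Icc (-(⌈Real.log (2 * rr d) / 1000⌉ + 1 + 1)) (⌈Real.log (2 * rr d) / 1000⌉ + 1 + 1)))

noncomputable def ovParMap (X : Ctx H) (n d : ℕ) (v : ℕ → HV H) (q : ℕ × ℤ × (Fin n → ℤ) × ℤ) : Sg :=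
  ⟨n, (q.1, ⌊DG X (trunc n (X.en q.1)) v / (hh d * sc (⌊Real.log ‖v n‖ / 1000⌋ + q.2.2.2))⌋ + q.2.1,
    fun i => ⌊om i * obs X i v / sc (⌊Real.log ‖v n‖ / 1000⌋ + q.2.2.2 + 1)⌋ + q.2.2.1 i,
    ⌊Real.log ‖v n‖ / 1000⌋ + q.2.2.2, d)⟩

open Classical in
theorem active_mem (X : Ctx H) (n g : ℕ) (a : ℤ) (c : Fin n → ℤ) (k : ℤ) (d : ℕ) (v : ℕ → HV H)
    (h : Phi X ⟨n, (g, a, c, k, d)⟩ v ≠ 0) :
    (⟨n, (g, a, c, k, d)⟩ : Sg) ∈ (ovPar n d).image (ovParMap X n d v) := by
  have hsc := PhiAux.sc_pos k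
  have hrr := PhiAux.rr_pos d
  have hrr1 := PhiAux.one_le_rr d
  have hhp := PhiAux.hh_pos d
  obtain ⟨hg, hs, hD⟩ := Phi_active X n g a c k d v h
  obtain ⟨h1, h2, h3⟩ := bigcell_facts X n c k d v hs
  rw [Finset.mem_image]
  refine ⟨(g, a - ⌊DG X (trunc n (X.en g)) v / (hh d * sc k)⌋,
    fun i => c i - ⌊om i * obs X i v / sc (k + 1)⌋, k - ⌊Real.log ‖v n‖ / 1000⌋), ?_, ?_⟩
  · unfold ovPar
    simp only [Finset.mem_product, Finset.mem_range, Fintype.mem_piFinset]
    refine ⟨hg, ?_, fun i => ?_, ?_⟩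
    · apply int_near
      have hpos : 0 < hh d * sc k := by positivity
      have e : DG X (trunc n (X.en g)) v / (hh d * sc k) - a =
          (DG X (trunc n (X.en g)) v - a * (hh d * sc k)) / (hh d * sc k) := by
        field_simp
      rw [e, abs_div, abs_of_pos hpos, div_lt_iff₀ hpos]
      push_cast
      exact hD
    · apply int_near
      have := h3 i
      unfold rho at this
      push_cast
      linarith
    · apply int_near
      have hv0 : 0 < ‖v n‖ := by
        have : 0 < ‖v n‖ / sc k := lt_trans (by positivity) h1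
        exact (div_pos_iff_of_pos_right hsc).1 this
      have hlog : Real.log (‖v n‖ / sc k) = Real.log ‖v n‖ - 1000 * k := by
        rw [Real.log_div hv0.ne' hsc.ne']
        unfold sc
        rw [Real.log_exp]
      have hl1 : Real.log (‖v n‖ / sc k) < Real.log (2 * rr d) :=
        Real.log_lt_log (by positivity) h2
      have hl2 : - Real.log (2 * rr d) < Real.log (‖v n‖ / sc k) := by
        rw [← Real.log_inv, ← one_div]
        exact Real.log_lt_log (by positivity) h1
      have hc := Int.le_ceil (Real.log (2 * rr d) / 1000)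
      rw [hlog] at hl1 hl2
      rw [abs_lt]
      push_cast
      constructor
      · have : Real.log ‖v n‖ / 1000 - k = (Real.log ‖v n‖ - 1000 * k) / 1000 := by ring
        rw [this]
        have h5 : - (Real.log (2 * rr d) / 1000) < (Real.log ‖v n‖ - 1000 * k) / 1000 := by
          rw [← neg_div]
          exact div_lt_div_of_pos_right hl2 (by norm_num)
        linarith
      · have : Real.log ‖v n‖ / 1000 - k = (Real.log ‖v n‖ - 1000 * k) / 1000 := by ring
        rw [this]
        have h5 : (Real.log ‖v n‖ - 1000 * k) / 1000 < Real.log (2 * rr d) / 1000 :=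
          div_lt_div_of_pos_right hl1 (by norm_num)
        linarith
  · unfold ovParMap
    have hk : ⌊Real.log ‖v n‖ / 1000⌋ + (k - ⌊Real.log ‖v n‖ / 1000⌋) = k := by ring
    simp only [hk]
    have ha : ⌊DG X (trunc n (X.en g)) v / (hh d * sc k)⌋ +
      (a - ⌊DG X (trunc n (X.en g)) v / (hh d * sc k)⌋) = a := by ring
    have hc : (fun i : Fin n => ⌊om i * obs X i v / sc (k + 1)⌋ +
      (c i - ⌊om i * obs X i v / sc (k + 1)⌋)) = c := by
      funext i; ring
    rw [ha, hc]

/-- bounded overlap at fixed level and depth -/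
theorem Phi_overlap (X : Ctx H) (n d : ℕ) : ∃ N : ℕ, ∀ (p : P H) (A : Finset Sg),
    (∀ σ ∈ A, σ.1 = n ∧ σ.2.2.2.2.2 = d ∧ Phi X σ p ≠ 0) → A.card ≤ N := by
  classical
  refine ⟨(ovPar n d).card, fun p A hA => ?_⟩
  have hsub : A ⊆ (ovPar n d).image (ovParMap X n d p) := by
    rintro ⟨n', g, a, c, k, d'⟩ hσ
    obtain ⟨h1, h2, h3⟩ := hA _ hσ
    simp only at h1 h2
    subst h1
    subst h2
    exact active_mem X n' g a c k d' p h3
  exact (Finset.card_le_card hsub).trans Finset.card_image_le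

theorem abs_Phi_le_norm (X : Ctx H) (n g : ℕ) (a : ℤ) (c : Fin n → ℤ) (k : ℤ) (d : ℕ)
    (v : ℕ → HV H) :
    |Phi X ⟨n, (g, a, c, k, d)⟩ v| ≤ ep d * ‖v n‖ := by
  by_cases h : Phi X ⟨n, (g, a, c, k, d)⟩ v = 0
  · rw [h, abs_zero]
    have := PhiAux.ep_pos d
    positivity
  have hsc := PhiAux.sc_pos k
  have hrr := PhiAux.rr_pos d
  have hep := PhiAux.ep_pos d
  obtain ⟨h1, h2, h3⟩ := bigcell_facts X n c k d v (Phi_loc_lt X n g a c k d v h)
  refine (abs_Phi_le X n g a c k d v).trans ?_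
  refine mul_le_mul_of_nonneg_left ?_ hep.le
  rw [lt_div_iff₀ hsc] at h1
  refine le_trans (mul_le_mul_of_nonneg_right ?_ hsc.le) h1.le
  unfold hh
  rw [div_le_div_iff₀ (by positivity) (by positivity)]
  linarith

/-- `Phi(p) ∈ c₀(Sg)` -/
theorem Phi_null (X : Ctx H) (p : P H) : Tendsto (fun σ => Phi X σ p) cofinite (𝓝 0) := by
  classical
  rw [Metric.tendsto_nhds]
  intro ε hε
  rw [eventually_cofinite]
  -- levels
  have hp0 : Tendsto (fun n => p n) atTop (𝓝 0) := by
    have h := p.zero_at_infty'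
    rw [cocompact_eq_cofinite, Nat.cofinite_eq_atTop] at h
    exact h
  obtain ⟨N, hN⟩ := (Metric.tendsto_atTop.1 hp0) ε hε
  have hd0 : Tendsto (fun d => ep d * ‖p‖) atTop (𝓝 0) := by
    have := PhiAux.tendsto_ep.mul_const ‖p‖
    simpa using this
  obtain ⟨D, hD⟩ := (Metric.tendsto_atTop.1 hd0) ε hε
  refine Set.Finite.subset (s := ⋃ n ∈ Finset.range N, ⋃ d ∈ Finset.range D,
    (((ovPar n d).image (ovParMap X n d p) : Finset Sg) : Set Sg)) ?_ ?_
  · exact Set.Finite.biUnion (Finset.finite_toSet _) fun n _ =>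
      Set.Finite.biUnion (Finset.finite_toSet _) fun d _ => Finset.finite_toSet _
  · rintro ⟨n, g, a, c, k, d⟩ hσ
    rw [Set.mem_ofPred_eq, dist_zero_right, Real.norm_eq_abs, not_lt] at hσ
    have h1 := abs_Phi_le_norm X n g a c k d p
    have hep := PhiAux.ep_pos d
    have hep1 := PhiAux.ep_le_one d
    have hne : Phi X ⟨n, (g, a, c, k, d)⟩ p ≠ 0 := by
      intro h0
      rw [h0, abs_zero] at hσ
      linarith
    have hn : n < N := by
      by_contra hn
      have h2 := hN n (not_lt.1 hn)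
      rw [dist_zero_right] at h2
      have h3 : ep d * ‖p n‖ ≤ 1 * ‖p n‖ := mul_le_mul_of_nonneg_right hep1 (norm_nonneg _)
      linarith
    have hd : d < D := by
      by_contra hd
      have h2 := hD d (not_lt.1 hd)
      rw [dist_zero_right, Real.norm_eq_abs, abs_of_nonneg (by positivity)] at h2
      have h3 : ep d * ‖p n‖ ≤ ep d * ‖p‖ :=
        mul_le_mul_of_nonneg_left (PhiAux.norm_P_apply_le p n) hep.le
      linarith
    simp only [Set.mem_iUnion]
    exact ⟨n, Finset.mem_range.2 hn, d, Finset.mem_range.2 hd,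
      Finset.mem_coe.2 (active_mem X n g a c k d p hne)⟩

/-! ### `DG` -/


theorem DG_smul (X : Ctx H) (q : ℚ) (G : GG) (v : ℕ → HV H) : DG X (q • G) v = q * DG X G v := by
  classical
  unfold DG
  rw [Finsupp.sum_smul_index' (fun b => by simp)]
  unfold Finsupp.sum
  rw [Finset.mul_sum]
  refine Finset.sum_congr rfl fun b _ => ?_
  simp only [smul_eq_mul]
  push_cast
  ring

theorem DG_single (X : Ctx H) (b : Bk) (q : ℚ) (v : ℕ → HV H) :
    DG X (Finsupp.single b q) v = q * DB X b v := by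
  unfold DG
  rw [Finsupp.sum_single_index (by simp)]


theorem abs_DB_sub_le (X : Ctx H) (b : Bk) (p p' : P H) : |DB X b p - DB X b p'| ≤ 3 * ‖p - p'‖ := by
  unfold DB DBT
  cases b with
  | inl μ =>
    show |inner ℝ (fV X μ) (beta X μ.1 p) - inner ℝ (fV X μ) (beta X μ.1 p')| ≤ 3 * ‖p - p'‖
    rw [← inner_sub_right]
    refine (abs_real_inner_le_norm _ _).trans ?_
    have h1 := norm_fV_le X μ
    have h2 := norm_beta_sub_le X μ.1 p p' ‖p - p'‖ (norm_nonneg _)
      (fun m _ => PhiAux.norm_P_sub_apply_le p p' m)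
    calc ‖fV X μ‖ * ‖beta X μ.1 p - beta X μ.1 p'‖ ≤ 1 * (3 * ‖p - p'‖) :=
          mul_le_mul h1 h2 (norm_nonneg _) zero_le_one
      _ = 3 * ‖p - p'‖ := one_mul _
  | inr σ =>
    obtain ⟨n, g, a, c, k, d⟩ := σ
    refine (abs_Phi_sub_le X n g a c k d p p').trans ?_
    have := PhiAux.ep_le_one d
    have h2 := norm_nonneg (p - p')
    nlinarith



end Crest.Agent.R091
end

-- ▼ part R091/Phi

/-! # Row 91, module Phi: see Phi1, Phi2, Phi3 -/
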